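import Vale.Agent.P264.Manifold.Statement

/-!
The three pieces between the profile statement and the statement on the projective space.
-/

namespace Vale.Agent.P264.Manifold

open Set

/-- Coordinate `0` is the distinguished one; the unitary group of the other eight acts. -/
noncomputable def act (U : Matrix (Fin 8) (Fin 8) ℂ) (Z : Hom) : Hom :=
  Fin.cons (Z 0) (U.mulVec (Fin.tail Z))

/-- Invariance under that unitary group. -/
def Invariant (ψ : Hom → ℝ) : Prop :=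
  ∀ U : Matrix (Fin 8) (Fin 8) ℂ, U ∈ Matrix.unitaryGroup (Fin 8) ℂ →
    ∀ Z : Hom, Z ≠ 0 → ψ (act U Z) = ψ Z

/-- `φ` is the momentum profile of `ψ`, read along the first axis of chart `0`: if `F(ρ)` is the
potential at `|z|^2 = exp ρ` then `φ (F' ρ) = F'' ρ`. -/
def HasProfile (L : ℝ) (ψ : Hom → ℝ) (φ : ℝ → ℝ) : Prop :=
  let F : ℝ → ℝ := fun ρ => pot L ψ 0 (Pi.single 0 (Real.exp (ρ / 2) : ℂ))
  ∀ ρ : ℝ, deriv F ρ ∈ Ioo 0 L ∧ φ (deriv F ρ) = deriv (deriv F) ρ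

/-- Every profile comes from an invariant Kaehler form. -/
def RealizeTarget : Prop :=
  ∀ (L : ℝ) (φ₀ : ℝ → ℝ), 0 < L → IsProfile L φ₀ →
    ∃ ψ₀, IsKahlerPotential L ψ₀ ∧ Invariant ψ₀ ∧ HasProfile L ψ₀ φ₀

/-- An invariant Calabi flow gives a flow of profiles. -/
def ProfileFlowTarget : Prop :=
  ∀ (L T b : ℝ) (φ₀ : ℝ → ℝ) (ψ₀ : Hom → ℝ) (ψ : ℝ → Hom → ℝ), 0 < L → 0 < T →
    IsProfile L φ₀ → HasProfile L ψ₀ φ₀ → IsCalabiFlow L T b ψ₀ ψ →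
    (∀ t ∈ Icc 0 T, Invariant (ψ t)) → ∃ φ, IsFlow L T φ₀ φ

/-- The flow from an invariant form is invariant (by uniqueness). -/
def InvariantFlowTarget : Prop :=
  ∀ (L T b : ℝ) (ψ₀ : Hom → ℝ) (ψ : ℝ → Hom → ℝ), 0 < L → 0 < T → Invariant ψ₀ →
    IsCalabiFlow L T b ψ₀ ψ → ∀ t ∈ Icc 0 T, Invariant (ψ t)

/-- The profile disproof gives the disproof on the projective space. -/
theorem manifoldDisproof (hR : RealizeTarget) (hP : ProfileFlowTarget)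
    (hI : InvariantFlowTarget) (h : Disproof) : ManifoldDisproof := by
  obtain ⟨L, hL, φ₀, hφ₀, hno⟩ := h
  obtain ⟨ψ₀, hK, hinv, hprof⟩ := hR L φ₀ hL hφ₀
  refine ⟨L, hL, ψ₀, hK, fun b T hT ψ hψ => ?_⟩
  have hT0 : 0 < T := one_pos.trans_le hT
  obtain ⟨φ, hφ⟩ := hP L T b φ₀ ψ₀ ψ hL hT0 hφ₀ hprof hψ (hI L T b ψ₀ ψ hL hT0 hinv hψ)
  exact hno φ ⟨hφ.smooth.mono (prod_mono (Icc_subset_Icc_right hT) subset_rfl), hφ.initial,
    fun t ht => hφ.profile t ⟨ht.1, ht.2.trans hT⟩,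
    fun t ht x hx => hφ.eqn t ⟨ht.1, ht.2.trans_le hT⟩ x hx⟩

end Vale.Agent.P264.Manifold
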