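import Vale.Agent.P264.Manifold.EvenTarget
import Vale.Agent.P264.Calc.Param

/-!
Smooth even functions are smooth functions of the square: `G t N = f t (√N)` has derivative
`(f_t, h)` at `√N`, where `h t r = (1/2) ∫₀¹ f_rr (t, u r) du` is again smooth and even.
-/

namespace Vale.Agent.P264.Manifold

open Set Filter
open scoped ContDiff Topology
open Calc

variable {a b : ℝ} {f : ℝ → ℝ → ℝ}

/-- Half the average of the second space derivative over `[0, r]`. -/
noncomputable def avg2 (a b : ℝ) (f : ℝ → ℝ → ℝ) (t r : ℝ) : ℝ :=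
  (1 / 2) * ∫ u in (0:ℝ)..1, pdX (Icc a b) univ (pdX (Icc a b) univ f) t (u * r)

theorem avg2_smooth (hab : a < b) (hf : Smooth2 (Icc a b) univ f) :
    Smooth2 (Icc a b) univ (avg2 a b f) := by
  have hI := uniqueDiffOn_Icc hab
  have h2 := (hf.pdX hI uniqueDiffOn_univ).pdX hI uniqueDiffOn_univ
  have hg : ContDiffOn ℝ ∞ (fun p : ℝ × (ℝ × ℝ) =>
      pdX (Icc a b) univ (pdX (Icc a b) univ f) p.2.1 (p.1 * p.2.2))
      (Icc (0:ℝ) 1 ×ˢ (Icc a b ×ˢ univ)) :=
    h2.comp ((by fun_prop : ContDiff ℝ ∞ fun p : ℝ × (ℝ × ℝ) => (p.2.1, p.1 * p.2.2)).contDiffOn)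
      fun p hp => mk_mem_prod hp.2.1 (mem_univ _)
  exact contDiffOn_const.mul (contDiffOn_param ((convex_Icc a b).prod convex_univ)
    (hI.prod uniqueDiffOn_univ) (fun x _ => ⟨1, one_pos,
      (isCompact_closedBall x 1).inter_right (isClosed_Icc.prod isClosed_univ)⟩) hg)

theorem deriv_even {g : ℝ → ℝ} (hg : ∀ r, g (-r) = g r) (r : ℝ) : deriv g (-r) = -deriv g r := by
  have h := deriv_comp_neg (f := g) (x := r)
  rw [show (fun x => g (-x)) = g from funext hg] at h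
  linarith

theorem pdX_odd (hf : Smooth2 (Icc a b) univ f) (he : ∀ t ∈ Icc a b, ∀ r, f t (-r) = f t r)
    {t : ℝ} (ht : t ∈ Icc a b) (r : ℝ) :
    pdX (Icc a b) univ f t (-r) = -pdX (Icc a b) univ f t r := by
  rw [← hf.deriv_x ht univ_mem, ← hf.deriv_x ht univ_mem]
  exact deriv_even (he t ht) r

theorem pdX2_even (hab : a < b) (hf : Smooth2 (Icc a b) univ f)
    (he : ∀ t ∈ Icc a b, ∀ r, f t (-r) = f t r) {t : ℝ} (ht : t ∈ Icc a b) (r : ℝ) :
    pdX (Icc a b) univ (pdX (Icc a b) univ f) t (-r)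
      = pdX (Icc a b) univ (pdX (Icc a b) univ f) t r := by
  have h1 := hf.pdX (uniqueDiffOn_Icc hab) uniqueDiffOn_univ
  rw [← h1.deriv_x ht univ_mem, ← h1.deriv_x ht univ_mem]
  set g := pdX (Icc a b) univ f t with hg
  have e : g = fun x => -g (-x) := funext fun x => by
    rw [hg, pdX_odd hf he ht, neg_neg]
  conv_rhs => rw [e, deriv.fun_neg, deriv_comp_neg (f := g), neg_neg]

theorem avg2_even (hab : a < b) (hf : Smooth2 (Icc a b) univ f)
    (he : ∀ t ∈ Icc a b, ∀ r, f t (-r) = f t r) {t : ℝ} (ht : t ∈ Icc a b) (r : ℝ) :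
    avg2 a b f t (-r) = avg2 a b f t r := by
  unfold avg2
  congr 1
  refine intervalIntegral.integral_congr fun u _ => ?_
  simp only [mul_neg]
  exact pdX2_even hab hf he ht _

theorem pdT_even (hab : a < b) (hf : Smooth2 (Icc a b) univ f)
    (he : ∀ t ∈ Icc a b, ∀ r, f t (-r) = f t r) {t : ℝ} (ht : t ∈ Icc a b) (r : ℝ) :
    pdT (Icc a b) univ f t (-r) = pdT (Icc a b) univ f t r := by
  rw [← hf.derivWithin_t (uniqueDiffOn_Icc hab) ht (mem_univ _),
    ← hf.derivWithin_t (uniqueDiffOn_Icc hab) ht (mem_univ _)]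
  exact derivWithin_congr (fun s hs => he s hs r) (he t ht r)

/-- The first derivative is `2 r` times the average. -/
theorem pdX_eq_avg2 (hab : a < b) (hf : Smooth2 (Icc a b) univ f)
    (he : ∀ t ∈ Icc a b, ∀ r, f t (-r) = f t r) {t : ℝ} (ht : t ∈ Icc a b) (r : ℝ) :
    pdX (Icc a b) univ f t r = 2 * r * avg2 a b f t r := by
  have hI := uniqueDiffOn_Icc hab
  have h1 := hf.pdX hI uniqueDiffOn_univ
  have h0 : pdX (Icc a b) univ f t 0 = 0 := by
    have h := pdX_odd hf he ht 0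
    rw [neg_zero] at h
    linarith
  have hc : Continuous (pdX (Icc a b) univ (pdX (Icc a b) univ f) t) :=
    continuousOn_univ.1 ((h1.pdX hI uniqueDiffOn_univ).slice_x ht).continuousOn
  have h := intervalIntegral.integral_eq_sub_of_hasDerivAt (a := (0:ℝ)) (b := r)
    (fun x _ => h1.hasDerivAt_x ht univ_mem) (hc.intervalIntegrable _ _)
  have e := intervalIntegral.mul_integral_comp_mul_right (a := (0:ℝ)) (b := 1)
    (f := pdX (Icc a b) univ (pdX (Icc a b) univ f) t) (c := r)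
  rw [zero_mul, one_mul, h, h0, sub_zero] at e
  unfold avg2
  linear_combination -e

/-- The function of the square. -/
noncomputable def ofSq (f : ℝ → ℝ → ℝ) (t N : ℝ) : ℝ := f t (Real.sqrt N)

theorem continuousOn_ofSq (hf : Smooth2 (Icc a b) univ f) :
    ContinuousOn (Function.uncurry (ofSq f)) (Icc a b ×ˢ Ici 0) :=
  hf.continuousOn.comp ((by fun_prop : Continuous fun p : ℝ × ℝ => (p.1, Real.sqrt p.2)).continuousOn)
    fun p hp => mk_mem_prod hp.1 (mem_univ _)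

/-- The differential of the function of the square. -/
noncomputable def dOfSq (a b : ℝ) (f : ℝ → ℝ → ℝ) (p : ℝ × ℝ) : ℝ × ℝ →L[ℝ] ℝ :=
  ofSq (pdT (Icc a b) univ f) p.1 p.2 • ContinuousLinearMap.fst ℝ ℝ ℝ
    + ofSq (avg2 a b f) p.1 p.2 • ContinuousLinearMap.snd ℝ ℝ ℝ

theorem hasFDerivAt_ofSq (hab : a < b) (hf : Smooth2 (Icc a b) univ f)
    (he : ∀ t ∈ Icc a b, ∀ r, f t (-r) = f t r) {p : ℝ × ℝ} (hp : p ∈ Ioo a b ×ˢ Ioi 0) :
    HasFDerivAt (Function.uncurry (ofSq f)) (dOfSq a b f p) p := by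
  obtain ⟨t, N⟩ := p
  obtain ⟨ht, hN⟩ := hp
  have ht' := Ioo_subset_Icc_self ht
  have hn : Icc a b ×ˢ (univ : Set ℝ) ∈ 𝓝 (t, Real.sqrt N) :=
    prod_mem_nhds (Icc_mem_nhds ht.1 ht.2) univ_mem
  set D := fderivWithin ℝ (Function.uncurry f) (Icc a b ×ˢ univ) (t, Real.sqrt N) with hD
  have hd : HasFDerivAt (Function.uncurry f) D (t, Real.sqrt N) :=
    ((hf.differentiableOn (by simp)) _ (mem_of_mem_nhds hn)).hasFDerivWithinAt.hasFDerivAt hn
  have hs : HasFDerivAt (fun q : ℝ × ℝ => Real.sqrt q.2)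
      ((1 / (2 * Real.sqrt N)) • ContinuousLinearMap.snd ℝ ℝ ℝ) (t, N) :=
    (Real.hasDerivAt_sqrt (ne_of_gt hN)).comp_hasFDerivAt (t, N)
      (hasFDerivAt_snd (𝕜 := ℝ) (p := (t, N)))
  have h : HasFDerivAt (Function.uncurry (ofSq f))
      (D.comp ((ContinuousLinearMap.fst ℝ ℝ ℝ).prod
        ((1 / (2 * Real.sqrt N)) • ContinuousLinearMap.snd ℝ ℝ ℝ))) (t, N) :=
    HasFDerivAt.comp (g := Function.uncurry f) (g' := D) (f := fun q : ℝ × ℝ => (q.1, Real.sqrt q.2))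
      (t, N) hd ((hasFDerivAt_fst (𝕜 := ℝ) (p := (t, N))).prodMk hs)
  refine h.congr_fderiv ?_
  have hx : D (0, 1) = 2 * Real.sqrt N * avg2 a b f t (Real.sqrt N) :=
    pdX_eq_avg2 hab hf he ht' _
  have hne : Real.sqrt N ≠ 0 := (Real.sqrt_pos.2 hN).ne'
  refine ContinuousLinearMap.ext fun v => ?_
  have hv : ((v.1, 1 / (2 * Real.sqrt N) * v.2) : ℝ × ℝ)
      = v.1 • ((1:ℝ), (0:ℝ)) + (1 / (2 * Real.sqrt N) * v.2) • ((0:ℝ), (1:ℝ)) := by
    ext <;> simp
  show D (v.1, 1 / (2 * Real.sqrt N) * v.2) = _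
  rw [hv, map_add, map_smul, map_smul, hx]
  show v.1 * pdT (Icc a b) univ f t (Real.sqrt N) + _
    = pdT (Icc a b) univ f t (Real.sqrt N) * v.1 + avg2 a b f t (Real.sqrt N) * v.2
  rw [smul_eq_mul]
  field_simp

theorem hasFDerivWithinAt_ofSq (hab : a < b) (hf : Smooth2 (Icc a b) univ f)
    (he : ∀ t ∈ Icc a b, ∀ r, f t (-r) = f t r) {p : ℝ × ℝ} (hp : p ∈ Icc a b ×ˢ Ici 0) :
    HasFDerivWithinAt (Function.uncurry (ofSq f)) (dOfSq a b f p) (Icc a b ×ˢ Ici 0) p := by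
  have hcl : closure (Ioo a b ×ˢ Ioi (0:ℝ)) = Icc a b ×ˢ Ici 0 := by
    rw [closure_prod_eq, closure_Ioo hab.ne, closure_Ioi]
  have hsub : Ioo a b ×ˢ Ioi (0:ℝ) ⊆ Icc a b ×ˢ Ici 0 :=
    prod_mono Ioo_subset_Icc_self Ioi_subset_Ici_self
  have hD : ContinuousOn (dOfSq a b f) (Icc a b ×ˢ Ici 0) :=
    ((continuousOn_ofSq (hf.pdT (uniqueDiffOn_Icc hab) uniqueDiffOn_univ)).smul
      continuousOn_const).add
      ((continuousOn_ofSq (avg2_smooth hab hf)).smul continuousOn_const)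
  rw [← hcl]
  refine hasFDerivWithinAt_closure_of_tendsto_fderiv (fun q hq =>
    (hasFDerivAt_ofSq hab hf he hq).differentiableAt.differentiableWithinAt)
    ((convex_Ioo a b).prod (convex_Ioi 0)) (isOpen_Ioo.prod isOpen_Ioi) (fun q hq => ?_) ?_
  · exact (continuousOn_ofSq hf q (by rwa [hcl] at hq)).mono hsub
  · refine ((hD p hp).mono hsub).congr' ?_
    filter_upwards [self_mem_nhdsWithin] with q hq
    exact (hasFDerivAt_ofSq hab hf he hq).fderiv.symm

theorem contDiffOn_ofSq_nat (hab : a < b) (n : ℕ) :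
    ∀ {f : ℝ → ℝ → ℝ}, Smooth2 (Icc a b) univ f → (∀ t ∈ Icc a b, ∀ r, f t (-r) = f t r) →
      ContDiffOn ℝ n (Function.uncurry (ofSq f)) (Icc a b ×ˢ Ici 0) := by
  induction n with
  | zero =>
    intro f hf _
    rw [Nat.cast_zero, contDiffOn_zero]
    exact continuousOn_ofSq hf
  | succ n ih =>
    intro f hf he
    have hu : UniqueDiffOn ℝ (Icc a b ×ˢ Ici (0:ℝ)) :=
      (uniqueDiffOn_Icc hab).prod (uniqueDiffOn_Ici 0)
    rw [Nat.cast_succ, contDiffOn_succ_iff_fderivWithin hu]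
    refine ⟨fun p hp => (hasFDerivWithinAt_ofSq hab hf he hp).differentiableWithinAt, by simp,
      ContDiffOn.congr (f := dOfSq a b f) ?_ fun p hp =>
        (hasFDerivWithinAt_ofSq hab hf he hp).fderivWithin (hu p hp)⟩
    exact ((ih (hf.pdT (uniqueDiffOn_Icc hab) uniqueDiffOn_univ)
        fun t ht => pdT_even hab hf he ht).smul contDiffOn_const).add
      ((ih (avg2_smooth hab hf) fun t ht => avg2_even hab hf he ht).smul contDiffOn_const)

/-- Whitney's theorem on even functions, with a parameter. -/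
theorem even : EvenTarget := by
  intro a b f hab hf he
  refine ⟨ofSq f, contDiffOn_infty.2 fun n => contDiffOn_ofSq_nat hab n hf he, fun t ht r => ?_⟩
  rw [ofSq, Real.sqrt_sq_eq_abs]
  rcases abs_choice r with h | h <;> rw [h]
  exact (he t ht r).symm

end Vale.Agent.P264.Manifold
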