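import Vale.Agent.P264.Manifold.Statement

/-!
Non-vacuity and normalisation: Fubini-Study is a stationary Calabi flow with scalar curvature
`72 / L`.
-/

namespace Vale.Agent.P264.Manifold

open Set Filter Matrix
open scoped ContDiff ComplexOrder Topology

/-- `|z|^2` as a polynomial in real coordinates. -/
noncomputable def sq2 (z : Chart) : ℝ := ∑ j, ((z j).re ^ 2 + (z j).im ^ 2)

/-- The differential of `sq2`, halved, as a continuous linear map. -/
noncomputable def dotR (z : Chart) : Chart →L[ℝ] ℝ :=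
  ∑ j, ((z j).re • Complex.reCLM.comp (ContinuousLinearMap.proj (R := ℝ) (φ := fun _ : Fin 8 => ℂ) j)
    + (z j).im • Complex.imCLM.comp (ContinuousLinearMap.proj (R := ℝ) (φ := fun _ : Fin 8 => ℂ) j))

theorem dotR_apply (z v : Chart) :
    dotR z v = ∑ j, ((z j).re * (v j).re + (z j).im * (v j).im) := by
  simp [dotR]

theorem sq2_eq (z : Chart) : ∑ j, ‖z j‖ ^ 2 = sq2 z :=
  Finset.sum_congr rfl fun j _ => by rw [Complex.sq_norm, Complex.normSq_apply]; ring

theorem sq2_nonneg (z : Chart) : 0 ≤ sq2 z :=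
  Finset.sum_nonneg fun _ _ => by positivity

theorem hasFDerivAt_re (j : Fin 8) (z : Chart) :
    HasFDerivAt (fun w : Chart => (w j).re)
      (Complex.reCLM.comp (ContinuousLinearMap.proj (R := ℝ) (φ := fun _ : Fin 8 => ℂ) j)) z :=
  (Complex.reCLM.comp (ContinuousLinearMap.proj (R := ℝ) (φ := fun _ : Fin 8 => ℂ) j)).hasFDerivAt

theorem hasFDerivAt_im (j : Fin 8) (z : Chart) :
    HasFDerivAt (fun w : Chart => (w j).im)
      (Complex.imCLM.comp (ContinuousLinearMap.proj (R := ℝ) (φ := fun _ : Fin 8 => ℂ) j)) z :=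
  (Complex.imCLM.comp (ContinuousLinearMap.proj (R := ℝ) (φ := fun _ : Fin 8 => ℂ) j)).hasFDerivAt

theorem hasFDerivAt_sq2 (z : Chart) : HasFDerivAt sq2 ((2 : ℝ) • dotR z) z := by
  have h : ∀ j ∈ (Finset.univ : Finset (Fin 8)),
      HasFDerivAt (fun w : Chart => (w j).re ^ 2 + (w j).im ^ 2)
        ((2 : ℝ) • ((z j).re • Complex.reCLM.comp
            (ContinuousLinearMap.proj (R := ℝ) (φ := fun _ : Fin 8 => ℂ) j)
          + (z j).im • Complex.imCLM.comp
            (ContinuousLinearMap.proj (R := ℝ) (φ := fun _ : Fin 8 => ℂ) j))) z := by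
    intro j _
    refine (((hasFDerivAt_re j z).pow 2).add ((hasFDerivAt_im j z).pow 2)).congr_fderiv ?_
    ext v
    simp
    ring
  refine (HasFDerivAt.fun_sum h).congr_fderiv ?_
  ext v
  simp [dotR, Finset.mul_sum, mul_add]

/-- Second derivatives of a radial function. -/
theorem d2_radial {g g1 : ℝ → ℝ} {g2 : ℝ} {z : Chart}
    (hg : ∀ w : Chart, HasDerivAt g (g1 (sq2 w)) (sq2 w)) (hg1 : HasDerivAt g1 g2 (sq2 z))
    (v w : Chart) :
    d2 (fun u => g (sq2 u)) z v w
      = g2 * (4 * (dotR z v * dotR z w)) + g1 (sq2 z) * (2 * dotR v w) := by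
  have h1 : fderiv ℝ (fun u => g (sq2 u)) = fun u => g1 (sq2 u) • ((2 : ℝ) • dotR u) := by
    funext u
    exact ((hg u).comp_hasFDerivAt u (hasFDerivAt_sq2 u)).fderiv
  -- the map `u ↦ 2 • dotR u` is linear
  let Dl : Chart →L[ℝ] Chart →L[ℝ] ℝ :=
    (2 : ℝ) • ∑ j, ((Complex.reCLM.comp
        (ContinuousLinearMap.proj (R := ℝ) (φ := fun _ : Fin 8 => ℂ) j)).smulRight
        (Complex.reCLM.comp (ContinuousLinearMap.proj (R := ℝ) (φ := fun _ : Fin 8 => ℂ) j))
      + (Complex.imCLM.comp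
        (ContinuousLinearMap.proj (R := ℝ) (φ := fun _ : Fin 8 => ℂ) j)).smulRight
        (Complex.imCLM.comp (ContinuousLinearMap.proj (R := ℝ) (φ := fun _ : Fin 8 => ℂ) j)))
  have hD : ∀ u, Dl u = (2 : ℝ) • dotR u := fun u => by
    ext x; simp [Dl, dotR]
  have h2 : HasFDerivAt (fun u => g1 (sq2 u) • Dl u)
      (g1 (sq2 z) • Dl + (g2 • ((2 : ℝ) • dotR z)).smulRight (Dl z)) z :=
    (hg1.comp_hasFDerivAt z (hasFDerivAt_sq2 z)).fun_smul Dl.hasFDerivAt
  simp only [d2, h1, ← hD]
  rw [h2.fderiv]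
  simp [hD]
  ring

theorem dotR_single_one (z : Chart) (j : Fin 8) : dotR z (Pi.single j 1) = (z j).re := by
  rw [dotR_apply, Finset.sum_eq_single j] <;> intros <;> simp_all

theorem dotR_single_I (z : Chart) (j : Fin 8) : dotR z (Pi.single j Complex.I) = (z j).im := by
  rw [dotR_apply, Finset.sum_eq_single j] <;> intros <;> simp_all

theorem dotR_single_single (j k : Fin 8) (a b : ℂ) :
    dotR (Pi.single j a) (Pi.single k b) = if j = k then a.re * b.re + a.im * b.im else 0 := by
  rw [dotR_apply, Finset.sum_eq_single j]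
  · by_cases h : j = k <;> simp [h]
  · intro i _ hi; simp [hi]
  · simp

/-- Complex Hessian of a radial function. -/
theorem cHess_radial {g g1 : ℝ → ℝ} {g2 : ℝ} {z : Chart}
    (hg : ∀ w : Chart, HasDerivAt g (g1 (sq2 w)) (sq2 w)) (hg1 : HasDerivAt g1 g2 (sq2 z)) :
    cHess (fun u => g (sq2 u)) z
      = (g1 (sq2 z) : ℂ) • 1 + (g2 : ℂ) • vecMulVec (star z) z := by
  ext j k
  simp only [cHess, of_apply, d2_radial hg hg1, dotR_single_one, dotR_single_I,
    dotR_single_single, Matrix.add_apply, Matrix.smul_apply, smul_eq_mul, vecMulVec_apply,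
    Pi.star_apply]
  apply Complex.ext <;> by_cases h : j = k <;> simp [h, Matrix.one_apply] <;> ring

/-- `det (a + c v wᵀ) = a^8 + c a^7 w·v`. -/
theorem det_radial (a c : ℂ) (ha : a ≠ 0) (z : Chart) :
    (a • (1 : Matrix (Fin 8) (Fin 8) ℂ) + c • vecMulVec (star z) z).det
      = a ^ 8 * (1 + c / a * (z ⬝ᵥ star z)) := by
  have e : a • (1 : Matrix (Fin 8) (Fin 8) ℂ) + c • vecMulVec (star z) z
      = a • (1 + replicateCol Unit ((c / a) • star z) * replicateRow Unit z) := by
    rw [smul_add]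
    congr 1
    ext j k
    simp [Matrix.mul_apply, vecMulVec_apply]
    field_simp
  rw [e, det_smul, det_one_add_replicateCol_mul_replicateRow, Fintype.card_fin, dotProduct_smul,
    smul_eq_mul]

theorem dot_star (z : Chart) : z ⬝ᵥ star z = (sq2 z : ℂ) := by
  simp only [dotProduct, sq2, Complex.ofReal_sum]
  refine Finset.sum_congr rfl fun j _ => ?_
  apply Complex.ext <;> simp [pow_two] <;> ring

variable {L : ℝ}

theorem log_deriv {N : ℝ} (hN : 0 ≤ N) (A B : ℝ) :
    HasDerivAt (fun r => A + B * Real.log (1 + r)) (B / (1 + N)) N := by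
  have := (((hasDerivAt_id N).const_add 1).log (by simp only [id]; positivity)).const_mul B
  refine (this.const_add A).congr_deriv ?_
  simp only [id]; ring

theorem log_deriv2 {N : ℝ} (hN : 0 ≤ N) (B : ℝ) :
    HasDerivAt (fun r => B / (1 + r)) (-(B / (1 + N) ^ 2)) N := by
  refine ((hasDerivAt_const N B).div ((hasDerivAt_id N).const_add 1)
    (by simp only [id]; positivity)).congr_deriv ?_
  simp only [id]; ring

theorem cHess_log (A B : ℝ) (z : Chart) :
    cHess (fun u => A + B * Real.log (1 + sq2 u)) z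
      = ((B / (1 + sq2 z) : ℝ) : ℂ) • 1
        + ((-(B / (1 + sq2 z) ^ 2) : ℝ) : ℂ) • vecMulVec (star z) z :=
  cHess_radial (g := fun r => A + B * Real.log (1 + r)) (g1 := fun r => B / (1 + r))
    (fun w => log_deriv (sq2_nonneg w) A B) (log_deriv2 (sq2_nonneg z) B)

theorem metric_fs (L : ℝ) (i : Fin 9) (z : Chart) :
    metric L (fun _ => 0) i z = cHess (fun u => 0 + L * Real.log (1 + sq2 u)) z := by
  unfold metric
  congr 1
  funext u
  simp [pot, sq2_eq]

theorem det_fs (hL : 0 < L) (i : Fin 9) (z : Chart) :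
    (metric L (fun _ => 0) i z).det = ((L ^ 8 / (1 + sq2 z) ^ 9 : ℝ) : ℂ) := by
  have hN := sq2_nonneg z
  have h1 : 0 < 1 + sq2 z := by linarith
  rw [metric_fs, cHess_log, det_radial _ _ (Complex.ofReal_ne_zero.2 (div_pos hL h1).ne'),
    dot_star]
  norm_cast
  field_simp
  ring

theorem scalar_fs (hL : 0 < L) (i : Fin 9) (z : Chart) :
    scalar L (fun _ => 0) i z = 72 / L := by
  have h1 : 0 < 1 + sq2 z := by linarith [sq2_nonneg z]
  have hlog : cHess (fun w => Real.log ((metric L (fun _ => 0) i w).det.re)) z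
      = ((-9 / L : ℝ) : ℂ) • metric L (fun _ => 0) i z := by
    have e : (fun w => Real.log ((metric L (fun _ => 0) i w).det.re))
        = fun w => 8 * Real.log L + (-9) * Real.log (1 + sq2 w) := by
      funext w
      have h2 : 0 < 1 + sq2 w := by linarith [sq2_nonneg w]
      rw [det_fs hL, Complex.ofReal_re, Real.log_div (by positivity) (by positivity),
        Real.log_pow, Real.log_pow]
      push_cast; ring
    rw [e, cHess_log, metric_fs, cHess_log, smul_add, smul_smul, smul_smul, ← Complex.ofReal_mul,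
      ← Complex.ofReal_mul]
    congr 3 <;> field_simp
  have hu : IsUnit (metric L (fun _ => 0) i z).det := by
    rw [det_fs hL, isUnit_iff_ne_zero, Complex.ofReal_ne_zero]
    positivity
  unfold scalar
  rw [hlog, Matrix.mul_smul, Matrix.nonsing_inv_mul _ hu, trace_smul, trace_one, smul_eq_mul]
  simp
  ring

theorem posDef_fs (hL : 0 < L) (i : Fin 9) (z : Chart) :
    (metric L (fun _ => 0) i z).PosDef := by
  rw [metric_fs, cHess_log, posDef_iff_dotProduct_mulVec]
  have h1 : 0 < 1 + sq2 z := by linarith [sq2_nonneg z]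
  set a := L / (1 + sq2 z) with ha
  set c := -(L / (1 + sq2 z) ^ 2) with hc
  refine ⟨?_, fun x hx => ?_⟩
  · ext j k
    simp [vecMulVec_apply, Matrix.one_apply, eq_comm (a := j), mul_comm]
    by_cases h : k = j <;> simp [h]
  · have e : star x ⬝ᵥ (((a : ℂ) • 1 + (c : ℂ) • vecMulVec (star z) z) *ᵥ x)
        = (a : ℂ) * (star x ⬝ᵥ x) + (c : ℂ) * ((z ⬝ᵥ x) * star (z ⬝ᵥ x)) := by
      rw [add_mulVec, smul_mulVec, smul_mulVec, one_mulVec, vecMulVec_mulVec, dotProduct_add,
        dotProduct_smul, dotProduct_smul, smul_eq_mul, smul_eq_mul, op_smul_eq_smul,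
        dotProduct_smul, smul_eq_mul, star_dotProduct_star]
    have hxx : star x ⬝ᵥ x = (sq2 x : ℂ) := by rw [dotProduct_comm, dot_star]
    rw [e, hxx, Complex.star_def, Complex.mul_conj]
    norm_cast
    have hpos : 0 < sq2 x := by
      by_contra hle
      refine hx (funext fun j => ?_)
      have h0 := le_antisymm (not_lt.1 hle) (sq2_nonneg x)
      have := (Finset.sum_eq_zero_iff_of_nonneg fun j _ => by positivity).1 h0 j
        (Finset.mem_univ j)
      apply Complex.ext <;> simp <;> nlinarith [sq_nonneg (x j).re, sq_nonneg (x j).im]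
    have hcs : Complex.normSq (z ⬝ᵥ x) ≤ sq2 z * sq2 x := by
      rw [Complex.normSq_eq_norm_sq, ← sq2_eq, ← sq2_eq]
      calc ‖z ⬝ᵥ x‖ ^ 2 ≤ (∑ j, ‖z j‖ * ‖x j‖) ^ 2 := by
            refine pow_le_pow_left₀ (norm_nonneg _) ((norm_sum_le _ _).trans_eq ?_) 2
            simp
        _ ≤ _ := Finset.sum_mul_sq_le_sq_mul_sq _ _ _
    have hcneg : c ≤ 0 := by rw [hc]; exact neg_nonpos.2 (by positivity)
    have hd : 0 < (a + c * sq2 z) * sq2 x := by
      refine mul_pos ?_ hpos
      have : a + c * sq2 z = L / (1 + sq2 z) ^ 2 := by rw [ha, hc]; field_simp; ring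
      rw [this]; positivity
    nlinarith [mul_le_mul_of_nonpos_left hcs hcneg]

/-- Fubini-Study is a stationary Calabi flow. -/
theorem isCalabiFlow_fs (hL : 0 < L) (T : ℝ) :
    IsCalabiFlow L T (72 / L) (fun _ => 0) (fun _ _ => 0) :=
  ⟨contDiffOn_const, fun _ _ => rfl,
    fun _ _ => ⟨contDiffOn_const, fun _ _ _ _ => rfl, posDef_fs hL⟩,
    fun t _ i z => by simp [scalar_fs hL]⟩

end Vale.Agent.P264.Manifold
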