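import Vale.Agent.P264.Manifold.Statement
import Vale.Agent.P264.Manifold.FubiniStudy

namespace Vale.Agent.P264.Manifold

open Set Filter
open scoped ContDiff Topology

/-- Scalar curvature of a radial potential at a point of the first axis. -/
def ScalarAxisTarget : Prop :=
  ∀ (L : ℝ) (ψ : Hom → ℝ) (g φ : ℝ → ℝ) (r : ℝ), 0 < r →
    (∀ z : Chart, z ≠ 0 → pot L ψ 0 z = g (sq2 z)) → ContDiffOn ℝ ∞ g (Ioi 0) →
    (∀ N, 0 < N → 0 < deriv g N ∧ 0 < deriv (fun M => M * deriv g M) N) →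
    0 < r ^ 2 * deriv g (r ^ 2) →
    ContDiffAt ℝ ∞ φ (r ^ 2 * deriv g (r ^ 2)) →
    (∀ᶠ N in 𝓝 (r ^ 2), φ (N * deriv g N) = N * deriv (fun M => M * deriv g M) N) →
    scalar L ψ 0 (Pi.single 0 (r : ℂ)) = scal φ (r ^ 2 * deriv g (r ^ 2))

end Vale.Agent.P264.Manifold
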