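import Vale.Agent.P264.Manifold.Axis
import Vale.Agent.P264.Manifold.Targets
import Vale.Agent.P264.Manifold.ScalarAxisTarget

/-!
An invariant Calabi flow on the projective space gives a flow of momentum profiles.
-/

namespace Vale.Agent.P264.Manifold

open Set Filter
open scoped ContDiff Topology
open Calc

variable {L T b : ℝ} {φ₀ : ℝ → ℝ} {ψ₀ : Hom → ℝ} {ψ : ℝ → Hom → ℝ}

/-- Smooth dependence of `ψ` on a smooth curve avoiding the origin. -/
theorem axisFun_smooth (h : IsCalabiFlow L T b ψ₀ ψ) (i : Fin 9) :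
    Smooth2 (Icc 0 T) univ (axisFun ψ i) := by
  have h1 : ContDiff ℝ ∞ fun r : ℝ => (Pi.single 0 (r : ℂ) : Chart) := by
    refine contDiff_pi.2 fun j => ?_
    by_cases hj : j = 0
    · subst hj; simp only [Pi.single_eq_same]; exact Complex.ofRealCLM.contDiff
    · simpa [hj] using contDiff_const
  exact h.smooth.comp (contDiff_fst.prodMk (((point_smooth i).comp h1).comp contDiff_snd)).contDiffOn
    fun p hp => ⟨hp.1, point_ne i _⟩

/-- The data read off an invariant flow. -/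
structure AxisData (L T b : ℝ) (ψ : ℝ → Hom → ℝ) (G G2 : ℝ → ℝ → ℝ) : Prop where
  smooth : Smooth2 (Icc 0 T) (Ici 0) G
  smooth2 : Smooth2 (Icc 0 T) (Ici 0) G2
  radial : ∀ t ∈ Icc 0 T, ∀ z : Chart, ψ t (point 0 z) = G t (sq2 z)
  link : ∀ t ∈ Icc 0 T, ∀ N, 0 < N → G t N = G2 t (1 / N)
  pos : ∀ t ∈ Icc 0 T, ∀ N, 0 ≤ N → 0 < momD L T G t N ∧ 0 < momD L T G2 t N

theorem exists_axisData (heven : EvenTarget) (hT : 0 < T) (h : IsCalabiFlow L T b ψ₀ ψ)
    (hI : ∀ t ∈ Icc 0 T, Invariant (ψ t)) : ∃ G G2, AxisData L T b ψ G G2 := by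
  obtain ⟨G, hG, hGf⟩ := heven 0 T (axisFun ψ 0) hT (axisFun_smooth h 0) fun t ht r => by
    rw [axisFun, invariant_phase_zero (hI t ht), Complex.norm_real, norm_neg, ← Complex.norm_real,
      ← invariant_phase_zero (hI t ht)]
    rfl
  obtain ⟨G2, hG2, hGf2⟩ := heven 0 T (axisFun ψ 1) hT (axisFun_smooth h 1) fun t ht r => by
    rw [axisFun, invariant_phase_one (h.kahler t ht) (hI t ht), Complex.norm_real, norm_neg,
      ← Complex.norm_real, ← invariant_phase_one (h.kahler t ht) (hI t ht)]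
    rfl
  have hrad : ∀ t ∈ Icc 0 T, ∀ z : Chart, ψ t (point 0 z) = G t (sq2 z) := fun t ht z => by
    rw [invariant_radial (hI t ht) z, ← Real.sq_sqrt (sq2_nonneg z), ← hGf t ht,
      Real.sq_sqrt (sq2_nonneg z)]
    rfl
  have h1 : ∀ t ∈ Icc 0 T, ∀ s : ℂ, ψ t (point 1 (Pi.single 0 s)) = G2 t (‖s‖ ^ 2) :=
    fun t ht s => by
      rw [invariant_phase_one (h.kahler t ht) (hI t ht) s, ← hGf2 t ht]; rfl
  have hlink : ∀ t ∈ Icc 0 T, ∀ N, 0 < N → G t N = G2 t (1 / N) := fun t ht N hN => by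
    set r := Real.sqrt N with hr
    have hr0 : 0 < r := Real.sqrt_pos.2 hN
    have hrN : r ^ 2 = N := Real.sq_sqrt hN.le
    rw [← hrN, ← hGf t ht, ← one_div_pow, ← hGf2 t ht, axisFun, axisFun, point_zero_eq,
      point_one_eq]
    rw [← (h.kahler t ht).scale ((1 / r : ℝ) : ℂ) _ (Complex.ofReal_ne_zero.2 (by positivity))
      (by rw [← point_zero_eq]; exact point_ne 0 _)]
    congr 1
    funext k
    refine Fin.cases ?_ (fun j => ?_) k
    · simp
    · by_cases hj : j = 0 <;> simp [hj, hr0.ne']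
  exact ⟨G, G2, hG, hG2, hrad, hlink, fun t ht N hN =>
    ⟨momD_pos hT (h.kahler t ht) 0 hG ht (fun s => by rw [hrad t ht, sq2_single]) hN,
      momD_pos hT (h.kahler t ht) 1 hG2 ht (h1 t ht) hN⟩⟩

/-- The profile function: `N X'` at `N = X⁻¹`. -/
noncomputable def prof (T : ℝ) (X : ℝ → ℝ → ℝ) (t x : ℝ) : ℝ :=
  invX X t x * pdX (Icc 0 T) (Ici 0) X t (invX X t x)

/-- The profile on the closed interval. -/
noncomputable def profile (L T : ℝ) (G : ℝ → ℝ → ℝ) (t x : ℝ) : ℝ :=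
  if x < L then prof T (mom L T G) t x else 0

variable {G G2 : ℝ → ℝ → ℝ} {t N x : ℝ}

theorem AxisData.hasDerivAt_mom (hD : AxisData L T b ψ G G2) (hT : 0 < T) (ht : t ∈ Icc 0 T)
    (hN : 0 < N) : HasDerivAt (mom L T G t) (momD L T G t N) N := by
  rw [← pdX_mom hT hD.smooth ht hN.le]
  exact (mom_smooth hT hD.smooth).hasDerivAt_x ht (Ici_mem_nhds hN)

theorem AxisData.mom_link (hD : AxisData L T b ψ G G2) (hT : 0 < T) (ht : t ∈ Icc 0 T)
    (hN : 0 < N) : mom L T G t N = L - mom L T G2 t (1 / N) := by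
  have hJ := uniqueDiffOn_Ici (0:ℝ)
  have h1 : HasDerivAt (fun M => G2 t (1 / M))
      (pdX (Icc 0 T) (Ici 0) G2 t (1 / N) * -(N ^ 2)⁻¹) N := by
    simp only [one_div]
    exact (hD.smooth2.hasDerivAt_x ht (Ici_mem_nhds (inv_pos.2 hN))).comp N (hasDerivAt_inv hN.ne')
  have h2 : HasDerivAt (G t) (pdX (Icc 0 T) (Ici 0) G2 t (1 / N) * -(N ^ 2)⁻¹) N :=
    h1.congr_of_eventuallyEq (by
      filter_upwards [Ioi_mem_nhds hN] with M hM using hD.link t ht M hM)
  have h3 := (hD.smooth.hasDerivAt_x ht (Ici_mem_nhds hN)).unique h2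
  have : N + 1 ≠ 0 := by positivity
  have : 1 + N ≠ 0 := by positivity
  simp only [mom, h3]
  field_simp
  ring

theorem AxisData.symm_link (hD : AxisData L T b ψ G G2) (ht : t ∈ Icc 0 T) (hN : 0 < N) :
    G2 t N = G t (1 / N) := by
  have := hD.link t ht (1 / N) (by positivity)
  rw [one_div_one_div] at this
  exact this.symm

theorem mom_zero (t : ℝ) : mom L T G t 0 = 0 := by simp [mom]

theorem AxisData.momentMap (hD : AxisData L T b ψ G G2) (hL : 0 < L) (hT : 0 < T) :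
    MomentMap 0 T L (mom L T G) := by
  have hsl : ∀ t ∈ Icc 0 T, ∀ N, 0 ≤ N → 0 < pdX (Icc 0 T) (Ici 0) (mom L T G2) t N :=
    fun t ht N hN => by rw [pdX_mom hT hD.smooth2 ht hN]; exact (hD.pos t ht N hN).2
  have hmono : ∀ t ∈ Icc 0 T, StrictMonoOn (mom L T G2 t) (Ici 0) := fun t ht =>
    strictMonoOn_of_deriv_pos (convex_Ici 0)
      ((mom_smooth hT hD.smooth2).slice_x ht).continuousOn fun M hM => by
        rw [interior_Ici] at hM
        rw [(mom_smooth hT hD.smooth2).deriv_x ht (Ici_mem_nhds hM)]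
        exact hsl t ht M hM.le
  refine ⟨hT, hL, mom_smooth hT hD.smooth, fun t _ => mom_zero t,
    fun t ht N hN => by rw [pdX_mom hT hD.smooth ht hN]; exact (hD.pos t ht N hN).1,
    fun t ht N hN => ?_, fun t ht x hx => ?_⟩
  · rcases hN.eq_or_lt with rfl | hN0
    · rw [mom_zero]; exact hL
    · rw [hD.mom_link hT ht hN0]
      have := hmono t ht self_mem_Ici (show (0:ℝ) ≤ 1 / N by positivity) (by positivity : 0 < 1 / N)
      rw [mom_zero] at this
      linarith
  · have hc : ContinuousWithinAt (mom L T G2 t) (Ici 0) 0 :=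
      ((mom_smooth hT hD.smooth2).slice_x ht).continuousOn 0 self_mem_Ici
    have hev : ∀ᶠ M in 𝓝[Ici 0] (0:ℝ), mom L T G2 t M < L - x :=
      hc.eventually (by rw [mom_zero]; exact gt_mem_nhds (sub_pos.2 hx))
    obtain ⟨M, hM, hM0⟩ := ((hev.filter_mono (nhdsWithin_mono 0 Ioi_subset_Ici_self)).and
      self_mem_nhdsWithin).exists
    have hM0' : 0 < M := hM0
    refine ⟨1 / M, by positivity, ?_⟩
    rw [hD.mom_link hT ht (by positivity), one_div_one_div]
    linarith

/-- The other moment map: only smoothness, positivity and the link are used. -/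
theorem AxisData.momentMap2 (hD : AxisData L T b ψ G G2) (hL : 0 < L) (hT : 0 < T) :
    MomentMap 0 T L (mom L T G2) := by
  have h1 := hD.momentMap hL hT
  refine ⟨hT, hL, mom_smooth hT hD.smooth2, fun t _ => mom_zero t,
    fun t ht N hN => by rw [pdX_mom hT hD.smooth2 ht hN]; exact (hD.pos t ht N hN).2,
    fun t ht N hN => ?_, fun t ht x hx => ?_⟩
  · rcases hN.eq_or_lt with rfl | hN0
    · rw [mom_zero]; exact hL
    · have h2 : 0 < 1 / N := by positivity
      have h3 := hD.mom_link hT ht h2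
      rw [one_div_one_div] at h3
      have h4 := h1.strictMono ht self_mem_Ici h2.le h2
      rw [mom_zero] at h4
      linarith
  · have hc : ContinuousWithinAt (mom L T G t) (Ici 0) 0 :=
      ((mom_smooth hT hD.smooth).slice_x ht).continuousOn 0 self_mem_Ici
    have hev : ∀ᶠ M in 𝓝[Ici 0] (0:ℝ), mom L T G t M < L - x :=
      hc.eventually (by rw [mom_zero]; exact gt_mem_nhds (sub_pos.2 hx))
    obtain ⟨M, hM, hM0⟩ := ((hev.filter_mono (nhdsWithin_mono 0 Ioi_subset_Ici_self)).and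
      self_mem_nhdsWithin).exists
    have hM0' : 0 < M := hM0
    refine ⟨1 / M, by positivity, ?_⟩
    have := hD.mom_link hT ht hM0'
    linarith

theorem prof_smooth {X : ℝ → ℝ → ℝ} (h : MomentMap 0 T L X) :
    Smooth2 (Icc 0 T) (Ico 0 L) (prof T X) :=
  h.inv_smooth.mul ((h.smooth.pdX (uniqueDiffOn_Icc h.hab) (uniqueDiffOn_Ici 0)).comp
    (contDiffOn_fst.prodMk h.inv_smooth) fun _ hp => ⟨hp.1, h.inv_mem hp.1 hp.2⟩)

theorem AxisData.profile_right (hD : AxisData L T b ψ G G2) (hL : 0 < L) (hT : 0 < T)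
    (ht : t ∈ Icc 0 T) (hx : x ∈ Ioc 0 L) :
    profile L T G t x = prof T (mom L T G2) t (L - x) := by
  have h1 := hD.momentMap hL hT
  have h2 := hD.momentMap2 hL hT
  rcases hx.2.eq_or_lt with rfl | hxL
  · have : invX (mom x T G2) t 0 = 0 := by
      simpa [mom_zero] using h2.left_inv ht le_rfl
    simp [profile, prof, this]
  rw [profile, if_pos hxL, prof, prof]
  set N := invX (mom L T G) t x with hNdef
  have hNx : mom L T G t N = x := h1.inv_eq ht ⟨hx.1.le, hxL⟩
  have hN : 0 < N := (h1.inv_mem ht ⟨hx.1.le, hxL⟩).lt_of_ne fun (h0 : 0 = N) => by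
    rw [← h0, mom_zero] at hNx; exact hx.1.ne hNx
  have hlink := hD.mom_link hT ht hN
  have hM : invX (mom L T G2) t (L - x) = 1 / N := by
    have := h2.left_inv ht (show (0:ℝ) ≤ 1 / N by positivity)
    rwa [show mom L T G2 t (1 / N) = L - x by linarith] at this
  have hd : HasDerivAt (fun M => L - mom L T G2 t (1 / M))
      (-(pdX (Icc 0 T) (Ici 0) (mom L T G2) t (1 / N) * -(N ^ 2)⁻¹)) N := by
    simp only [one_div]
    exact (((mom_smooth hT hD.smooth2).hasDerivAt_x ht (Ici_mem_nhds (inv_pos.2 hN))).comp N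
      (hasDerivAt_inv hN.ne')).const_sub L
  have he : HasDerivAt (mom L T G t)
      (-(pdX (Icc 0 T) (Ici 0) (mom L T G2) t (1 / N) * -(N ^ 2)⁻¹)) N :=
    hd.congr_of_eventuallyEq (by
      filter_upwards [Ioi_mem_nhds hN] with M hM using hD.mom_link hT ht hM)
  rw [((mom_smooth hT hD.smooth).hasDerivAt_x ht (Ici_mem_nhds hN)).unique he, hM]
  field_simp

theorem AxisData.profile_smooth (hD : AxisData L T b ψ G G2) (hL : 0 < L) (hT : 0 < T) :
    Smooth2 (Icc 0 T) (Icc 0 L) (profile L T G) := by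
  rintro ⟨t, x⟩ ⟨ht, hx⟩
  by_cases hxL : x < L
  · refine ((prof_smooth (hD.momentMap hL hT) (t, x) ⟨ht, hx.1, hxL⟩).congr
      (fun p hp => if_pos hp.2.2) (if_pos hxL)).mono_of_mem_nhdsWithin ?_
    refine mem_nhdsWithin.2 ⟨univ ×ˢ Iio L, isOpen_univ.prod isOpen_Iio, ⟨mem_univ _, hxL⟩, ?_⟩
    exact fun p hp => ⟨hp.2.1, hp.2.2.1, hp.1.2⟩
  · have hx0 : 0 < x := hL.trans_le (not_lt.1 hxL)
    have hc : ContDiffOn ℝ ∞ (fun p : ℝ × ℝ => prof T (mom L T G2) p.1 (L - p.2))
        (Icc 0 T ×ˢ Ioc 0 L) :=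
      (prof_smooth (hD.momentMap2 hL hT)).comp
        (contDiff_fst.prodMk (contDiff_const.sub contDiff_snd)).contDiffOn
        fun p hp => ⟨hp.1, by linarith [hp.2.2], by linarith [hp.2.1]⟩
    refine ((hc (t, x) ⟨ht, hx0, hx.2⟩).congr
      (fun p hp => hD.profile_right hL hT hp.1 hp.2)
      (hD.profile_right hL hT ht ⟨hx0, hx.2⟩)).mono_of_mem_nhdsWithin ?_
    refine mem_nhdsWithin.2 ⟨univ ×ˢ Ioi 0, isOpen_univ.prod isOpen_Ioi, ⟨mem_univ _, hx0⟩, ?_⟩
    exact fun p hp => ⟨hp.2.1, hp.1.2, hp.2.2.2⟩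

theorem prof_slope {X : ℝ → ℝ → ℝ} (h : MomentMap 0 T L X) (ht : t ∈ Icc 0 T) :
    prof T X t 0 = 0 ∧ HasDerivWithinAt (prof T X t) 1 (Ico 0 L) 0 := by
  have hu := uniqueDiffOn_Icc h.hab
  have hJ := uniqueDiffOn_Ici (0:ℝ)
  have h0 : invX X t 0 = 0 := by simpa [h.zero t ht] using h.left_inv ht le_rfl
  refine ⟨by simp [prof, h0], ?_⟩
  have hq := (h.slope t ht 0 le_rfl).ne'
  have hx0 : (0:ℝ) ∈ Ico 0 L := ⟨le_rfl, h.hL⟩
  have hi : HasDerivWithinAt (invX X t) (1 / pdX (Icc 0 T) (Ici 0) X t 0) (Ico 0 L) 0 := by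
    have h2 : HasDerivWithinAt (fun z : ℝ => (t, z)) ((0, 1) : ℝ × ℝ) (Ico 0 L) 0 :=
      ((hasDerivAt_const (0:ℝ) t).prodMk (hasDerivAt_id (0:ℝ))).hasDerivWithinAt
    refine ((h.inv_hasFDerivWithinAt (p := (t, 0)) ⟨ht, hx0⟩).comp_hasDerivWithinAt 0 h2
      fun z hz => ⟨ht, hz⟩).congr_deriv ?_
    simp [invDeriv, h0]
  have hp : HasDerivWithinAt (fun z => pdX (Icc 0 T) (Ici 0) X t (invX X t z))
      (pdX (Icc 0 T) (Ici 0) (pdX (Icc 0 T) (Ici 0) X) t 0 * (1 / pdX (Icc 0 T) (Ici 0) X t 0))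
      (Ico 0 L) 0 := by
    have := (h.smooth.pdX hu hJ).hasDerivWithinAt_x ht (x := 0) self_mem_Ici
    exact this.comp_of_eq 0 hi (fun z hz => h.inv_mem ht hz) h0.symm
  refine (hi.mul hp).congr_deriv ?_
  rw [h0]
  field_simp
  ring

theorem AxisData.isProfile (hD : AxisData L T b ψ G G2) (hL : 0 < L) (hT : 0 < T)
    (ht : t ∈ Icc 0 T) : IsProfile L (profile L T G t) := by
  have h1 := hD.momentMap hL hT
  obtain ⟨hl, hld⟩ := prof_slope h1 ht
  obtain ⟨hr, hrd⟩ := prof_slope (hD.momentMap2 hL hT) ht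
  refine ⟨(hD.profile_smooth hL hT).slice_x ht, by simp [profile, hL, hl], by simp [profile],
    ?_, ?_, fun x hx => ?_⟩
  · refine HasDerivWithinAt.derivWithin ?_ (uniqueDiffOn_Icc hL 0 (left_mem_Icc.2 hL.le))
    refine (hld.congr (fun z hz => if_pos hz.2) (if_pos hL)).mono_of_mem_nhdsWithin ?_
    exact mem_nhdsWithin.2 ⟨Iio L, isOpen_Iio, hL, fun z hz => ⟨hz.2.1, hz.1⟩⟩
  · refine HasDerivWithinAt.derivWithin ?_ (uniqueDiffOn_Icc hL L (right_mem_Icc.2 hL.le))
    have hlin : HasDerivWithinAt (fun z : ℝ => L - z) (-1) (Ioc 0 L) L :=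
      (hasDerivWithinAt_id L _).const_sub L
    have h := hrd.comp_of_eq L hlin
      (fun z hz => ⟨by linarith [hz.2], by linarith [hz.1]⟩) (sub_self L).symm
    rw [one_mul] at h
    refine (h.congr (fun z hz => hD.profile_right hL hT ht hz)
      (hD.profile_right hL hT ht ⟨hL, le_rfl⟩)).mono_of_mem_nhdsWithin ?_
    exact mem_nhdsWithin.2 ⟨Ioi 0, isOpen_Ioi, hL, fun z hz => ⟨hz.1, hz.2.2⟩⟩
  · rw [profile, if_pos hx.2]
    have hx' : x ∈ Ico 0 L := ⟨hx.1.le, hx.2⟩
    refine mul_pos ((h1.inv_mem ht hx').lt_of_ne fun h0 => ?_)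
      (h1.slope t ht _ (h1.inv_mem ht hx'))
    have := h1.inv_eq ht hx'
    rw [← h0, mom_zero] at this
    exact hx.1.ne this

theorem AxisData.profile_mom (hD : AxisData L T b ψ G G2) (hL : 0 < L) (hT : 0 < T)
    (ht : t ∈ Icc 0 T) (hN : 0 ≤ N) :
    profile L T G t (mom L T G t N) = N * momD L T G t N := by
  have h1 := hD.momentMap hL hT
  rw [profile, if_pos (h1.lt t ht N hN), prof, h1.left_inv ht hN, pdX_mom hT hD.smooth ht hN]

theorem AxisData.scalar_eq (hS : ScalarAxisTarget) (hD : AxisData L T b ψ G G2) (hL : 0 < L)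
    (hT : 0 < T) (ht : t ∈ Icc 0 T) (hN : 0 < N) :
    scalar L (ψ t) 0 (Pi.single 0 (Real.sqrt N : ℂ))
      = scal (profile L T G t) (mom L T G t N) := by
  set g : ℝ → ℝ := fun M => L * Real.log (1 + M) + G t M with hg
  have hgd : ∀ M, 0 < M → deriv g M = L / (1 + M) + pdX (Icc 0 T) (Ici 0) G t M := fun M hM => by
    refine ((((hasDerivAt_id M).const_add 1).log (by simp only [id]; positivity)).const_mul L
      |>.add (hD.smooth.hasDerivAt_x ht (Ici_mem_nhds hM))).deriv.trans ?_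
    simp only [id]; ring
  have hm : ∀ M, 0 < M → M * deriv g M = mom L T G t M := fun M hM => by
    rw [hgd M hM, mom]; ring
  have hmd : ∀ M, 0 < M → deriv (fun K => K * deriv g K) M = momD L T G t M := fun M hM => by
    have he : (fun K => K * deriv g K) =ᶠ[𝓝 M] mom L T G t := by
      filter_upwards [Ioi_mem_nhds hM] with K hK using hm K hK
    rw [he.deriv_eq]
    exact (hD.hasDerivAt_mom hT ht hM).deriv
  have h1 := hD.momentMap hL hT
  set r := Real.sqrt N with hr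
  have hr0 : 0 < r := Real.sqrt_pos.2 hN
  have hrN : r ^ 2 = N := Real.sq_sqrt hN.le
  have hpos : 0 < mom L T G t N := by
    have := h1.strictMono ht self_mem_Ici hN.le hN
    rwa [mom_zero] at this
  have c1 : ContDiffOn ℝ ∞ g (Ioi 0) :=
    (contDiffOn_const.mul ((contDiffOn_const.add contDiffOn_id).log fun M hM => by
      have := mem_Ioi.1 hM
      simp only [id]; positivity)).add ((hD.smooth.slice_x ht).mono Ioi_subset_Ici_self)
  have c2 : ∀ M, 0 < M → 0 < deriv g M ∧ 0 < deriv (fun K => K * deriv g K) M := fun M hM => by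
    refine ⟨?_, by rw [hmd M hM]; exact (hD.pos t ht M hM.le).1⟩
    have h3 := h1.strictMono ht self_mem_Ici hM.le hM
    rw [mom_zero, ← hm M hM] at h3
    exact pos_of_mul_pos_right h3 hM.le
  have c3 : ContDiffAt ℝ ∞ (profile L T G t) (mom L T G t N) :=
    ((hD.profile_smooth hL hT).slice_x ht).contDiffAt
      (Icc_mem_nhds hpos (h1.lt t ht N hN.le))
  have c4 : ∀ᶠ M in 𝓝 N, profile L T G t (M * deriv g M)
      = M * deriv (fun K => K * deriv g K) M := by
    filter_upwards [Ioi_mem_nhds hN] with M hM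
    rw [hm M hM, hmd M hM, hD.profile_mom hL hT ht (mem_Ioi.1 hM).le]
  have key := hS L (ψ t) g (profile L T G t) r hr0
    (fun z _ => by simp [pot, hg, sq2_eq, hD.radial t ht z]) c1 c2
    (by rw [hrN, hm N hN]; exact hpos) (by rw [hrN, hm N hN]; exact c3) (hrN ▸ c4)
  rwa [hrN, hm N hN] at key

theorem scal_smooth {φ : ℝ → ℝ} (hφ : ContDiffOn ℝ ∞ φ (Ioo 0 L)) :
    ContDiffOn ℝ ∞ (scal φ) (Ioo 0 L) := by
  have h1 : ContDiffOn ℝ ∞ (fun y => y ^ 7 * φ y) (Ioo 0 L) := (contDiffOn_id.pow 7).mul hφ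
  have h2 := ((h1.deriv_of_isOpen isOpen_Ioo (m := ∞) (by simp)).deriv_of_isOpen isOpen_Ioo
    (m := ∞) (by simp))
  exact (contDiffOn_const.div contDiffOn_id fun x hx => hx.1.ne').sub
    (h2.div (contDiffOn_id.pow 7) fun x hx => pow_ne_zero 7 hx.1.ne')

theorem profileFlow (heven : EvenTarget) (hS : ScalarAxisTarget) : ProfileFlowTarget := by
  intro L T b φ₀ ψ₀ ψ hL hT hφ₀ hprof h hI
  obtain ⟨G, G2, hD⟩ := exists_axisData heven hT h hI
  have h1 := hD.momentMap hL hT
  have hu := uniqueDiffOn_Icc hT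
  have hJ := uniqueDiffOn_Ici (0:ℝ)
  refine ⟨profile L T G, hD.profile_smooth hL hT, fun x hx => ?_, fun t ht => hD.isProfile hL hT ht,
    fun t ht x hx => ?_⟩
  · have h0 : (0:ℝ) ∈ Icc 0 T := left_mem_Icc.2 hT.le
    have hp := hD.isProfile hL hT h0
    rcases hx.1.eq_or_lt with rfl | hx0
    · rw [hp.left, hφ₀.left]
    rcases hx.2.eq_or_lt with rfl | hxL
    · rw [hp.right, hφ₀.right]
    set N := invX (mom L T G) 0 x with hNdef
    have hNx : mom L T G 0 N = x := h1.inv_eq h0 ⟨hx0.le, hxL⟩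
    have hN : 0 < N := (h1.inv_mem h0 ⟨hx0.le, hxL⟩).lt_of_ne fun (h0' : 0 = N) => by
      rw [← h0', mom_zero] at hNx; exact hx0.ne hNx
    have hF : (fun ρ : ℝ => pot L ψ₀ 0 (Pi.single 0 (Real.exp (ρ / 2) : ℂ)))
        = fun ρ => L * Real.log (1 + Real.exp ρ) + G 0 (Real.exp ρ) := funext fun ρ => by
      have he : sq2 (Pi.single 0 (Real.exp (ρ / 2) : ℂ) : Chart) = Real.exp ρ := by
        rw [sq2_single, Complex.norm_real, Real.norm_eq_abs, sq_abs, sq, ← Real.exp_add]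
        ring_nf
      rw [pot, sq2_eq, he, ← h.initial _ (point_ne 0 _), hD.radial 0 h0, he]
    have hF1 : deriv (fun ρ : ℝ => L * Real.log (1 + Real.exp ρ) + G 0 (Real.exp ρ))
        = fun ρ => mom L T G 0 (Real.exp ρ) := funext fun ρ => by
      have := Real.exp_pos ρ
      refine ((((Real.hasDerivAt_exp ρ).const_add 1).log (by positivity)).const_mul L |>.add
        ((hD.smooth.hasDerivAt_x h0 (Ici_mem_nhds this)).comp ρ
          (Real.hasDerivAt_exp ρ))).deriv.trans ?_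
      rw [mom]; ring
    have hF2 : ∀ ρ, deriv (fun ρ => mom L T G 0 (Real.exp ρ)) ρ
        = momD L T G 0 (Real.exp ρ) * Real.exp ρ := fun ρ =>
      ((hD.hasDerivAt_mom hT h0 (Real.exp_pos ρ)).comp ρ (Real.hasDerivAt_exp ρ)).deriv
    obtain ⟨-, h2⟩ := hprof (Real.log N)
    simp only [hF, hF1, hF2, Real.exp_log hN, hNx] at h2
    rw [h2]
    have := hD.profile_mom hL hT h0 hN.le
    rw [hNx] at this
    rw [this]; ring
  · have ht' : t ∈ Icc 0 T := Ioo_subset_Icc_self ht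
    have htn : Icc 0 T ∈ 𝓝 t := Icc_mem_nhds ht.1 ht.2
    have hXs := mom_smooth (L := L) hT hD.smooth
    set X := mom L T G with hX
    set N := invX X t x with hNdef
    have hNx : X t N = x := h1.inv_eq ht' ⟨hx.1.le, hx.2⟩
    have hN : 0 < N := (h1.inv_mem ht' ⟨hx.1.le, hx.2⟩).lt_of_ne fun (h0 : 0 = N) => by
      rw [← h0, hX, mom_zero] at hNx; exact hx.1.ne hNx
    have hPs := hD.profile_smooth hL hT
    set φ := profile L T G with hφ
    have hins : ∀ M, 0 < M → X t M ∈ Ioo 0 L := fun M hM => by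
      refine ⟨?_, h1.lt t ht' M hM.le⟩
      have := h1.strictMono ht' self_mem_Ici hM.le hM
      rwa [h1.zero t ht'] at this
    have hSs : ContDiffOn ℝ ∞ (scal (φ t)) (Ioo 0 L) :=
      scal_smooth ((hPs.slice_x ht').mono Ioo_subset_Icc_self)
    set S := scal (φ t) with hSdef
    have hS1 : ∀ y ∈ Ioo 0 L, HasDerivAt S (deriv S y) y := fun y hy =>
      (((hSs.differentiableOn (by simp)) y hy).differentiableAt
        (Ioo_mem_nhds hy.1 hy.2)).hasDerivAt
    have hS2 : ∀ y ∈ Ioo 0 L, HasDerivAt (deriv S) (deriv (deriv S) y) y := fun y hy =>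
      ((((hSs.deriv_of_isOpen isOpen_Ioo (m := ∞) (by simp)).differentiableOn (by simp))
        y hy).differentiableAt (Ioo_mem_nhds hy.1 hy.2)).hasDerivAt
    have hGT : ∀ M, 0 < M → pdT (Icc 0 T) (Ici 0) G t M = S (X t M) - b := fun M hM => by
      have he : (fun r => G r M)
          =ᶠ[𝓝 t] fun r => ψ r (point 0 (Pi.single 0 (Real.sqrt M : ℂ))) := by
        filter_upwards [htn] with r hr
        rw [hD.radial r hr, sq2_single, Complex.norm_real, Real.norm_eq_abs, sq_abs,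
          Real.sq_sqrt hM.le]
      rw [← hD.smooth.deriv_t htn (mem_Ici.2 hM.le), he.deriv_eq, h.eqn t ht 0 _,
        hD.scalar_eq hS hL hT ht' hM]
    have hcl : ∀ M, 0 < M → (t, M) ∈ closure (interior (Icc 0 T ×ˢ Ici (0:ℝ))) := fun M hM => by
      refine subset_closure ?_
      rw [interior_prod_eq, interior_Icc, interior_Ici]
      exact ⟨ht, hM⟩
    -- time derivative of the moment map
    have hXT : ∀ M, 0 < M →
        pdT (Icc 0 T) (Ici 0) X t M = φ t (X t M) * deriv S (X t M) := fun M hM => by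
      have hd : HasDerivAt (fun r => X r M)
          (M * pdT (Icc 0 T) (Ici 0) (pdX (Icc 0 T) (Ici 0) G) t M) t :=
        (((hD.smooth.pdX hu hJ).hasDerivAt_t htn (mem_Ici.2 hM.le)).const_mul M).const_add _
      have he : HasDerivAt (pdT (Icc 0 T) (Ici 0) G t)
          (deriv S (X t M) * momD L T G t M) M := by
        refine ((((hS1 _ (hins M hM)).comp M (hD.hasDerivAt_mom hT ht' hM))).sub_const b)
          |>.congr_of_eventuallyEq ?_
        filter_upwards [Ioi_mem_nhds hM] with K hK using hGT K hK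
      rw [← hXs.deriv_t htn (mem_Ici.2 hM.le), hd.deriv,
        hD.smooth.pdT_pdX hu hJ ht' (mem_Ici.2 hM.le) (hcl M hM),
        ← (hD.smooth.pdT hu hJ).deriv_x ht' (Ici_mem_nhds hM), he.deriv, hφ, hX,
        hD.profile_mom hL hT ht' hM.le]
      ring
    -- the profile along the moving point
    have hφx : HasDerivAt (φ t) (pdX (Icc 0 T) (Icc 0 L) φ t x) x :=
      hPs.hasDerivAt_x ht' (Icc_mem_nhds hx.1 hx.2)
    have hφX : φ t x = N * momD L T G t N := by rw [← hNx]; exact hD.profile_mom hL hT ht' hN.le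
    have hXN : HasDerivAt (X t) (momD L T G t N) N := hD.hasDerivAt_mom hT ht' hN
    have hXTd : HasDerivAt (pdT (Icc 0 T) (Ici 0) X t)
        (pdX (Icc 0 T) (Icc 0 L) φ t x * momD L T G t N * deriv S x
          + φ t x * (deriv (deriv S) x * momD L T G t N)) N := by
      have a1 := hφx
      have a2 := hS2 x hx
      rw [← hNx] at a1 a2
      have := (a1.comp N hXN).mul (a2.comp N hXN)
      simp only [Function.comp_apply, hNx] at this
      refine this.congr_of_eventuallyEq ?_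
      filter_upwards [Ioi_mem_nhds hN] with K hK using hXT K hK
    have hmix : HasDerivAt (fun r => pdX (Icc 0 T) (Ici 0) X r N)
        (pdX (Icc 0 T) (Icc 0 L) φ t x * momD L T G t N * deriv S x
          + φ t x * (deriv (deriv S) x * momD L T G t N)) t := by
      refine ((hXs.pdX hu hJ).hasDerivAt_t htn (mem_Ici.2 hN.le)).congr_deriv ?_
      rw [hXs.pdT_pdX hu hJ ht' (mem_Ici.2 hN.le) (hcl N hN),
        ← (hXs.pdT hu hJ).deriv_x ht' (Ici_mem_nhds hN), hXTd.deriv]
    have hXt : HasDerivAt (fun r => X r N) (φ t x * deriv S x) t := by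
      refine (hXs.hasDerivAt_t htn (mem_Ici.2 hN.le)).congr_deriv ?_
      rw [hXT N hN, hNx]
    -- chain rule in the two variables
    have hmem : Icc 0 T ×ˢ Icc 0 L ∈ 𝓝 (t, x) :=
      prod_mem_nhds htn (Icc_mem_nhds hx.1 hx.2)
    have hfd : HasFDerivAt (Function.uncurry φ)
        (fderivWithin ℝ (Function.uncurry φ) (Icc 0 T ×ˢ Icc 0 L) (t, x)) (t, x) :=
      ((hPs.differentiableOn (by simp)) _ (mem_of_mem_nhds hmem)).hasFDerivWithinAt.hasFDerivAt hmem
    set D := fderivWithin ℝ (Function.uncurry φ) (Icc 0 T ×ˢ Icc 0 L) (t, x) with hDdef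
    have hchain : HasDerivAt (fun r => φ r (X r N))
        (pdT (Icc 0 T) (Icc 0 L) φ t x
          + pdX (Icc 0 T) (Icc 0 L) φ t x * (φ t x * deriv S x)) t := by
      rw [← hNx] at hfd
      refine ((hfd.comp_hasDerivAt t ((hasDerivAt_id t).prodMk hXt)).congr_deriv ?_)
      have e : ((1 : ℝ), φ t x * deriv S x)
          = ((1, 0) : ℝ × ℝ) + (φ t x * deriv S x) • ((0, 1) : ℝ × ℝ) := by simp
      rw [e, map_add, map_smul, smul_eq_mul]
      simp only [pdT, pdX, ← hDdef]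
      ring
    have hside : (fun r => φ r (X r N))
        =ᶠ[𝓝 t] fun r => N * pdX (Icc 0 T) (Ici 0) X r N := by
      filter_upwards [htn] with r hr
      rw [hφ, hX, hD.profile_mom hL hT hr hN.le, pdX_mom hT hD.smooth hr hN.le]
    have hkey := hchain.unique ((hmix.const_mul N).congr_of_eventuallyEq hside)
    rw [(hPs.hasDerivAt_t htn (Ioo_subset_Icc_self hx)).deriv]
    show _ = φ t x ^ 2 * deriv (deriv S) x
    rw [hφX] at hkey ⊢
    linear_combination hkey

end Vale.Agent.P264.Manifold
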