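import Vale.Agent.P264.Defs
import Vale.Agent.P264.Calc.Param

/-!
One-variable part of the realisation of a profile: the potential as a function of
`u = |z'|^2 / |z|^2`, which ranges over `[0, 1]`.
-/

namespace Vale.Agent.P264.Manifold

open Set Filter MeasureTheory
open scoped ContDiff Topology

/-- A smooth function which vanishes at a point of the interval is divisible by `x - c`. -/
theorem divide_within {a b c : ℝ} (hab : a < b) (hc : c ∈ Icc a b) {f : ℝ → ℝ}
    (hf : ContDiffOn ℝ ∞ f (Icc a b)) (h0 : f c = 0) :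
    ∃ g : ℝ → ℝ, ContDiffOn ℝ ∞ g (Icc a b) ∧ (∀ x ∈ Icc a b, f x = (x - c) * g x) ∧
      g c = derivWithin f (Icc a b) c := by
  set D := derivWithin f (Icc a b) with hD
  have hu := uniqueDiffOn_Icc hab
  have hDs : ContDiffOn ℝ ∞ D (Icc a b) := hf.derivWithin hu (by simp)
  have hmem : ∀ s ∈ Icc (0:ℝ) 1, ∀ x ∈ Icc a b, c + s * (x - c) ∈ Icc a b := fun s hs x hx =>
    (convex_Icc a b).add_smul_sub_mem hc hx hs
  have hpc : ContDiffOn ℝ ∞ (fun p : ℝ × ℝ => D (c + p.1 * (p.2 - c)))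
      (Icc (0:ℝ) 1 ×ˢ Icc a b) :=
    hDs.comp (by fun_prop) fun p hp => hmem _ hp.1 _ hp.2
  refine ⟨fun x => ∫ s in (0:ℝ)..1, D (c + s * (x - c)), ?_, ?_, by simp⟩
  · exact Calc.contDiffOn_param (convex_Icc a b) hu (fun x _ => ⟨1, one_pos,
      (isCompact_closedBall x 1).inter_right isClosed_Icc⟩) hpc
  · intro x hx
    have hmaps : MapsTo (fun r : ℝ => c + r * (x - c)) (Icc (0:ℝ) 1) (Icc a b) :=
      fun r hr => hmem r hr x hx
    have hd : ∀ s ∈ Icc (0:ℝ) 1, HasDerivWithinAt (fun r => f (c + r * (x - c)))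
        (D (c + s * (x - c)) * (x - c)) (Icc 0 1) s := by
      intro s hs
      have h1 : HasDerivWithinAt (fun r : ℝ => c + r * (x - c)) (x - c) (Icc (0:ℝ) 1) s := by
        simpa using (((hasDerivAt_id s).mul_const (x - c)).const_add c).hasDerivWithinAt
      exact (((hf.differentiableOn (by simp)) _ (hmem s hs x hx)).hasDerivWithinAt).comp s h1
        hmaps
    have hcont : ContinuousOn (fun s => D (c + s * (x - c))) (Icc (0:ℝ) 1) :=
      hDs.continuousOn.comp (by fun_prop) hmaps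
    have hint : IntervalIntegrable (fun s => D (c + s * (x - c)) * (x - c)) volume 0 1 :=
      (hcont.mul continuousOn_const).intervalIntegrable_of_Icc zero_le_one
    have h := intervalIntegral.integral_eq_sub_of_hasDerivAt_of_le zero_le_one
      (fun s hs => (hd s hs).continuousWithinAt)
      (fun s hs => (hd s (Ioo_subset_Icc_self hs)).hasDerivAt (Icc_mem_nhds hs.1 hs.2)) hint
    rw [intervalIntegral.integral_mul_const] at h
    simp only [zero_mul, add_zero, one_mul, h0, sub_zero, add_sub_cancel] at h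
    linarith

/-- A smooth function vanishing at both ends. -/
theorem divide_two {a b : ℝ} (hab : a < b) {f : ℝ → ℝ} (hf : ContDiffOn ℝ ∞ f (Icc a b))
    (ha : f a = 0) (hb : f b = 0) :
    ∃ g : ℝ → ℝ, ContDiffOn ℝ ∞ g (Icc a b) ∧
      (∀ x ∈ Icc a b, f x = (x - a) * (b - x) * g x) ∧
      derivWithin f (Icc a b) a = (b - a) * g a ∧ derivWithin f (Icc a b) b = (a - b) * g b := by
  obtain ⟨p, hp, hpf, hpa⟩ := divide_within hab (left_mem_Icc.2 hab.le) hf ha
  have hpb : p b = 0 := by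
    have := hpf b (right_mem_Icc.2 hab.le)
    rw [hb] at this
    rcases mul_eq_zero.1 this.symm with h | h
    · linarith
    · exact h
  obtain ⟨g, hg, hgp, hgb⟩ := divide_within hab (right_mem_Icc.2 hab.le) hp hpb
  refine ⟨fun x => -g x, hg.neg, fun x hx => ?_, ?_, ?_⟩
  · rw [hpf x hx, hgp x hx]; ring
  · rw [← hpa, hgp a (left_mem_Icc.2 hab.le)]; ring
  · have hu := uniqueDiffOn_Icc hab b (right_mem_Icc.2 hab.le)
    have hd : HasDerivWithinAt f (p b + (b - a) * derivWithin p (Icc a b) b) (Icc a b) b := by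
      have h1 : HasDerivWithinAt (fun x => (x - a) * p x)
          (1 * p b + (b - a) * derivWithin p (Icc a b) b) (Icc a b) b :=
        ((hasDerivWithinAt_id b _).sub_const a).mul
          ((hp.differentiableOn (by simp)) b (right_mem_Icc.2 hab.le)).hasDerivWithinAt
      rw [one_mul] at h1
      exact h1.congr (fun x hx => hpf x hx) (hpf b (right_mem_Icc.2 hab.le))
    rw [hd.derivWithin hu, hpb, ← hgb]; ring

/-- Primitive of a smooth function on a closed interval. -/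
theorem primitive_within {a b : ℝ} (hab : a < b) {f : ℝ → ℝ}
    (hf : ContDiffOn ℝ ∞ f (Icc a b)) :
    ∃ g : ℝ → ℝ, ContDiffOn ℝ ∞ g (Icc a b) ∧
      ∀ x ∈ Icc a b, HasDerivWithinAt g (f x) (Icc a b) x := by
  set g := fun x => ∫ t in a..x, IccExtend hab.le ((Icc a b).domRestrict f) t with hg
  have hcont : Continuous (IccExtend hab.le ((Icc a b).domRestrict f)) :=
    (continuousOn_iff_continuous_domRestrict.1 hf.continuousOn).Icc_extend'
  have hd : ∀ x ∈ Icc a b, HasDerivWithinAt g (f x) (Icc a b) x := by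
    intro x hx
    have := (hcont.integral_hasStrictDerivAt a x).hasDerivAt.hasDerivWithinAt (s := Icc a b)
    rwa [IccExtend_of_mem hab.le _ hx] at this
  refine ⟨g, (contDiffOn_infty_iff_derivWithin (uniqueDiffOn_Icc hab)).2
    ⟨fun x hx => (hd x hx).differentiableWithinAt,
      hf.congr fun x hx => (hd x hx).derivWithin (uniqueDiffOn_Icc hab x hx)⟩, hd⟩

/-- Inverse of a smooth increasing bijection of closed intervals. -/
theorem smooth_inverse {a b c d : ℝ} (hab : a < b) {U D : ℝ → ℝ} (hUa : U a = c) (hUb : U b = d)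
    (hU : ContDiffOn ℝ ∞ U (Icc a b)) (hDs : ContDiffOn ℝ ∞ D (Icc a b))
    (hD : ∀ x ∈ Icc a b, HasDerivWithinAt U (D x) (Icc a b) x) (hpos : ∀ x ∈ Icc a b, 0 < D x) :
    ∃ X : ℝ → ℝ, ContDiffOn ℝ ∞ X (Icc c d) ∧ MapsTo X (Icc c d) (Icc a b) ∧
      (∀ x ∈ Icc a b, X (U x) = x) ∧ (∀ u ∈ Icc c d, U (X u) = u) ∧
      ∀ u ∈ Icc c d, HasDerivWithinAt X (D (X u))⁻¹ (Icc c d) u := by
  have hmono : StrictMonoOn U (Icc a b) := by
    refine strictMonoOn_of_deriv_pos (convex_Icc a b) hU.continuousOn ?_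
    intro x hx
    rw [interior_Icc] at hx
    rw [((hD x (Ioo_subset_Icc_self hx)).hasDerivAt (Icc_mem_nhds hx.1 hx.2)).deriv]
    exact hpos x (Ioo_subset_Icc_self hx)
  have himg : U '' Icc a b = Icc c d := by
    refine Subset.antisymm ?_ ?_
    · rintro _ ⟨x, hx, rfl⟩
      rw [← hUa, ← hUb]
      exact ⟨hmono.monotoneOn (left_mem_Icc.2 hab.le) hx hx.1,
        hmono.monotoneOn hx (right_mem_Icc.2 hab.le) hx.2⟩
    · rw [← hUa, ← hUb]; exact intermediate_value_Icc hab.le hU.continuousOn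
  have hcd : c < d := by
    rw [← hUa, ← hUb]; exact hmono (left_mem_Icc.2 hab.le) (right_mem_Icc.2 hab.le) hab
  set X := Function.invFunOn U (Icc a b) with hX
  have hex : ∀ u ∈ Icc c d, ∃ x ∈ Icc a b, U x = u := fun u hu =>
    (Set.ext_iff.1 himg u).2 hu
  have hXm : MapsTo X (Icc c d) (Icc a b) := fun u hu => Function.invFunOn_mem (hex u hu)
  have hUX : ∀ u ∈ Icc c d, U (X u) = u := fun u hu => Function.invFunOn_eq (hex u hu)
  have hXU : ∀ x ∈ Icc a b, X (U x) = x := fun x hx =>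
    hmono.injOn.leftInvOn_invFunOn hx
  have hXc : ContinuousOn X (Icc c d) := by
    refine continuousOn_iff_isClosed.2 fun t ht => ⟨U '' (Icc a b ∩ t),
      ((isCompact_Icc.inter_right ht).image_of_continuousOn
        (hU.continuousOn.mono inter_subset_left)).isClosed, ?_⟩
    ext u
    constructor
    · rintro ⟨hu, hu'⟩
      exact ⟨⟨X u, ⟨hXm hu', hu⟩, hUX u hu'⟩, hu'⟩
    · rintro ⟨⟨x, ⟨hx, hxt⟩, rfl⟩, hu'⟩
      exact ⟨by rwa [mem_preimage, hXU x hx], hu'⟩
  have hXd : ∀ u ∈ Icc c d, HasDerivWithinAt X (D (X u))⁻¹ (Icc c d) u := by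
    intro u hu
    rw [hasDerivWithinAt_iff_tendsto_slope]
    have ht : Tendsto X (𝓝[Icc c d \ {u}] u) (𝓝[Icc a b \ {X u}] (X u)) := by
      refine tendsto_nhdsWithin_iff.2 ⟨((hXc u hu).mono sdiff_subset).tendsto, ?_⟩
      filter_upwards [self_mem_nhdsWithin] with v hv
      refine ⟨hXm hv.1, fun h => hv.2 ?_⟩
      rw [mem_singleton_iff] at h ⊢
      rw [← hUX v hv.1, h, hUX u hu]
    have h2 := (((hasDerivWithinAt_iff_tendsto_slope.1 (hD _ (hXm hu))).comp ht).inv₀
      (hpos _ (hXm hu)).ne')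
    refine h2.congr' ?_
    filter_upwards [self_mem_nhdsWithin] with v hv
    simp only [Function.comp_apply, slope_def_field, hUX u hu, hUX v hv.1, inv_div]
  have hk : ∀ k : ℕ, ContDiffOn ℝ k X (Icc c d) := by
    intro k
    induction k with
    | zero => exact contDiffOn_zero.2 hXc
    | succ k ih =>
      rw [Nat.cast_succ, contDiffOn_succ_iff_derivWithin (uniqueDiffOn_Icc hcd)]
      refine ⟨fun u hu => (hXd u hu).differentiableWithinAt, by simp, ?_⟩
      refine ContDiffOn.congr (f := fun u => (D (X u))⁻¹) ?_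
        (fun u hu => (hXd u hu).derivWithin (uniqueDiffOn_Icc hcd u hu))
      exact ((hDs.of_le (mod_cast le_top)).comp ih hXm).inv fun u hu => (hpos _ (hXm hu)).ne'
  exact ⟨X, contDiffOn_infty.2 hk, hXm, hXU, hUX, hXd⟩

/-- Everything the manifold part needs from a profile: `G` is the potential as a function of `u`,
`Q = G'`, `Qd = Q'`, and the momentum is `L u + u (1 - u) Q u`. -/
structure Model (L : ℝ) (φ₀ G Q Qd : ℝ → ℝ) : Prop where
  smooth : ContDiffOn ℝ ∞ G (Icc 0 1)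
  dG : ∀ u ∈ Icc (0:ℝ) 1, HasDerivWithinAt G (Q u) (Icc 0 1) u
  dQ : ∀ u ∈ Icc (0:ℝ) 1, HasDerivWithinAt Q (Qd u) (Icc 0 1) u
  pos : ∀ u ∈ Icc (0:ℝ) 1, 0 < L + (1 - 2 * u) * Q u + u * (1 - u) * Qd u
  pos' : ∀ u ∈ Icc (0:ℝ) 1, 0 < L + (1 - u) * Q u
  range : ∀ u ∈ Ioo (0:ℝ) 1, L * u + u * (1 - u) * Q u ∈ Ioo 0 L
  profile : ∀ u ∈ Ioo (0:ℝ) 1, φ₀ (L * u + u * (1 - u) * Q u)
    = (L + (1 - 2 * u) * Q u + u * (1 - u) * Qd u) * (u * (1 - u))

theorem exists_model {L : ℝ} {φ₀ : ℝ → ℝ} (hL : 0 < L) (h : IsProfile L φ₀) :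
    ∃ G Q Qd, Model L φ₀ G Q Qd := by
  obtain ⟨p, hp, hpf, hp0, hpL⟩ := divide_two hL h.smooth h.left h.right
  simp only [sub_zero, zero_sub] at hpf hp0 hpL
  rw [h.slope_left] at hp0
  rw [h.slope_right] at hpL
  have hp0' : (p 0)⁻¹ = L := inv_eq_of_mul_eq_one_left hp0.symm
  have hpL' : (p L)⁻¹ = L := inv_eq_of_mul_eq_one_left (by linarith)
  have hpp : ∀ x ∈ Icc 0 L, 0 < p x := by
    intro x hx
    rcases hx.1.eq_or_lt with rfl | hx0
    · exact inv_pos.1 (hp0'.symm ▸ hL)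
    rcases hx.2.eq_or_lt with rfl | hxL
    · exact inv_pos.1 (hpL'.symm ▸ hL)
    have h1 := h.pos x ⟨hx0, hxL⟩
    rw [hpf x hx] at h1
    exact pos_of_mul_pos_right h1 (mul_nonneg hx0.le (by linarith))
  obtain ⟨m, hm, hmf, -, -⟩ := divide_two hL
    (f := fun x => (p x)⁻¹ - L) ((hp.inv fun x hx => (hpp x hx).ne').sub contDiffOn_const)
    (by simp [hp0']) (by simp [hpL'])
  simp only [sub_zero] at hmf
  obtain ⟨H, hH, hHd⟩ := primitive_within hL hm
  set N := fun x => x * Real.exp (H x) + (L - x) with hN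
  set U := fun x => x * Real.exp (H x) / N x with hUdef
  set D := fun x => Real.exp (H x) * (p x)⁻¹ / N x ^ 2 with hDdef
  have hNpos : ∀ x ∈ Icc 0 L, 0 < N x := by
    intro x hx
    rcases hx.1.eq_or_lt with rfl | hx0
    · simpa [hN] using hL
    · have := mul_pos hx0 (Real.exp_pos (H x)); simp only [hN]; linarith [hx.2]
  have hNs : ContDiffOn ℝ ∞ N (Icc 0 L) :=
    (contDiffOn_id.mul hH.exp).add (contDiffOn_const.sub contDiffOn_id)
  have hUs : ContDiffOn ℝ ∞ U (Icc 0 L) :=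
    (contDiffOn_id.mul hH.exp).div hNs fun x hx => (hNpos x hx).ne'
  have hDs : ContDiffOn ℝ ∞ D (Icc 0 L) :=
    (hH.exp.mul (hp.inv fun x hx => (hpp x hx).ne')).div (hNs.pow 2)
      fun x hx => pow_ne_zero 2 (hNpos x hx).ne'
  have hD : ∀ x ∈ Icc 0 L, HasDerivWithinAt U (D x) (Icc 0 L) x := by
    intro x hx
    have hid := hasDerivWithinAt_id x (Icc (0:ℝ) L)
    have he := (hHd x hx).exp
    have h1 := hid.mul he
    have h2 := h1.add (hid.const_sub L)
    refine (h1.div h2 (hNpos x hx).ne').congr_deriv ?_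
    have hpm : (p x)⁻¹ = L + x * (L - x) * m x := by linarith [hmf x hx]
    simp only [hDdef, hN, hpm, id_eq, Pi.mul_apply, Pi.add_apply]
    ring
  have hDpos : ∀ x ∈ Icc 0 L, 0 < D x := fun x hx =>
    div_pos (mul_pos (Real.exp_pos _) (inv_pos.2 (hpp x hx))) (pow_pos (hNpos x hx) 2)
  have hU0 : U 0 = 0 := by simp [hUdef]
  have hUL : U L = 1 := by
    simp only [hUdef, hN, sub_self, add_zero]
    exact div_self (mul_pos hL (Real.exp_pos _)).ne'
  have hφD : ∀ x ∈ Icc 0 L, φ₀ x * D x = U x * (1 - U x) := by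
    intro x hx
    have := (hNpos x hx).ne'
    have := (hpp x hx).ne'
    rw [hpf x hx]
    simp only [hUdef, hDdef]
    field_simp
    simp only [hN]
    ring
  obtain ⟨X, hX, hXm, hXU, hUX, hXd⟩ := smooth_inverse hL hU0 hUL hUs hDs hD hDpos
  have hX0 : X 0 = 0 := by have := hXU 0 (left_mem_Icc.2 hL.le); rwa [hU0] at this
  have hX1 : X 1 = L := by have := hXU L (right_mem_Icc.2 hL.le); rwa [hUL] at this
  obtain ⟨Q, hQ, hQf, -, -⟩ := divide_two (zero_lt_one' ℝ) (f := fun u => X u - L * u)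
    (hX.sub (contDiffOn_const.mul contDiffOn_id)) (by simp [hX0]) (by simp [hX1])
  simp only [sub_zero] at hQf
  obtain ⟨G, hG, hGd⟩ := primitive_within (zero_lt_one' ℝ) hQ
  set Qd := derivWithin Q (Icc (0:ℝ) 1) with hQd
  have hQd' : ∀ u ∈ Icc (0:ℝ) 1, HasDerivWithinAt Q (Qd u) (Icc 0 1) u := fun u hu =>
    ((hQ.differentiableOn (by simp)) u hu).hasDerivWithinAt
  have hXeq : ∀ u ∈ Icc (0:ℝ) 1, X u = L * u + u * (1 - u) * Q u := fun u hu => by
    linarith [hQf u hu]
  have hXeq' : ∀ u ∈ Icc (0:ℝ) 1,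
      L + (1 - 2 * u) * Q u + u * (1 - u) * Qd u = (D (X u))⁻¹ := by
    intro u hu
    have hid := hasDerivWithinAt_id u (Icc (0:ℝ) 1)
    have h1 := (hid.const_mul L).add ((hid.mul (hid.const_sub 1)).mul (hQd' u hu))
    have h2 := h1.congr (f₁ := X) (fun v hv => by simpa using hXeq v hv)
      (by simpa using hXeq u hu)
    have := (uniqueDiffOn_Icc (zero_lt_one' ℝ) u hu).eq_deriv _ (hXd u hu) h2
    rw [this]; simp only [id_eq, Pi.mul_apply]; ring
  have hXin : ∀ u ∈ Ioo (0:ℝ) 1, X u ∈ Ioo 0 L := by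
    intro u hu
    have hu' := Ioo_subset_Icc_self hu
    refine ⟨(hXm hu').1.lt_of_ne fun h0 => ?_, (hXm hu').2.lt_of_ne fun h0 => ?_⟩
    · exact hu.1.ne' (by rw [← hUX u hu', ← h0, hU0])
    · exact hu.2.ne (by rw [← hUX u hu', h0, hUL])
  refine ⟨G, Q, Qd, hG, hGd, hQd', fun u hu => ?_, fun u hu => ?_, fun u hu => ?_,
    fun u hu => ?_⟩
  · rw [hXeq' u hu]; exact inv_pos.2 (hDpos _ (hXm hu))
  · rcases hu.1.eq_or_lt with rfl | hu0
    · have := inv_pos.2 (hDpos _ (hXm hu))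
      rw [← hXeq' 0 hu] at this
      simpa using this
    · have h1 : 0 < X u := by
        rcases hu.2.eq_or_lt with rfl | hu1
        · rwa [hX1]
        · exact (hXin u ⟨hu0, hu1⟩).1
      rw [hXeq u hu, show L * u + u * (1 - u) * Q u = u * (L + (1 - u) * Q u) by ring] at h1
      exact pos_of_mul_pos_right h1 hu0.le
  · rw [← hXeq u (Ioo_subset_Icc_self hu)]; exact hXin u hu
  · have hu' := Ioo_subset_Icc_self hu
    rw [← hXeq u hu', hXeq' u hu']
    have h3 := hφD _ (hXm hu')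
    rw [hUX u hu'] at h3
    have h4 := (hDpos _ (hXm hu')).ne'
    rw [← h3]
    field_simp

end Vale.Agent.P264.Manifold
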