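import Vale.Agent.P264.Manifold.Targets
import Vale.Agent.P264.Manifold.RealizeOne

/-!
Every profile comes from an invariant Kaehler form on the projective space.

The potential is `G u` with `u = 1 - |Z 0|^2 / |Z|^2`. Along a complex line its Laplacian is
`4 ((L + (1 - u) Q) p - (Q - (1 - u) Q') e)` with `0 < p` and `0 ≤ e ≤ u p`, an affine function of
`e` which is positive at both ends.
-/

namespace Vale.Agent.P264.Manifold

open Set Filter
open scoped ContDiff ComplexOrder Topology Matrix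

/-- Square norm of homogeneous coordinates. -/
noncomputable def hSq (Z : Hom) : ℝ := ∑ k, Complex.normSq (Z k)

/-- The invariant variable. -/
noncomputable def uvar (Z : Hom) : ℝ := 1 - Complex.normSq (Z 0) / hSq Z

theorem le_hSq (Z : Hom) (i : Fin 9) : Complex.normSq (Z i) ≤ hSq Z :=
  Finset.single_le_sum (fun k _ => Complex.normSq_nonneg (Z k)) (Finset.mem_univ i)

theorem hSq_pos {Z : Hom} (h : Z ≠ 0) : 0 < hSq Z := by
  obtain ⟨i, hi⟩ : ∃ i, Z i ≠ 0 := Function.ne_iff.1 h
  exact (Complex.normSq_pos.2 hi).trans_le (le_hSq Z i)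

theorem hSq_tail (Z : Hom) :
    hSq Z = Complex.normSq (Z 0) + ∑ k : Fin 8, Complex.normSq (Z k.succ) :=
  Fin.sum_univ_succ _

theorem uvar_mem {Z : Hom} (h : Z ≠ 0) : uvar Z ∈ Icc (0:ℝ) 1 := by
  refine ⟨?_, ?_⟩
  · rw [uvar, sub_nonneg, div_le_one (hSq_pos h)]; exact le_hSq Z 0
  · rw [uvar, sub_le_self_iff]; exact div_nonneg (Complex.normSq_nonneg _) (hSq_pos h).le

theorem contDiff_normSq : ContDiff ℝ ∞ (fun z : ℂ => Complex.normSq z) := by
  simp only [Complex.normSq_apply]
  exact (Complex.reCLM.contDiff.mul Complex.reCLM.contDiff).add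
    (Complex.imCLM.contDiff.mul Complex.imCLM.contDiff)

theorem contDiff_hSq : ContDiff ℝ ∞ hSq :=
  ContDiff.sum fun k _ => contDiff_normSq.comp (contDiff_apply ℝ ℂ k)

theorem uvar_smooth : ContDiffOn ℝ ∞ uvar {0}ᶜ :=
  contDiffOn_const.sub ((contDiff_normSq.comp (contDiff_apply ℝ ℂ 0)).contDiffOn.div
    contDiff_hSq.contDiffOn fun _ hZ => (hSq_pos hZ).ne')

theorem point_self (i : Fin 9) (z : Chart) : point i z i = 1 := Fin.insertNth_apply_same ..

theorem point_ne (i : Fin 9) (z : Chart) : point i z ≠ 0 := fun h => by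
  simpa [point_self] using congrFun h i

theorem point_smooth (i : Fin 9) : ContDiff ℝ ∞ (point i) := by
  refine contDiff_pi.2 fun k => ?_
  obtain rfl | hk := eq_or_ne k i
  · simp only [point_self]; exact contDiff_const
  · obtain ⟨j, rfl⟩ := Fin.exists_succAbove_eq hk
    simp only [point, Fin.insertNth_apply_succAbove]
    exact contDiff_apply ℝ ℂ j

theorem hSq_point (i : Fin 9) (z : Chart) : hSq (point i z) = 1 + ∑ j, ‖z j‖ ^ 2 := by
  rw [hSq, Fin.sum_univ_succAbove _ i]
  simp [point, Complex.sq_norm]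

theorem pot_model_eq (L : ℝ) (G : ℝ → ℝ) (i : Fin 9) (z : Chart) :
    pot L (fun Z => G (uvar Z)) i z
      = L * Real.log (hSq (point i z)) + G (uvar (point i z)) := by
  rw [pot, hSq_point]

theorem pot_smooth {G : ℝ → ℝ} (hG : ContDiffOn ℝ ∞ G (Icc 0 1)) (L : ℝ) (i : Fin 9) :
    ContDiff ℝ ∞ (pot L (fun Z => G (uvar Z)) i) := by
  rw [funext (pot_model_eq L G i)]
  refine ContDiff.add (contDiff_const.mul ?_) ?_
  · exact (contDiff_hSq.comp (point_smooth i)).log fun z => (hSq_pos (point_ne i z)).ne'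
  · exact contDiffOn_univ.1 ((hG.comp uvar_smooth fun Z hZ => uvar_mem hZ).comp
      (point_smooth i).contDiffOn fun z _ => point_ne i z)

/-! ### The complex Hessian and real second derivatives -/

theorem d2_comm {f : Chart → ℝ} (hf : ContDiff ℝ ∞ f) (z v w : Chart) :
    d2 f z v w = d2 f z w v :=
  (hf.contDiffAt.isSymmSndFDerivAt
    (by rw [minSmoothness_of_isRCLikeNormedField]; exact WithTop.coe_le_coe.2 le_top)) v w

theorem cHess_isHermitian {f : Chart → ℝ} (hf : ContDiff ℝ ∞ f) (z : Chart) :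
    (cHess f z).IsHermitian := by
  ext j k
  simp only [Matrix.conjTranspose_apply, cHess, Matrix.of_apply]
  rw [d2_comm hf z (Pi.single k 1) (Pi.single j 1),
    d2_comm hf z (Pi.single k Complex.I) (Pi.single j Complex.I),
    d2_comm hf z (Pi.single k 1) (Pi.single j Complex.I),
    d2_comm hf z (Pi.single k Complex.I) (Pi.single j 1)]
  apply Complex.ext <;> simp

/-- The Levi form of `f`. -/
theorem cHess_form (f : Chart → ℝ) (z v : Chart) :
    4 * (star v ⬝ᵥ cHess f z *ᵥ v).re
      = d2 f z (star v) (star v) + d2 f z (Complex.I • star v) (Complex.I • star v) := by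
  set B : Chart →L[ℝ] Chart →L[ℝ] ℝ := fderiv ℝ (fderiv ℝ f) z with hB
  have e1 : star v
      = ∑ j, ((v j).re • (Pi.single j 1 : Chart) + (-(v j).im) • (Pi.single j Complex.I : Chart)) := by
    funext k
    apply Complex.ext <;>
      simp [Finset.sum_apply, Pi.single_apply, apply_ite Complex.re, apply_ite Complex.im]
  have e2 : Complex.I • star v
      = ∑ j, ((v j).im • (Pi.single j 1 : Chart) + (v j).re • (Pi.single j Complex.I : Chart)) := by
    funext k
    apply Complex.ext <;>
      simp [Finset.sum_apply, Pi.single_apply, apply_ite Complex.re, apply_ite Complex.im]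
  simp only [d2, ← hB]
  conv_rhs => rw [e2, e1]
  simp only [map_sum, _root_.sum_apply, map_add, map_smul,
    _root_.add_apply, _root_.smul_apply, smul_eq_mul, dotProduct,
    Matrix.mulVec, Pi.star_apply, Finset.mul_sum, Complex.re_sum, ← Finset.sum_add_distrib]
  conv_rhs => rw [Finset.sum_comm]
  refine Finset.sum_congr rfl fun j _ => Finset.sum_congr rfl fun k _ => ?_
  simp [cHess, d2, ← hB]
  ring

theorem d2_line {f : Chart → ℝ} (hf : ContDiff ℝ ∞ f) (z w : Chart) :
    d2 f z w w = deriv (deriv fun t : ℝ => f (z + t • w)) 0 := by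
  have hl : ∀ t : ℝ, HasDerivAt (fun t : ℝ => z + t • w) w t := fun t => by
    simpa using ((hasDerivAt_id t).smul_const w).const_add z
  have h1 : deriv (fun t : ℝ => f (z + t • w)) = fun t => fderiv ℝ f (z + t • w) w :=
    funext fun t =>
      (((hf.differentiable (by simp)) _).hasFDerivAt.comp_hasDerivAt t (hl t)).deriv
  have hdd : Differentiable ℝ (fderiv ℝ f) :=
    (hf.fderiv_right (m := 1) (WithTop.coe_le_coe.2 le_top)).differentiable (by simp)
  have h3 : HasDerivAt (fun t : ℝ => fderiv ℝ f (z + t • w)) (fderiv ℝ (fderiv ℝ f) z w) 0 := by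
    have h0 : HasFDerivAt (fderiv ℝ f) (fderiv ℝ (fderiv ℝ f) z) (z + (0:ℝ) • w) := by
      rw [zero_smul, add_zero]; exact (hdd z).hasFDerivAt
    exact h0.comp_hasDerivAt (0:ℝ) (hl 0)
  have h4 : HasDerivAt (fun t : ℝ => fderiv ℝ f (z + t • w) w)
      (fderiv ℝ (fderiv ℝ f) z w w) 0 :=
    (ContinuousLinearMap.apply ℝ ℝ w).hasFDerivAt.comp_hasDerivAt (0:ℝ) h3
  rw [h1, h4.deriv, d2]

/-! ### Second derivative along a line -/

theorem hSq_line (Z W : Hom) (t : ℝ) :
    hSq (Z + t • W) = hSq Z + 2 * (∑ k, star (Z k) * W k).re * t + hSq W * t ^ 2 := by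
  simp only [hSq, Complex.re_sum, Finset.mul_sum, Finset.sum_mul, ← Finset.sum_add_distrib]
  refine Finset.sum_congr rfl fun k _ => ?_
  simp [Complex.normSq_apply]
  ring

theorem normSq_line (a b : ℂ) (t : ℝ) :
    Complex.normSq (a + t • b)
      = Complex.normSq a + 2 * (star a * b).re * t + Complex.normSq b * t ^ 2 := by
  simp [Complex.normSq_apply]
  ring

theorem deriv2_model {L : ℝ} {φ₀ G Q Qd : ℝ → ℝ} (hM : Model L φ₀ G Q Qd)
    (B₀ b w C₀ c v : ℝ) (hB : ∀ t : ℝ, 0 < B₀ + 2 * b * t + w * t ^ 2)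
    (hu : ∀ t : ℝ, 1 - (C₀ + 2 * c * t + v * t ^ 2) / (B₀ + 2 * b * t + w * t ^ 2) ∈ Icc (0:ℝ) 1) :
    deriv (deriv fun t => L * Real.log (B₀ + 2 * b * t + w * t ^ 2)
        + G (1 - (C₀ + 2 * c * t + v * t ^ 2) / (B₀ + 2 * b * t + w * t ^ 2))) 0
      = L * ((2 * w * B₀ - (2 * b) ^ 2) / B₀ ^ 2)
        + Qd (1 - C₀ / B₀) * ((2 * c * B₀ - C₀ * (2 * b)) / B₀ ^ 2) ^ 2
        + Q (1 - C₀ / B₀) * -(2 * v / B₀ - 2 * (2 * c) * (2 * b) / B₀ ^ 2
            - C₀ * (2 * w) / B₀ ^ 2 + 2 * C₀ * (2 * b) ^ 2 / B₀ ^ 3) := by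
  set B := fun t : ℝ => B₀ + 2 * b * t + w * t ^ 2 with hBdef
  set C := fun t : ℝ => C₀ + 2 * c * t + v * t ^ 2 with hCdef
  set B' := fun t : ℝ => 2 * b + 2 * w * t with hB'def
  set C' := fun t : ℝ => 2 * c + 2 * v * t with hC'def
  have hq : ∀ a₀ a₁ a₂ t : ℝ,
      HasDerivAt (fun t => a₀ + 2 * a₁ * t + a₂ * t ^ 2) (2 * a₁ + 2 * a₂ * t) t := by
    intro a₀ a₁ a₂ t
    refine ((((hasDerivAt_id t).const_mul (2 * a₁)).const_add a₀).add
      ((hasDerivAt_pow 2 t).const_mul a₂)).congr_deriv ?_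
    simp; ring
  have hl : ∀ a₁ a₂ t : ℝ, HasDerivAt (fun t : ℝ => 2 * a₁ + 2 * a₂ * t) (2 * a₂) t := by
    intro a₁ a₂ t
    simpa using ((hasDerivAt_id t).const_mul (2 * a₂)).const_add (2 * a₁)
  set u := fun t => 1 - C t / B t with hudef
  set u' := fun t => -((C' t * B t - C t * B' t) / B t ^ 2) with hu'def
  have hud : ∀ t, HasDerivAt u (u' t) t := fun t =>
    ((hq C₀ c v t).div (hq B₀ b w t) (hB t).ne').const_sub 1
  have hev : ∀ t, ∀ᶠ r in 𝓝 t, u r ∈ Icc (0:ℝ) 1 := fun t => Eventually.of_forall hu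
  have h1 : deriv (fun t => L * Real.log (B t) + G (u t))
      = fun t => L * (B' t / B t) + Q (u t) * u' t := funext fun t =>
    ((((hq B₀ b w t).log (hB t).ne').const_mul L).add
      ((hM.dG (u t) (hu t)).comp_hasDerivAt t (hud t) (hev t))).deriv
  have hu2 := (((hl c v 0).mul (hq B₀ b w 0)).sub ((hq C₀ c v 0).mul (hl b w 0))).div
    ((hq B₀ b w 0).pow 2) (pow_ne_zero 2 (hB 0).ne')
  have h2 := (((hl b w 0).div (hq B₀ b w 0) (hB 0).ne').const_mul L).add
    (((hM.dQ (u 0) (hu 0)).comp_hasDerivAt 0 (hud 0) (hev 0)).mul hu2.neg)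
  show deriv (deriv fun t => L * Real.log (B t) + G (u t)) 0 = _
  rw [h1]
  refine (h2.congr_deriv ?_).deriv
  have hB0 : B₀ ≠ 0 := by simpa using (hB 0).ne'
  simp [hudef, hu'def, hBdef, hCdef, hB'def, hC'def]
  field_simp
  ring

/-- The linear inequality behind positivity. -/
theorem levi_pos {L q q' u p e : ℝ} (h1 : 0 < L + (1 - u) * q)
    (h2 : 0 < L + (1 - 2 * u) * q + u * (1 - u) * q') (hu : 0 ≤ u) (hp : 0 < p) (he : 0 ≤ e)
    (hep : e ≤ u * p) : 0 < (L + (1 - u) * q) * p - (q - (1 - u) * q') * e := by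
  rcases hu.eq_or_lt with rfl | hu0
  · obtain rfl : e = 0 := le_antisymm (by simpa using hep) he
    simpa using mul_pos h1 hp
  have key : u * ((L + (1 - u) * q) * p - (q - (1 - u) * q') * e)
      = (L + (1 - u) * q) * (u * p - e) + e * (L + (1 - 2 * u) * q + u * (1 - u) * q') := by ring
  refine pos_of_mul_pos_right (key ▸ ?_) hu
  rcases hep.eq_or_lt with rfl | hlt
  · have := mul_pos hu0 hp
    simp only [sub_self, mul_zero, zero_add]; positivity
  · have := mul_pos h1 (sub_pos.2 hlt); positivity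

/-- The two quantities in the Levi form. -/
theorem line_bounds (Z W : Hom) (i : Fin 9) (hZi : Z i = 1) (hWi : W i = 0) (hW : W ≠ 0) :
    let β := ∑ k, star (Z k) * W k
    let P := hSq Z * hSq W - Complex.normSq β
    0 < P ∧ Complex.normSq ((hSq Z : ℂ) * W 0 - β * Z 0) ≤ (hSq Z - Complex.normSq (Z 0)) * P := by
  intro β P
  set B := hSq Z with hB
  set η : Hom := fun k => (B : ℂ) * W k - β * Z k with hη
  have hBpos : 0 < B := hSq_pos fun h => by simp [h] at hZi
  have hZZ : ∑ k, star (Z k) * Z k = (B : ℂ) := by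
    rw [hB, hSq, Complex.ofReal_sum]
    exact Finset.sum_congr rfl fun k _ => (Complex.normSq_eq_conj_mul_self).symm
  have hnorm : ∑ k, Complex.normSq (η k) = B * P := by
    have e : ∀ k, Complex.normSq (η k) = B ^ 2 * Complex.normSq (W k)
        - 2 * B * (star β * (star (Z k) * W k)).re
        + Complex.normSq β * Complex.normSq (Z k) := by
      intro k
      simp [hη, Complex.normSq_apply]
      ring
    simp only [e, Finset.sum_add_distrib, Finset.sum_sub_distrib, ← Finset.mul_sum,
      ← Complex.re_sum]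
    have hb : (star β * β).re = Complex.normSq β := by simp [Complex.normSq_apply]
    change B ^ 2 * hSq W - 2 * B * (star β * β).re + Complex.normSq β * B = _
    rw [hb]; simp only [P]; ring
  have horth : ∑ k, star (Z k) * η k = 0 := by
    simp only [hη, mul_sub, Finset.sum_sub_distrib, ← mul_assoc, mul_comm _ (B : ℂ),
      mul_comm _ β]
    simp only [mul_assoc, ← Finset.mul_sum, hZZ]
    ring
  refine ⟨?_, ?_⟩
  · have hPnn : 0 < ∑ k, Complex.normSq (η k) := by
      by_contra hle
      have hz : ∀ k, η k = 0 := fun k => Complex.normSq_eq_zero.1 <| le_antisymm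
        (((Finset.single_le_sum (fun k _ => Complex.normSq_nonneg (η k))
          (Finset.mem_univ k))).trans (not_lt.1 hle)) (Complex.normSq_nonneg _)
      have hβ : β = 0 := by simpa [hη, hZi, hWi] using hz i
      apply hW
      funext k
      simpa [hη, hβ, hBpos.ne'] using hz k
    rw [hnorm] at hPnn
    exact pos_of_mul_pos_right hPnn hBpos.le
  · set A := ∑ k : Fin 8, Complex.normSq (Z k.succ) with hA
    set E := ∑ k : Fin 8, Complex.normSq (η k.succ) with hE
    have hBA : B = Complex.normSq (Z 0) + A := hSq_tail Z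
    have hsum : Complex.normSq (η 0) + E = B * P := by rw [← hnorm, Fin.sum_univ_succ]
    have h0 : star (Z 0) * η 0 = -∑ k : Fin 8, star (Z k.succ) * η k.succ := by
      rw [Fin.sum_univ_succ] at horth; exact eq_neg_of_add_eq_zero_left horth
    have hcs : Complex.normSq (Z 0) * Complex.normSq (η 0) ≤ A * E := by
      have h1 : Complex.normSq (Z 0) * Complex.normSq (η 0)
          = ‖∑ k : Fin 8, star (Z k.succ) * η k.succ‖ ^ 2 := by
        rw [← norm_neg, ← h0, norm_mul, norm_star, mul_pow, Complex.sq_norm, Complex.sq_norm]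
      rw [h1]
      refine le_trans (pow_le_pow_left₀ (norm_nonneg _) (norm_sum_le _ _) 2) ?_
      refine le_trans (le_of_eq ?_) (le_trans (Finset.sum_mul_sq_le_sq_mul_sq Finset.univ
        (fun k : Fin 8 => ‖Z k.succ‖) (fun k => ‖η k.succ‖)) (le_of_eq ?_))
      · simp
      · simp [hA, hE, Complex.sq_norm]
    change Complex.normSq (η 0) ≤ (B - Complex.normSq (Z 0)) * P
    have hmul : B * Complex.normSq (η 0) ≤ B * (A * P) := by
      have e1 : A * E = B * (A * P) - A * Complex.normSq (η 0) := by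
        rw [eq_sub_of_add_eq' hsum]; ring
      rw [e1] at hcs
      have e2 : B * Complex.normSq (η 0)
          = Complex.normSq (Z 0) * Complex.normSq (η 0) + A * Complex.normSq (η 0) := by
        rw [hBA]; ring
      linarith
    rw [show B - Complex.normSq (Z 0) = A by linarith]
    exact le_of_mul_le_mul_left hmul hBpos

theorem levi_line {L : ℝ} {φ₀ G Q Qd : ℝ → ℝ} (hM : Model L φ₀ G Q Qd) (Z W : Hom) (i : Fin 9)
    (hZi : Z i = 1) (hWi : W i = 0) (hW : W ≠ 0) :
    0 < deriv (deriv fun t : ℝ => L * Real.log (hSq (Z + t • W)) + G (uvar (Z + t • W))) 0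
      + deriv (deriv fun t : ℝ => L * Real.log (hSq (Z + t • (Complex.I • W)))
          + G (uvar (Z + t • (Complex.I • W)))) 0 := by
  have hne : ∀ (V : Hom), V i = 0 → ∀ t : ℝ, Z + t • V ≠ 0 := fun V hV t h => by
    simpa [hZi, hV] using congrFun h i
  have line : ∀ V : Hom, V i = 0 →
      deriv (deriv fun t : ℝ => L * Real.log (hSq (Z + t • V)) + G (uvar (Z + t • V))) 0
      = L * ((2 * hSq V * hSq Z - (2 * (∑ k, star (Z k) * V k).re) ^ 2) / hSq Z ^ 2)
        + Qd (uvar Z) * ((2 * (star (Z 0) * V 0).re * hSq Z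
            - Complex.normSq (Z 0) * (2 * (∑ k, star (Z k) * V k).re)) / hSq Z ^ 2) ^ 2
        + Q (uvar Z) * -(2 * Complex.normSq (V 0) / hSq Z
            - 2 * (2 * (star (Z 0) * V 0).re) * (2 * (∑ k, star (Z k) * V k).re) / hSq Z ^ 2
            - Complex.normSq (Z 0) * (2 * hSq V) / hSq Z ^ 2
            + 2 * Complex.normSq (Z 0) * (2 * (∑ k, star (Z k) * V k).re) ^ 2 / hSq Z ^ 3) := by
    intro V hV
    have he : ∀ t : ℝ, uvar (Z + t • V) = 1 - (Complex.normSq (Z 0)
        + 2 * (star (Z 0) * V 0).re * t + Complex.normSq (V 0) * t ^ 2) / (hSq Z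
          + 2 * (∑ k, star (Z k) * V k).re * t + hSq V * t ^ 2) := fun t => by
      rw [uvar, hSq_line]
      simp only [Pi.add_apply, Pi.smul_apply, normSq_line]
    simp only [he, hSq_line]
    exact deriv2_model hM _ _ _ _ _ _ (fun t => hSq_line Z V t ▸ hSq_pos (hne V hV t))
      fun t => he t ▸ uvar_mem (hne V hV t)
  have hIW : (Complex.I • W : Hom) i = 0 := by simp [hWi]
  rw [line W hWi, line _ hIW]
  have hZne : Z ≠ 0 := fun h => by simp [h] at hZi
  obtain ⟨hP, hη⟩ := line_bounds Z W i hZi hWi hW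
  have hu := uvar_mem hZne
  set B := hSq Z with hB
  set u := uvar Z with hudef
  set β := ∑ k, star (Z k) * W k with hβ
  set C := Complex.normSq (Z 0) with hC
  set e := Complex.normSq ((B : ℂ) * W 0 - β * Z 0) / B ^ 3 with he
  set p := (B * hSq W - Complex.normSq β) / B ^ 2 with hp
  have hBpos : 0 < B := hSq_pos hZne
  have huC : u = 1 - C / B := rfl
  have hpp : 0 < p := div_pos hP (pow_pos hBpos 2)
  have hep : e ≤ u * p := by
    have h0 : u * p = (B - C) * (B * hSq W - Complex.normSq β) / B ^ 3 := by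
      rw [huC, hp]; field_simp
    rw [h0, he]
    exact div_le_div_of_nonneg_right hη (pow_pos hBpos 3).le
  have hmain := levi_pos (q := Q u) (q' := Qd u) (hM.pos' u hu) (hM.pos u hu) hu.1 hpp
    (div_nonneg (Complex.normSq_nonneg _) (pow_pos hBpos 3).le) hep
  have h1 : hSq (Complex.I • W) = hSq W := by simp [hSq]
  have h2 : (∑ k, star (Z k) * (Complex.I • W) k).re = -β.im := by
    simp [hβ, Complex.re_sum, Complex.im_sum, ← Finset.sum_neg_distrib]
    exact Finset.sum_congr rfl fun k _ => by ring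
  have h3 : (star (Z 0) * (Complex.I • W) 0).re = -(star (Z 0) * W 0).im := by simp; ring
  have h4 : Complex.normSq ((Complex.I • W) 0) = Complex.normSq (W 0) := by simp
  rw [h1, h2, h3, h4]
  refine (mul_pos four_pos hmain).trans_eq ?_
  have hBne := hBpos.ne'
  simp [huC, hp, hC, Complex.normSq_apply]
  field_simp
  ring

theorem realize : RealizeTarget := by
  intro L φ₀ hL hφ
  obtain ⟨G, Q, Qd, hM⟩ := exists_model hL hφ
  refine ⟨fun Z => G (uvar Z), ⟨?_, ?_, ?_⟩, ?_, ?_⟩
  · exact hM.smooth.comp uvar_smooth fun Z hZ => uvar_mem hZ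
  · intro a Z ha _
    show G (uvar (a • Z)) = G (uvar Z)
    congr 1
    simp only [uvar, hSq, Pi.smul_apply, smul_eq_mul, map_mul, ← Finset.mul_sum]
    rw [mul_div_mul_left _ _ (Complex.normSq_pos.2 ha).ne']
  · intro i z
    have hf := pot_smooth hM.smooth L i
    have hH := cHess_isHermitian hf z
    refine Matrix.PosDef.of_dotProduct_mulVec_pos hH fun v hv => ?_
    rw [Complex.pos_iff]
    refine ⟨?_, (hH.im_star_dotProduct_mulVec_self v).symm⟩
    have hcur : ∀ (w : Chart) (t : ℝ),
        point i (z + t • w) = point i z + t • (Fin.insertNth i (0:ℂ) w : Hom) := by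
      intro w t; funext k
      obtain rfl | hk := eq_or_ne k i
      · simp [point]
      · obtain ⟨j, rfl⟩ := Fin.exists_succAbove_eq hk
        simp [point]
    have hWne : (Fin.insertNth i 0 (star v) : Hom) ≠ 0 := fun h => hv <| by
      funext j
      simpa using congrFun h (i.succAbove j)
    have hI : (Fin.insertNth i 0 (Complex.I • star v) : Hom)
        = Complex.I • Fin.insertNth i 0 (star v) := by
      funext k
      obtain rfl | hk := eq_or_ne k i
      · simp
      · obtain ⟨j, rfl⟩ := Fin.exists_succAbove_eq hk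
        simp
    have := cHess_form (pot L (fun Z => G (uvar Z)) i) z v
    rw [d2_line hf, d2_line hf] at this
    simp only [pot_model_eq, hcur, hI] at this
    have hpos := levi_line hM (point i z) (Fin.insertNth i 0 (star v)) i (point_self i z)
      (Fin.insertNth_apply_same ..) hWne
    simp only [metric]
    linarith
  · intro U hU Z _
    show G (uvar (act U Z)) = G (uvar Z)
    congr 1
    have htail : ∑ k : Fin 8, Complex.normSq (U.mulVec (Fin.tail Z) k)
        = ∑ k : Fin 8, Complex.normSq (Z k.succ) := by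
      apply Complex.ofReal_injective
      simp only [Complex.ofReal_sum, Complex.normSq_eq_conj_mul_self]
      change star (U *ᵥ Fin.tail Z) ⬝ᵥ (U *ᵥ Fin.tail Z) = star (Fin.tail Z) ⬝ᵥ Fin.tail Z
      rw [Matrix.star_mulVec, Matrix.dotProduct_mulVec, Matrix.vecMul_vecMul,
        ← Matrix.star_eq_conjTranspose, Matrix.mem_unitaryGroup_iff'.1 hU, Matrix.vecMul_one]
    simp [uvar, hSq_tail, act, htail]
  · set z : ℝ → Chart := fun ρ => Pi.single 0 (Real.exp (ρ / 2) : ℂ) with hz
    show (let F : ℝ → ℝ := fun ρ => pot L (fun Z => G (uvar Z)) 0 (z ρ)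
      ∀ ρ, deriv F ρ ∈ Ioo 0 L ∧ φ₀ (deriv F ρ) = deriv (deriv F) ρ)
    intro F ρ
    set U := fun ρ => Real.exp ρ / (1 + Real.exp ρ) with hU
    have hUm : ∀ ρ, U ρ ∈ Ioo (0:ℝ) 1 := fun r => by
      have := Real.exp_pos r
      exact ⟨by positivity, (div_lt_one (by positivity)).2 (by linarith)⟩
    have hUd : ∀ ρ, HasDerivAt U (U ρ * (1 - U ρ)) ρ := fun r => by
      have := Real.exp_pos r
      refine ((Real.hasDerivAt_exp r).div ((Real.hasDerivAt_exp r).const_add 1)
        (by positivity)).congr_deriv ?_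
      simp only [hU]; field_simp
    have hs : ∀ r, hSq (point 0 (z r)) = 1 + Real.exp r := fun r => by
      rw [hSq_point, Fintype.sum_eq_single 0 fun j hj => by simp [hz, hj]]
      simp [hz, -Complex.ofReal_exp, abs_of_pos (Real.exp_pos _), sq, ← Real.exp_add]
    have hFe : F = fun r => L * Real.log (1 + Real.exp r) + G (U r) := funext fun r => by
      have := Real.exp_pos r
      simp only [F]
      rw [pot_model_eq]
      simp only [uvar, hs, point_self, map_one, hU]
      congr 2
      field_simp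
      ring
    have hev : ∀ r, ∀ᶠ v in 𝓝 r, U v ∈ Icc (0:ℝ) 1 := fun r =>
      Eventually.of_forall fun v => Ioo_subset_Icc_self (hUm v)
    have hF' : deriv F = fun r => L * U r + U r * (1 - U r) * Q (U r) := by
      rw [hFe]
      funext r
      have := Real.exp_pos r
      refine (((((Real.hasDerivAt_exp r).const_add 1).log (by positivity)).const_mul L).add
        ((hM.dG _ (Ioo_subset_Icc_self (hUm r))).comp_hasDerivAt r (hUd r) (hev r))).deriv.trans ?_
      simp only [hU]; ring
    rw [hF']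
    refine ⟨hM.range _ (hUm ρ), ?_⟩
    rw [hM.profile _ (hUm ρ)]
    refine (HasDerivAt.deriv ?_).symm
    refine (((hUd ρ).const_mul L).add (((hUd ρ).mul ((hUd ρ).const_sub 1)).mul
      ((hM.dQ _ (Ioo_subset_Icc_self (hUm ρ))).comp_hasDerivAt ρ (hUd ρ) (hev ρ)))).congr_deriv ?_
    simp only [Pi.mul_apply, Function.comp_apply]
    ring

end Vale.Agent.P264.Manifold

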