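import Vale.Agent.P264.Manifold.FubiniStudy

/-!
Radial potentials `g (|z|^2)`, `g` smooth on an open set of values: complex Hessian, positivity,
determinant, and the scalar curvature in momentum coordinates.
-/

namespace Vale.Agent.P264.Manifold

open Set Filter Matrix
open scoped ContDiff ComplexOrder Topology

theorem continuous_sq2 : Continuous sq2 :=
  continuous_iff_continuousAt.2 fun z => (hasFDerivAt_sq2 z).continuousAt

theorem preimage_sq2_mem {z : Chart} {s : Set ℝ} (hs : IsOpen s) (hz : sq2 z ∈ s) :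
    ∀ᶠ u in 𝓝 z, sq2 u ∈ s :=
  continuous_sq2.continuousAt.preimage_mem_nhds (hs.mem_nhds hz)

/-- `cHess` only depends on the function near the point. -/
theorem cHess_congr {f g : Chart → ℝ} {z : Chart} (h : f =ᶠ[𝓝 z] g) :
    cHess f z = cHess g z := by
  have h2 : ∀ v w, d2 f z v w = d2 g z v w := fun v w => by
    rw [d2, d2, (h.fderiv (𝕜 := ℝ)).fderiv_eq]
  ext j k
  simp [cHess, h2]

/-- Complex Hessian of a function which is radial near the point. -/
theorem cHess_radial_near {f : Chart → ℝ} {g g1 : ℝ → ℝ} {g2 : ℝ} {z : Chart}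
    (hf : f =ᶠ[𝓝 z] fun u => g (sq2 u)) (hg : ∀ᶠ r in 𝓝 (sq2 z), HasDerivAt g (g1 r) r)
    (hg1 : HasDerivAt g1 g2 (sq2 z)) :
    cHess f z = (g1 (sq2 z) : ℂ) • 1 + (g2 : ℂ) • vecMulVec (star z) z := by
  rw [cHess_congr hf]
  have h1 : fderiv ℝ (fun u => g (sq2 u)) =ᶠ[𝓝 z] fun u => g1 (sq2 u) • ((2 : ℝ) • dotR u) := by
    filter_upwards [(continuous_sq2.continuousAt (x := z)).eventually hg] with u hu
    exact (hu.comp_hasFDerivAt u (hasFDerivAt_sq2 u)).fderiv
  let Dl : Chart →L[ℝ] Chart →L[ℝ] ℝ :=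
    (2 : ℝ) • ∑ j, ((Complex.reCLM.comp
        (ContinuousLinearMap.proj (R := ℝ) (φ := fun _ : Fin 8 => ℂ) j)).smulRight
        (Complex.reCLM.comp (ContinuousLinearMap.proj (R := ℝ) (φ := fun _ : Fin 8 => ℂ) j))
      + (Complex.imCLM.comp
        (ContinuousLinearMap.proj (R := ℝ) (φ := fun _ : Fin 8 => ℂ) j)).smulRight
        (Complex.imCLM.comp (ContinuousLinearMap.proj (R := ℝ) (φ := fun _ : Fin 8 => ℂ) j)))
  have hD : ∀ u, Dl u = (2 : ℝ) • dotR u := fun u => by ext x; simp [Dl, dotR]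
  have h2 : HasFDerivAt (fun u => g1 (sq2 u) • Dl u)
      (g1 (sq2 z) • Dl + (g2 • ((2 : ℝ) • dotR z)).smulRight (Dl z)) z :=
    (hg1.comp_hasFDerivAt z (hasFDerivAt_sq2 z)).fun_smul Dl.hasFDerivAt
  have hd2 : ∀ v w, d2 (fun u => g (sq2 u)) z v w
      = g2 * (4 * (dotR z v * dotR z w)) + g1 (sq2 z) * (2 * dotR v w) := fun v w => by
    have h3 : fderiv ℝ (fun u => g (sq2 u)) =ᶠ[𝓝 z] fun u => g1 (sq2 u) • Dl u := by
      simpa only [hD] using h1
    rw [d2, h3.fderiv_eq, h2.fderiv]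
    simp [hD]
    ring
  ext j k
  simp only [cHess, of_apply, hd2, dotR_single_one, dotR_single_I,
    Matrix.add_apply, Matrix.smul_apply, smul_eq_mul, vecMulVec_apply, Pi.star_apply]
  apply Complex.ext <;> by_cases h : j = k <;> simp [h, Matrix.one_apply] <;> ring

theorem form_radial (a c : ℂ) (z x : Chart) :
    star x ⬝ᵥ ((a • (1 : Matrix (Fin 8) (Fin 8) ℂ) + c • vecMulVec (star z) z) *ᵥ x)
      = a * (sq2 x : ℂ) + c * (Complex.normSq (z ⬝ᵥ x) : ℂ) := by
  rw [add_mulVec, smul_mulVec, smul_mulVec, one_mulVec, vecMulVec_mulVec, dotProduct_add,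
    dotProduct_smul, dotProduct_smul, smul_eq_mul, smul_eq_mul, op_smul_eq_smul, dotProduct_smul,
    smul_eq_mul, star_dotProduct_star, Complex.star_def, Complex.mul_conj, dotProduct_comm,
    dot_star]

theorem sq2_eq_zero {z : Chart} : sq2 z = 0 ↔ z = 0 := by
  refine ⟨fun h => funext fun j => ?_, fun h => by simp [h, sq2]⟩
  have := (Finset.sum_eq_zero_iff_of_nonneg fun j _ => by positivity).1 h j (Finset.mem_univ j)
  apply Complex.ext <;> simp <;> nlinarith [sq_nonneg (z j).re, sq_nonneg (z j).im]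

/-- Positivity of a radial matrix gives both eigenvalues positive. -/
theorem eigen_pos {a c : ℝ} {z : Chart}
    (h : ((a : ℂ) • (1 : Matrix (Fin 8) (Fin 8) ℂ) + (c : ℂ) • vecMulVec (star z) z).PosDef) :
    0 < a ∧ 0 < a + sq2 z * c := by
  have key : ∀ x : Chart, x ≠ 0 → 0 < a * sq2 x + c * Complex.normSq (z ⬝ᵥ x) := fun x hx => by
    have h1 := (posDef_iff_dotProduct_mulVec.1 h).2 hx
    rw [form_radial, ← Complex.ofReal_mul, ← Complex.ofReal_mul, ← Complex.ofReal_add] at h1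
    exact Complex.zero_lt_real.1 h1
  have ha : 0 < a := by
    -- a nonzero vector orthogonal to `z`
    obtain ⟨x, hx, hzx⟩ : ∃ x : Chart, x ≠ 0 ∧ z ⬝ᵥ x = 0 := by
      by_cases h0 : z 0 = 0
      · exact ⟨Pi.single 0 1, by simp, by simp [h0]⟩
      · exact ⟨Pi.single 0 (-(z 1)) + Pi.single 1 (z 0), fun hh => h0 (by
          simpa using congrFun hh 1), by simp [dotProduct_add]; ring⟩
    have := key x hx
    rw [hzx, map_zero, mul_zero, add_zero] at this
    exact pos_of_mul_pos_left this (sq2_nonneg x)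
  refine ⟨ha, ?_⟩
  by_cases hz : z = 0
  · rw [sq2_eq_zero.2 hz]; simpa using ha
  · have hpos : 0 < sq2 z :=
      (sq2_nonneg z).lt_of_ne fun h0 => hz (sq2_eq_zero.1 h0.symm)
    have e : sq2 (star z) = sq2 z := by simp [sq2]
    have := key (star z) (by simpa using hz)
    rw [e, dot_star, Complex.normSq_ofReal] at this
    exact pos_of_mul_pos_left (b := sq2 z) (by linarith) hpos.le

theorem det_radial_real {a c : ℝ} (ha : a ≠ 0) (z : Chart) :
    ((a : ℂ) • (1 : Matrix (Fin 8) (Fin 8) ℂ) + (c : ℂ) • vecMulVec (star z) z).det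
      = ((a ^ 7 * (a + sq2 z * c) : ℝ) : ℂ) := by
  rw [det_radial _ _ (Complex.ofReal_ne_zero.2 ha), dot_star]
  norm_cast
  field_simp

/-- Trace of the quotient of two radial matrices. -/
theorem trace_radial {a c : ℝ} (ha : a ≠ 0) {z : Chart} (hb : a + sq2 z * c ≠ 0) (l m : ℝ) :
    (((a : ℂ) • (1 : Matrix (Fin 8) (Fin 8) ℂ) + (c : ℂ) • vecMulVec (star z) z)⁻¹ *
        ((l : ℂ) • 1 + (m : ℂ) • vecMulVec (star z) z)).trace
      = ((7 * (l / a) + (l + sq2 z * m) / (a + sq2 z * c) : ℝ) : ℂ) := by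
  have hb'' : a + c * sq2 z ≠ 0 := by rwa [mul_comm c]
  set P := vecMulVec (star z) z with hP
  set M := (a : ℂ) • (1 : Matrix (Fin 8) (Fin 8) ℂ) + (c : ℂ) • P with hM
  have hu : IsUnit M.det := by
    rw [hM, hP, det_radial_real ha, isUnit_iff_ne_zero, Complex.ofReal_ne_zero]
    exact mul_ne_zero (pow_ne_zero 7 ha) hb
  set α := l / a with hα
  set β := (m - c * α) / (a + sq2 z * c) with hβ
  have hPP : P * P = (sq2 z : ℂ) • P := by
    rw [hP, vecMulVec_mul_vecMulVec, dot_star]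
    ext j k
    simp [vecMulVec_apply]
    ring
  have e : M * ((α : ℂ) • 1 + (β : ℂ) • P) = (l : ℂ) • 1 + (m : ℂ) • P := by
    have h1 : a * α = l := by rw [hα]; field_simp
    have h2 : a * β + c * α + c * β * sq2 z = m := by
      rw [hβ]; field_simp; ring
    rw [hM, add_mul, mul_add, mul_add]
    simp only [Matrix.smul_mul, Matrix.mul_smul, smul_smul, Matrix.one_mul, Matrix.mul_one, hPP]
    rw [← h1, ← h2]
    push_cast
    module
  rw [← e, ← Matrix.mul_assoc, Matrix.nonsing_inv_mul _ hu, Matrix.one_mul, trace_add, trace_smul,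
    trace_smul, trace_one, hP, trace_vecMulVec, dotProduct_comm, dot_star]
  simp only [smul_eq_mul, Fintype.card_fin]
  norm_cast
  rw [hβ, hα]
  field_simp
  ring

variable {L : ℝ} {ψ : Hom → ℝ} {i : Fin 9} {z : Chart} {g : ℝ → ℝ} {s : Set ℝ}

theorem hasDerivAt_of_smoothOn {f : ℝ → ℝ} (hs : IsOpen s) (hf : ContDiffOn ℝ ∞ f s) {r : ℝ}
    (hr : r ∈ s) : HasDerivAt f (deriv f r) r :=
  ((hf.differentiableOn (by simp)).differentiableAt (hs.mem_nhds hr)).hasDerivAt

theorem metric_radial (hs : IsOpen s) (hg : ContDiffOn ℝ ∞ g s) (hz : sq2 z ∈ s)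
    (hf : pot L ψ i =ᶠ[𝓝 z] fun u => g (sq2 u)) :
    metric L ψ i z = ((deriv g (sq2 z) : ℝ) : ℂ) • 1
      + ((deriv (deriv g) (sq2 z) : ℝ) : ℂ) • vecMulVec (star z) z :=
  cHess_radial_near hf
    ((hs.eventually_mem hz).mono fun _ hr => hasDerivAt_of_smoothOn hs hg hr)
    (hasDerivAt_of_smoothOn hs (hg.deriv_of_isOpen hs (by simp)) hz)

/-- A positive radial metric: `g' > 0` and `g' + N g'' > 0`. -/
theorem radial_pos (hs : IsOpen s) (hg : ContDiffOn ℝ ∞ g s) (hz : sq2 z ∈ s)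
    (hf : pot L ψ i =ᶠ[𝓝 z] fun u => g (sq2 u)) (hp : (metric L ψ i z).PosDef) :
    0 < deriv g (sq2 z) ∧ 0 < deriv g (sq2 z) + sq2 z * deriv (deriv g) (sq2 z) := by
  rw [metric_radial hs hg hz hf] at hp
  exact eigen_pos hp

/-- The determinant of a positive radial metric. -/
theorem det_metric_radial (hs : IsOpen s) (hg : ContDiffOn ℝ ∞ g s) (hz : sq2 z ∈ s)
    (hf : pot L ψ i =ᶠ[𝓝 z] fun u => g (sq2 u)) (hp : (metric L ψ i z).PosDef) :
    (metric L ψ i z).det = ((deriv g (sq2 z) ^ 7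
      * (deriv g (sq2 z) + sq2 z * deriv (deriv g) (sq2 z)) : ℝ) : ℂ) := by
  rw [metric_radial hs hg hz hf, det_radial_real (radial_pos hs hg hz hf hp).1.ne']

/-- The scalar curvature of a radial metric is `scal` of its momentum profile, at the momentum
`x = N g' N`, where `φ (N g' N) = N (g' N + N g'' N)`. -/
theorem scalar_radial_pos {φ : ℝ → ℝ} (hs : IsOpen s) (hg : ContDiffOn ℝ ∞ g s) (hz : sq2 z ∈ s)
    (hz0 : z ≠ 0) (hf : pot L ψ i =ᶠ[𝓝 z] fun u => g (sq2 u))
    (ha : 0 < deriv g (sq2 z)) (hb : 0 < deriv g (sq2 z) + sq2 z * deriv (deriv g) (sq2 z))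
    (hφ : ContDiffAt ℝ ∞ φ (sq2 z * deriv g (sq2 z)))
    (hprof : ∀ᶠ r in 𝓝 (sq2 z), φ (r * deriv g r) = r * (deriv g r + r * deriv (deriv g) r)) :
    scalar L ψ i z = scal φ (sq2 z * deriv g (sq2 z)) := by
  set N := sq2 z with hN
  set g1 := deriv g with hg1
  set g2 := deriv g1 with hg2
  have hN0 : 0 < N := (sq2_nonneg z).lt_of_ne fun h0 => hz0 (sq2_eq_zero.1 h0.symm)
  have hg1s : ContDiffOn ℝ ∞ g1 s := hg.deriv_of_isOpen hs (by simp)
  have hg2s : ContDiffOn ℝ ∞ g2 s := hg1s.deriv_of_isOpen hs (by simp)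
  set x := fun r => r * g1 r with hx
  obtain ⟨U, hU, hUo, hxU⟩ : ∃ U, ContDiffOn ℝ (3 : ℕ) φ U ∧ IsOpen U ∧ x N ∈ U := by
    obtain ⟨U, hU, hUc⟩ := hφ.contDiffOn (m := (3 : ℕ)) (WithTop.coe_le_coe.2 le_top) (by simp)
    exact ⟨interior U, hUc.mono interior_subset, isOpen_interior, mem_interior_iff_mem_nhds.2 hU⟩
  set A := fun y => 7 * φ y / y + deriv φ y - 8 with hA
  have hxd : ∀ r ∈ s, HasDerivAt x (g1 r + r * g2 r) r := fun r hr => by
    refine ((hasDerivAt_id r).mul (hasDerivAt_of_smoothOn hs hg1s hr)).congr_deriv ?_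
    simp [hg2]
  have hgood : ∀ᶠ r in 𝓝 N, r ∈ s ∧ 0 < r ∧ 0 < g1 r ∧ 0 < g1 r + r * g2 r ∧ x r ∈ U := by
    have hc1 : ContinuousAt g1 N := hg1s.continuousOn.continuousAt (hs.mem_nhds hz)
    have hc2 : ContinuousAt g2 N := hg2s.continuousOn.continuousAt (hs.mem_nhds hz)
    filter_upwards [hs.mem_nhds hz, lt_mem_nhds hN0, hc1.eventually (lt_mem_nhds ha),
      (hc1.add (continuousAt_id.mul hc2)).eventually (lt_mem_nhds hb),
      (hxd N hz).continuousAt.preimage_mem_nhds (hUo.mem_nhds hxU)] with r h1 h2 h3 h4 h5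
    exact ⟨h1, h2, h3, h4, h5⟩
  -- the radial function `log det`
  set ℓ := fun r => 7 * Real.log (g1 r) + Real.log (g1 r + r * g2 r) with hℓ
  have hlog : (fun u => Real.log (metric L ψ i u).det.re) =ᶠ[𝓝 z] fun u => ℓ (sq2 u) := by
    filter_upwards [(continuous_sq2.continuousAt (x := z)).eventually hgood,
      eventually_eventually_nhds.2 hf] with u hu hu3
    obtain ⟨hu2, -, h1, h2, -⟩ := hu
    rw [metric_radial hs hg hu2 hu3, det_radial_real h1.ne', Complex.ofReal_re,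
      Real.log_mul (pow_ne_zero _ h1.ne') h2.ne', Real.log_pow]
    simp [hℓ, hg2, hg1]
  have hℓeq : ℓ =ᶠ[𝓝 N] fun r => 7 * Real.log (x r) + Real.log (φ (x r)) - 8 * Real.log r := by
    filter_upwards [hgood, hprof] with r hr hpr
    obtain ⟨-, h0, h1, h2, -⟩ := hr
    rw [show φ (x r) = r * (g1 r + r * g2 r) from hpr, hℓ, hx]
    simp only [Real.log_mul h0.ne' h1.ne', Real.log_mul h0.ne' h2.ne']
    ring
  have hφd : ∀ y ∈ U, HasDerivAt φ (deriv φ y) y := fun y hy =>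
    ((hU.differentiableOn (by simp)).differentiableAt (hUo.mem_nhds hy)).hasDerivAt
  have hℓd : ∀ᶠ r in 𝓝 N, HasDerivAt ℓ (A (x r) / r) r := by
    filter_upwards [hgood, eventually_eventually_nhds.2 hℓeq, hprof] with r hr heq hpr
    obtain ⟨hrs, h0, h1, h2, hxr⟩ := hr
    have hxpos : 0 < x r := mul_pos h0 h1
    have hφpos : 0 < φ (x r) := by rw [show φ (x r) = _ from hpr]; exact mul_pos h0 h2
    refine HasDerivAt.congr_of_eventuallyEq ?_ heq
    refine (((((hxd r hrs).log hxpos.ne').const_mul 7).add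
      (((hφd _ hxr).comp r (hxd r hrs)).log hφpos.ne')).sub
      ((Real.hasDerivAt_log h0.ne').const_mul 8)).congr_deriv ?_
    have e : g1 r + r * g2 r = φ (x r) / r := by
      rw [show φ (x r) = _ from hpr]; field_simp
    simp only [hA, Function.comp_apply]
    rw [e]
    field_simp
  have hxN : 0 < x N := mul_pos hN0 ha
  have hφd2 : HasDerivAt (deriv φ) (deriv (deriv φ) (x N)) (x N) :=
    (((hU.deriv_of_isOpen (m := (2 : ℕ)) hUo (by norm_cast)).differentiableOn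
      (by simp)).differentiableAt (hUo.mem_nhds hxU)).hasDerivAt
  set A' := 7 * (deriv φ (x N) * x N - φ (x N)) / x N ^ 2 + deriv (deriv φ) (x N) with hA'
  have hAd : HasDerivAt A A' (x N) := by
    refine (((((hφd _ hxU).const_mul 7).div (hasDerivAt_id (x N)) hxN.ne').add hφd2).sub_const
      8).congr_deriv ?_
    simp only [hA', id_eq]; ring
  have hℓ2 : HasDerivAt (fun r => A (x r) / r)
      ((A' * (g1 N + N * g2 N) * N - A (x N)) / N ^ 2) N := by
    simpa [Function.comp_def] using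
      (hAd.comp N (hxd N hz)).fun_div (hasDerivAt_id N) hN0.ne'
  unfold scalar
  rw [metric_radial hs hg hz hf, cHess_radial_near hlog hℓd hℓ2, trace_radial ha.ne' hb.ne',
    Complex.ofReal_re]
  -- the right-hand side
  have h7 : deriv (deriv fun y => y ^ 7 * φ y) (x N)
      = 42 * x N ^ 5 * φ (x N) + 14 * x N ^ 6 * deriv φ (x N)
        + x N ^ 7 * deriv (deriv φ) (x N) := by
    have e1 : deriv (fun y => y ^ 7 * φ y)
        =ᶠ[𝓝 (x N)] fun y => 7 * y ^ 6 * φ y + y ^ 7 * deriv φ y := by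
      filter_upwards [hUo.mem_nhds hxU] with y hy
      exact ((hasDerivAt_pow 7 y).mul (hφd y hy)).deriv.trans (by simp)
    rw [e1.deriv_eq]
    refine ((((hasDerivAt_pow 6 (x N)).const_mul 7).fun_mul (hφd _ hxU)).fun_add
      ((hasDerivAt_pow 7 (x N)).fun_mul hφd2)).deriv.trans ?_
    simp; ring
  have hxN' : x N = N * g1 N := rfl
  change -(7 * (A (x N) / N / g1 N)
      + (A (x N) / N + N * ((A' * (g1 N + N * g2 N) * N - A (x N)) / N ^ 2))
        / (g1 N + N * g2 N)) = scal φ (x N)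
  rw [scal, h7]
  simp only [hA, hA']
  have hb' : g1 N + N * g2 N ≠ 0 := hb.ne'
  have hb2 : N * g2 N + g1 N ≠ 0 := by rwa [add_comm]
  have ha' : g1 N ≠ 0 := ha.ne'
  have hN' := hN0.ne'
  rw [hxN']
  field_simp
  ring

/-- `scalar_radial_pos` with positivity given by the metric. -/
theorem scalar_radial {φ : ℝ → ℝ} (hs : IsOpen s) (hg : ContDiffOn ℝ ∞ g s) (hz : sq2 z ∈ s)
    (hz0 : z ≠ 0) (hf : pot L ψ i =ᶠ[𝓝 z] fun u => g (sq2 u))
    (hp : (metric L ψ i z).PosDef)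
    (hφ : ContDiffAt ℝ ∞ φ (sq2 z * deriv g (sq2 z)))
    (hprof : ∀ᶠ r in 𝓝 (sq2 z), φ (r * deriv g r) = r * (deriv g r + r * deriv (deriv g) r)) :
    scalar L ψ i z = scal φ (sq2 z * deriv g (sq2 z)) :=
  scalar_radial_pos hs hg hz hz0 hf (radial_pos hs hg hz hf hp).1 (radial_pos hs hg hz hf hp).2
    hφ hprof

end Vale.Agent.P264.Manifold
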