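import Vale.Agent.P264.Manifold.ScalarAxisTarget
import Vale.Agent.P264.Manifold.Radial

/-!
Scalar curvature of a radial potential at a point of the first axis.
-/

namespace Vale.Agent.P264.Manifold

open Set Filter
open scoped ContDiff Topology

theorem scalarAxis : ScalarAxisTarget := by
  intro L ψ g φ r hr hpot hg hpos _ hφ hprof
  set z : Chart := Pi.single 0 (r : ℂ) with hz
  have hsq : sq2 z = r ^ 2 := by
    rw [sq2, Fintype.sum_eq_single 0 fun j hj => by simp [hz, hj]]
    simp [hz]
  have hN : 0 < r ^ 2 := pow_pos hr 2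
  have hz0 : z ≠ 0 := by simp [hz, hr.ne']
  have hd : ∀ N, 0 < N →
      deriv (fun M => M * deriv g M) N = deriv g N + N * deriv (deriv g) N := fun N hN => by
    refine ((hasDerivAt_id N).mul (hasDerivAt_of_smoothOn isOpen_Ioi
      (hg.deriv_of_isOpen isOpen_Ioi (by simp)) hN)).deriv.trans ?_
    simp
  have hf : pot L ψ 0 =ᶠ[𝓝 z] fun u => g (sq2 u) := by
    filter_upwards [isOpen_compl_singleton.mem_nhds hz0] with u hu using hpot u hu
  rw [← hsq] at hN hφ hprof ⊢
  refine scalar_radial_pos isOpen_Ioi hg hN hz0 hf (hpos _ hN).1 (hd _ hN ▸ (hpos _ hN).2) hφ ?_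
  filter_upwards [hprof, lt_mem_nhds hN] with N h1 h2
  rw [h1, hd N h2]

end Vale.Agent.P264.Manifold
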