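import Vale.Agent.P264.Calc.Slices

/-!
Smooth even functions are smooth functions of the square, with a parameter.
-/

namespace Vale.Agent.P264.Manifold

open Set

/-- Parametric Whitney lemma for even functions. -/
def EvenTarget : Prop :=
  ∀ (a b : ℝ) (f : ℝ → ℝ → ℝ), a < b → Calc.Smooth2 (Icc a b) univ f →
    (∀ t ∈ Icc a b, ∀ r, f t (-r) = f t r) →
    ∃ G : ℝ → ℝ → ℝ, Calc.Smooth2 (Icc a b) (Ici 0) G ∧
      ∀ t ∈ Icc a b, ∀ r, f t r = G t (r ^ 2)

end Vale.Agent.P264.Manifold
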