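import Vale.Agent.P264.Calc.Slices

/-!
Inverting a family of increasing functions, smoothly up to the left end.
-/

namespace Vale.Agent.P264.Manifold

open Set Filter
open scoped ContDiff Topology
open Calc

/-- `X t` is a family of bijections `[0, ∞) → [0, L)` with positive derivative. -/
structure MomentMap (a b L : ℝ) (X : ℝ → ℝ → ℝ) : Prop where
  hab : a < b
  hL : 0 < L
  smooth : Smooth2 (Icc a b) (Ici 0) X
  zero : ∀ t ∈ Icc a b, X t 0 = 0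
  slope : ∀ t ∈ Icc a b, ∀ N, 0 ≤ N → 0 < pdX (Icc a b) (Ici 0) X t N
  lt : ∀ t ∈ Icc a b, ∀ N, 0 ≤ N → X t N < L
  top : ∀ t ∈ Icc a b, ∀ x, x < L → ∃ N, 0 ≤ N ∧ x ≤ X t N

/-- The inverse. -/
noncomputable def invX (X : ℝ → ℝ → ℝ) (t x : ℝ) : ℝ := Function.invFunOn (X t) (Ici 0) x

variable {a b L : ℝ} {X : ℝ → ℝ → ℝ}

theorem MomentMap.strictMono (h : MomentMap a b L X) {t : ℝ} (ht : t ∈ Icc a b) :
    StrictMonoOn (X t) (Ici 0) :=
  strictMonoOn_of_deriv_pos (convex_Ici 0) (h.smooth.slice_x ht).continuousOn fun N hN => by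
    rw [interior_Ici] at hN
    rw [h.smooth.deriv_x ht (Ici_mem_nhds hN)]
    exact h.slope t ht N hN.le

theorem MomentMap.mapsTo (h : MomentMap a b L X) {t N : ℝ} (ht : t ∈ Icc a b) (hN : 0 ≤ N) :
    X t N ∈ Ico 0 L :=
  ⟨(h.zero t ht) ▸ (h.strictMono ht).monotoneOn self_mem_Ici hN hN, h.lt t ht N hN⟩

theorem MomentMap.surj (h : MomentMap a b L X) {t x : ℝ} (ht : t ∈ Icc a b) (hx : x ∈ Ico 0 L) :
    ∃ N ∈ Ici (0:ℝ), X t N = x := by
  obtain ⟨N, hN, hxN⟩ := h.top t ht x hx.2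
  have hc : ContinuousOn (X t) (Icc 0 N) := (h.smooth.slice_x ht).continuousOn.mono Icc_subset_Ici_self
  have hmem : x ∈ Icc (X t 0) (X t N) := ⟨by rw [h.zero t ht]; exact hx.1, hxN⟩
  obtain ⟨M, hM, hMx⟩ := intermediate_value_Icc hN hc hmem
  exact ⟨M, hM.1, hMx⟩

theorem MomentMap.inv_mem (h : MomentMap a b L X) {t x : ℝ} (ht : t ∈ Icc a b) (hx : x ∈ Ico 0 L) :
    0 ≤ invX X t x :=
  Function.invFunOn_mem (h.surj ht hx)

theorem MomentMap.inv_eq (h : MomentMap a b L X) {t x : ℝ} (ht : t ∈ Icc a b) (hx : x ∈ Ico 0 L) :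
    X t (invX X t x) = x :=
  Function.invFunOn_eq (h.surj ht hx)

theorem MomentMap.left_inv (h : MomentMap a b L X) {t N : ℝ} (ht : t ∈ Icc a b) (hN : 0 ≤ N) :
    invX X t (X t N) = N :=
  (h.strictMono ht).injOn (h.inv_mem ht (h.mapsTo ht hN)) hN (h.inv_eq ht (h.mapsTo ht hN))

theorem MomentMap.inv_continuous (h : MomentMap a b L X) :
    ContinuousOn (fun p : ℝ × ℝ => invX X p.1 p.2) (Icc a b ×ˢ Ico 0 L) := by
  rintro ⟨t₀, x₀⟩ ⟨ht₀, hx₀⟩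
  replace ht₀ : t₀ ∈ Icc a b := ht₀
  replace hx₀ : x₀ ∈ Ico 0 L := hx₀
  have hN₀ := h.inv_mem ht₀ hx₀
  have e₀ : X t₀ (invX X t₀ x₀) = x₀ := h.inv_eq ht₀ hx₀
  set N₀ := invX X t₀ x₀ with hN₀def
  refine Metric.tendsto_nhds.2 fun ε hε => ?_
  have hup : x₀ < X t₀ (N₀ + ε / 2) := by
    conv_lhs => rw [← e₀]
    exact h.strictMono ht₀ hN₀ (show (0:ℝ) ≤ N₀ + ε / 2 by linarith) (by linarith)
  have hcont : ∀ N, 0 ≤ N → ContinuousWithinAt (fun t => X t N) (Icc a b) t₀ := fun N hN =>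
    (h.smooth.slice_t (mem_Ici.2 hN)).continuousOn t₀ ht₀
  have hU : ∀ᶠ p in 𝓝[Icc a b ×ˢ Ico 0 L] (t₀, x₀), p.2 < X p.1 (N₀ + ε / 2) := by
    have h1 : Tendsto (fun p : ℝ × ℝ => X p.1 (N₀ + ε / 2) - p.2)
        (𝓝[Icc a b ×ˢ Ico 0 L] (t₀, x₀)) (𝓝 (X t₀ (N₀ + ε / 2) - x₀)) :=
      (ContinuousWithinAt.comp (x := (t₀, x₀)) (f := fun p : ℝ × ℝ => p.1)
        (hcont (N₀ + ε / 2) (by linarith)) continuousWithinAt_fst fun p hp => hp.1).sub
        continuousWithinAt_snd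
    exact (h1.eventually (lt_mem_nhds (sub_pos.2 hup))).mono fun p hp => sub_pos.1 hp
  have hD : ∀ᶠ p in 𝓝[Icc a b ×ˢ Ico 0 L] (t₀, x₀),
      ε / 2 ≤ N₀ → X p.1 (N₀ - ε / 2) < p.2 := by
    by_cases hle : ε / 2 ≤ N₀
    · have hdn : X t₀ (N₀ - ε / 2) < x₀ := by
        conv_rhs => rw [← e₀]
        exact h.strictMono ht₀ (show (0:ℝ) ≤ N₀ - ε / 2 by linarith) hN₀ (by linarith)
      have h1 : Tendsto (fun p : ℝ × ℝ => p.2 - X p.1 (N₀ - ε / 2))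
          (𝓝[Icc a b ×ˢ Ico 0 L] (t₀, x₀)) (𝓝 (x₀ - X t₀ (N₀ - ε / 2))) :=
        continuousWithinAt_snd.sub
          (ContinuousWithinAt.comp (x := (t₀, x₀)) (f := fun p : ℝ × ℝ => p.1)
            (hcont (N₀ - ε / 2) (by linarith)) continuousWithinAt_fst fun p hp => hp.1)
      exact (h1.eventually (lt_mem_nhds (sub_pos.2 hdn))).mono fun p hp _ => sub_pos.1 hp
    · exact Eventually.of_forall fun p h' => absurd h' hle
  filter_upwards [hU, hD, self_mem_nhdsWithin] with p h1 h2 hp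
  obtain ⟨hpt, hpx⟩ := hp
  have hN := h.inv_mem hpt hpx
  rw [Real.dist_eq, abs_lt]
  constructor
  · by_contra hc
    have hle : ε / 2 ≤ N₀ := by linarith [not_lt.1 hc]
    have := h2 hle
    rw [← h.inv_eq hpt hpx] at this
    have hlt := ((h.strictMono hpt).lt_iff_lt (show (0:ℝ) ≤ N₀ - ε / 2 by linarith) hN).1 this
    linarith [not_lt.1 hc]
  · have := h1
    rw [← h.inv_eq hpt hpx] at this
    have hlt := ((h.strictMono hpt).lt_iff_lt hN (show (0:ℝ) ≤ N₀ + ε / 2 by linarith)).1 this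
    linarith

/-- The derivative of `(t, N) ↦ (t, X t N)` as an equivalence. -/
noncomputable def shear (p q : ℝ) (hq : q ≠ 0) : (ℝ × ℝ) ≃L[ℝ] (ℝ × ℝ) :=
  ContinuousLinearEquiv.equivOfInverse
    ((ContinuousLinearMap.fst ℝ ℝ ℝ).prod
      (p • ContinuousLinearMap.fst ℝ ℝ ℝ + q • ContinuousLinearMap.snd ℝ ℝ ℝ))
    ((ContinuousLinearMap.fst ℝ ℝ ℝ).prod
      ((-(p / q)) • ContinuousLinearMap.fst ℝ ℝ ℝ + (1 / q) • ContinuousLinearMap.snd ℝ ℝ ℝ))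
    (fun v => by ext <;> simp <;> field_simp <;> ring)
    (fun v => by ext <;> simp <;> field_simp <;> ring)

/-- The derivative of the inverse. -/
noncomputable def invDeriv (a b : ℝ) (X : ℝ → ℝ → ℝ) (p : ℝ × ℝ) : ℝ × ℝ →L[ℝ] ℝ :=
  (-(pdT (Icc a b) (Ici 0) X p.1 (invX X p.1 p.2) / pdX (Icc a b) (Ici 0) X p.1 (invX X p.1 p.2)))
      • ContinuousLinearMap.fst ℝ ℝ ℝ
    + (1 / pdX (Icc a b) (Ici 0) X p.1 (invX X p.1 p.2)) • ContinuousLinearMap.snd ℝ ℝ ℝ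

theorem MomentMap.inv_hasFDerivWithinAt (h : MomentMap a b L X) {p : ℝ × ℝ}
    (hp : p ∈ Icc a b ×ˢ Ico 0 L) :
    HasFDerivWithinAt (fun q : ℝ × ℝ => invX X q.1 q.2) (invDeriv a b X p)
      (Icc a b ×ˢ Ico 0 L) p := by
  obtain ⟨ht, hx⟩ := hp
  set N := invX X p.1 p.2 with hNdef
  have hN : N ∈ Ici (0:ℝ) := h.inv_mem ht hx
  set q := pdX (Icc a b) (Ici 0) X p.1 N
  set r := pdT (Icc a b) (Ici 0) X p.1 N
  have hq : q ≠ 0 := (h.slope _ ht N hN).ne'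
  have hX : HasFDerivWithinAt (Function.uncurry X)
      (fderivWithin ℝ (Function.uncurry X) (Icc a b ×ˢ Ici 0) (p.1, N))
      (Icc a b ×ˢ Ici 0) (p.1, N) :=
    ((h.smooth.differentiableOn (by simp)) (p.1, N) ⟨ht, hN⟩).hasFDerivWithinAt
  have hP : HasFDerivWithinAt (fun v : ℝ × ℝ => (v.1, X v.1 v.2))
      ((shear r q hq : (ℝ × ℝ) ≃L[ℝ] (ℝ × ℝ)) : (ℝ × ℝ) →L[ℝ] (ℝ × ℝ))
      (Icc a b ×ˢ Ici 0) (p.1, N) := by
    refine (hasFDerivWithinAt_fst.prodMk hX).congr_fderiv ?_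
    refine ContinuousLinearMap.ext fun v => Prod.ext (by simp [shear]) ?_
    set D := fderivWithin ℝ (Function.uncurry X) (Icc a b ×ˢ Ici 0) (p.1, N) with hD
    have e : D v = v.1 * D (1, 0) + v.2 * D (0, 1) := by
      have e' : v = v.1 • ((1, 0) : ℝ × ℝ) + v.2 • ((0, 1) : ℝ × ℝ) := by ext <;> simp
      conv_lhs => rw [e']
      rw [map_add, map_smul, map_smul, smul_eq_mul, smul_eq_mul]
    simp [shear, q, r, pdX, pdT, ← hD, e]
    ring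
  have hg : Tendsto (fun v : ℝ × ℝ => (v.1, invX X v.1 v.2)) (𝓝[Icc a b ×ˢ Ico 0 L] p)
      (𝓝[Icc a b ×ˢ Ici 0] (p.1, N)) := by
    refine tendsto_nhdsWithin_iff.2 ⟨?_, ?_⟩
    · exact continuousWithinAt_fst.prodMk (h.inv_continuous p ⟨ht, hx⟩)
    · filter_upwards [self_mem_nhdsWithin] with v hv
      exact ⟨hv.1, h.inv_mem hv.1 hv.2⟩
  have hinv := HasFDerivWithinAt.of_local_left_inverse (g := fun v : ℝ × ℝ => (v.1, invX X v.1 v.2))
    hg hP ⟨ht, hx⟩ ?_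
  · refine (hasFDerivAt_snd.comp_hasFDerivWithinAt p hinv).congr_fderiv ?_
    refine ContinuousLinearMap.ext fun v => ?_
    simp [shear, invDeriv, q, r, hNdef]
  · filter_upwards [self_mem_nhdsWithin] with v hv
    simp [h.inv_eq hv.1 hv.2]

theorem MomentMap.inv_smooth_nat (h : MomentMap a b L X) (n : ℕ) :
    ContDiffOn ℝ n (fun q : ℝ × ℝ => invX X q.1 q.2) (Icc a b ×ˢ Ico 0 L) := by
  have hu : UniqueDiffOn ℝ (Icc a b ×ˢ Ico (0:ℝ) L) :=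
    (uniqueDiffOn_Icc h.hab).prod (uniqueDiffOn_Ico 0 L)
  induction n with
  | zero => simpa using h.inv_continuous
  | succ n ih =>
    rw [Nat.cast_succ, contDiffOn_succ_iff_fderivWithin hu]
    refine ⟨fun p hp => (h.inv_hasFDerivWithinAt hp).differentiableWithinAt, by simp, ?_⟩
    refine ContDiffOn.congr ?_ fun p hp => (h.inv_hasFDerivWithinAt hp).fderivWithin (hu p hp)
    have hI := uniqueDiffOn_Icc h.hab
    have hJ := uniqueDiffOn_Ici (0:ℝ)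
    have hpair : ContDiffOn ℝ n (fun p : ℝ × ℝ => (p.1, invX X p.1 p.2)) (Icc a b ×ˢ Ico 0 L) :=
      contDiffOn_fst.prodMk ih
    have hmaps : MapsTo (fun p : ℝ × ℝ => (p.1, invX X p.1 p.2)) (Icc a b ×ˢ Ico 0 L)
        (Icc a b ×ˢ Ici 0) := fun p hp => ⟨hp.1, h.inv_mem hp.1 hp.2⟩
    have hle : ((n : ℕ) : WithTop ℕ∞) ≤ ∞ := WithTop.coe_le_coe.2 le_top
    have cX : ContDiffOn ℝ n (fun p : ℝ × ℝ => pdX (Icc a b) (Ici 0) X p.1 (invX X p.1 p.2))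
        (Icc a b ×ˢ Ico 0 L) := ((h.smooth.pdX hI hJ).of_le hle).comp hpair hmaps
    have cT : ContDiffOn ℝ n (fun p : ℝ × ℝ => pdT (Icc a b) (Ici 0) X p.1 (invX X p.1 p.2))
        (Icc a b ×ˢ Ico 0 L) := ((h.smooth.pdT hI hJ).of_le hle).comp hpair hmaps
    have hne : ∀ p ∈ Icc a b ×ˢ Ico (0:ℝ) L,
        pdX (Icc a b) (Ici 0) X p.1 (invX X p.1 p.2) ≠ 0 := fun p hp =>
      (h.slope _ hp.1 _ (h.inv_mem hp.1 hp.2)).ne'
    exact ((cT.div cX hne).neg.smul contDiffOn_const).add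
      ((contDiffOn_const.div cX hne).smul contDiffOn_const)

theorem MomentMap.inv_smooth (h : MomentMap a b L X) :
    Smooth2 (Icc a b) (Ico 0 L) (invX X) :=
  contDiffOn_infty.2 fun n => h.inv_smooth_nat n

end Vale.Agent.P264.Manifold
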