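import Vale.Agent.P264.Manifold.Realize
import Vale.Agent.P264.Manifold.EvenTarget
import Vale.Agent.P264.Manifold.Inverse
import Vale.Agent.P264.Manifold.FubiniStudy

/-!
An invariant Kaehler flow along the first axis of the charts `0` and `1`: potentials as smooth
functions of `N = |s|^2`, and the two moment maps.
-/

namespace Vale.Agent.P264.Manifold

open Set Filter
open scoped ContDiff ComplexOrder Topology Matrix
open Calc

theorem point_zero_eq (z : Chart) : point 0 z = Fin.cons 1 z := by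
  simp [point]

theorem point_one_eq (s : ℂ) :
    point 1 (Pi.single 0 s) = Fin.cons s (Pi.single 0 1 : Chart) := by
  funext k
  obtain rfl | hk := eq_or_ne k 1
  · rw [point_self, show (1 : Fin 9) = (0 : Fin 8).succ from rfl, Fin.cons_succ, Pi.single_eq_same]
  · obtain ⟨j, rfl⟩ := Fin.exists_succAbove_eq hk
    simp only [point, Fin.insertNth_apply_succAbove]
    cases j using Fin.cases with
    | zero => rfl
    | succ j =>
      rw [Fin.succAbove_of_le_castSucc _ _ (by simp [Fin.le_def]), Fin.cons_succ,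
        Pi.single_eq_of_ne (Fin.succ_ne_zero j), Pi.single_eq_of_ne (Fin.succ_ne_zero j)]

theorem act_cons (U : Matrix (Fin 8) (Fin 8) ℂ) (a : ℂ) (z : Chart) :
    act U (Fin.cons a z) = Fin.cons a (U *ᵥ z) := by
  simp [act]

/-- A unitary map taking `z` to the first axis. -/
theorem exists_unitary (z : Chart) : ∃ U ∈ Matrix.unitaryGroup (Fin 8) ℂ,
    U *ᵥ z = Pi.single 0 (Real.sqrt (sq2 z) : ℂ) := by
  rcases eq_or_ne z 0 with rfl | hz
  · refine ⟨1, one_mem _, ?_⟩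
    simp [sq2]
  set v : EuclideanSpace ℂ (Fin 8) := WithLp.toLp 2 z with hv
  have hn : ‖v‖ = Real.sqrt (sq2 z) := by rw [EuclideanSpace.norm_eq, ← sq2_eq]
  have hv0 : v ≠ 0 := fun h => hz (by simpa [hv] using h)
  set w : Fin 8 → EuclideanSpace ℂ (Fin 8) := fun _ => ((‖v‖⁻¹ : ℝ) : ℂ) • v with hw
  have ho : Orthonormal ℂ (({0} : Set (Fin 8)).domRestrict w) :=
    ⟨fun i => by simp [hw, norm_smul, hv0],
      fun i j h => absurd (Subsingleton.elim i j) h⟩
  obtain ⟨b, hb⟩ := ho.exists_orthonormalBasis_extension_of_card_eq (by simp)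
  set e := EuclideanSpace.basisFun (Fin 8) ℂ with he
  refine ⟨b.toBasis.toMatrix e, b.toMatrix_orthonormalBasis_mem_unitary e, ?_⟩
  have h1 : b.toBasis.toMatrix e *ᵥ (e.toBasis.repr v) = b.toBasis.repr v := by
    rw [← e.coe_toBasis]
    exact Module.Basis.toMatrix_mulVec_repr e.toBasis b.toBasis v
  have h2 : ⇑(e.toBasis.repr v) = z := by
    funext j; simp [he, hv]
  rw [h2] at h1
  rw [h1]
  have h3 : v = (‖v‖ : ℂ) • b 0 := by
    rw [hb 0 rfl]
    simp [hw, smul_smul, hv0]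
  conv_lhs => rw [h3, show b 0 = b.toBasis 0 by rw [b.coe_toBasis], map_smul,
    Module.Basis.repr_self]
  funext j
  simp [← hn, Finsupp.single_apply, Pi.single_apply, eq_comm]

theorem invariant_radial {ψ : Hom → ℝ} (hI : Invariant ψ) (z : Chart) :
    ψ (point 0 z) = ψ (point 0 (Pi.single 0 (Real.sqrt (sq2 z) : ℂ))) := by
  obtain ⟨U, hU, hUz⟩ := exists_unitary z
  rw [← hI U hU _ (point_ne 0 z), point_zero_eq, point_zero_eq, act_cons, hUz]

theorem sq2_single (s : ℂ) : sq2 (Pi.single 0 s : Chart) = ‖s‖ ^ 2 := by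
  rw [← sq2_eq, Finset.sum_eq_single 0] <;> intros <;> simp_all

theorem invariant_phase_zero {ψ : Hom → ℝ} (hI : Invariant ψ) (s : ℂ) :
    ψ (point 0 (Pi.single 0 s)) = ψ (point 0 (Pi.single 0 (‖s‖ : ℂ))) := by
  rw [invariant_radial hI (Pi.single 0 s), sq2_single, Real.sqrt_sq (norm_nonneg s)]

theorem invariant_phase_one {L : ℝ} {ψ : Hom → ℝ} (hK : IsKahlerPotential L ψ) (hI : Invariant ψ)
    (s : ℂ) : ψ (point 1 (Pi.single 0 s)) = ψ (point 1 (Pi.single 0 (‖s‖ : ℂ))) := by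
  rcases eq_or_ne s 0 with rfl | hs
  · simp
  set a : ℂ := (‖s‖ : ℂ) / s with ha
  have hna : ‖a‖ = 1 := by simp [ha, hs]
  have ha0 : a ≠ 0 := fun h => by simp [h] at hna
  have hinv : ‖a⁻¹‖ = 1 := by simp [hna]
  have hU : a⁻¹ • (1 : Matrix (Fin 8) (Fin 8) ℂ) ∈ Matrix.unitaryGroup (Fin 8) ℂ := by
    rw [Matrix.mem_unitaryGroup_iff, star_smul, star_one, smul_mul_assoc, one_mul, smul_smul,
      Complex.star_def, Complex.mul_conj, Complex.normSq_eq_norm_sq, hinv]
    simp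
  rw [← hK.scale a _ ha0 (point_ne 1 _), ← hI _ hU (a • point 1 (Pi.single 0 s))
    (smul_ne_zero ha0 (point_ne 1 _))]
  congr 1
  rw [point_one_eq, point_one_eq]
  have e : a • (Fin.cons s (Pi.single 0 1 : Chart) : Hom)
      = Fin.cons (a * s) (a • (Pi.single 0 1 : Chart)) := by
    funext k
    cases k using Fin.cases <;> simp
  rw [e, act_cons, Matrix.smul_mulVec, Matrix.one_mulVec, smul_smul, inv_mul_cancel₀ ha0,
    one_smul, ha, div_mul_cancel₀ _ hs]

/-- `ψ` along the first axis of a chart. -/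
noncomputable def axisFun (ψ : ℝ → Hom → ℝ) (i : Fin 9) (t r : ℝ) : ℝ :=
  ψ t (point i (Pi.single 0 (r : ℂ)))

/-- The moment map of the potential `L log (1 + N) + G`. -/
noncomputable def mom (L T : ℝ) (G : ℝ → ℝ → ℝ) (t N : ℝ) : ℝ :=
  L * N / (1 + N) + N * pdX (Icc 0 T) (Ici 0) G t N

/-- Its space derivative. -/
noncomputable def momD (L T : ℝ) (G : ℝ → ℝ → ℝ) (t N : ℝ) : ℝ :=
  L / (1 + N) ^ 2 + (pdX (Icc 0 T) (Ici 0) G t N
    + N * pdX (Icc 0 T) (Ici 0) (pdX (Icc 0 T) (Ici 0) G) t N)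

variable {L T : ℝ} {G : ℝ → ℝ → ℝ} {t N : ℝ}

theorem mom_smooth (hT : 0 < T) (hG : Smooth2 (Icc 0 T) (Ici 0) G) :
    Smooth2 (Icc 0 T) (Ici 0) (mom L T G) :=
  (((contDiffOn_const.mul contDiffOn_snd).div (contDiffOn_const.add contDiffOn_snd)
    fun p hp => by have := mem_Ici.1 hp.2; positivity).add
    (contDiffOn_snd.mul (hG.pdX (uniqueDiffOn_Icc hT) (uniqueDiffOn_Ici 0))))

theorem pdX_mom (hT : 0 < T) (hG : Smooth2 (Icc 0 T) (Ici 0) G) (ht : t ∈ Icc 0 T)
    (hN : 0 ≤ N) : pdX (Icc 0 T) (Ici 0) (mom L T G) t N = momD L T G t N := by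
  have hI := uniqueDiffOn_Icc hT
  have hJ := uniqueDiffOn_Ici (0:ℝ)
  rw [← (mom_smooth hT hG).derivWithin_x hJ ht (mem_Ici.2 hN)]
  refine HasDerivWithinAt.derivWithin ?_ (hJ N hN)
  have hid := hasDerivWithinAt_id N (Ici (0:ℝ))
  have hne : (1 : ℝ) + id N ≠ 0 := by simp only [id]; positivity
  refine (((hid.const_mul L).div (hid.const_add 1) hne).add
    (hid.mul ((hG.pdX hI hJ).hasDerivWithinAt_x ht (mem_Ici.2 hN)))).congr_deriv ?_
  simp [momD]
  ring

theorem deriv2_comp {L a : ℝ} {H H1 H2 : ℝ → ℝ} {q : ℝ → ℝ}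
    (hq : ∀ s, HasDerivAt q (2 * a + 2 * s) s) (hq0 : ∀ s, 0 ≤ q s)
    (hH : ∀ N, 0 ≤ N → HasDerivWithinAt H (H1 N) (Ici 0) N)
    (hH1 : ∀ N, 0 ≤ N → HasDerivWithinAt H1 (H2 N) (Ici 0) N) :
    deriv (deriv fun s => L * Real.log (1 + q s) + H (q s)) 0
      = (-(L / (1 + q 0) ^ 2) + H2 (q 0)) * (2 * a) ^ 2 + (L / (1 + q 0) + H1 (q 0)) * 2 := by
  have hne : ∀ s, (1 : ℝ) + q s ≠ 0 := fun s => by have := hq0 s; positivity
  have hev : ∀ s, ∀ᶠ v in 𝓝 s, q v ∈ Ici (0:ℝ) := fun s => Eventually.of_forall hq0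
  have h1 : deriv (fun s => L * Real.log (1 + q s) + H (q s))
      = fun s => (L / (1 + q s) + H1 (q s)) * (2 * a + 2 * s) := funext fun s => by
    refine ((((hq s).const_add 1).log (hne s)).const_mul L |>.add
      ((hH _ (hq0 s)).comp_hasDerivAt s (hq s) (hev s))).deriv.trans ?_
    ring
  rw [h1]
  refine ((((hasDerivAt_const (0:ℝ) L).div ((hq 0).const_add 1) (hne 0)).add
    ((hH1 _ (hq0 0)).comp_hasDerivAt 0 (hq 0) (hev 0))).mul
      (((hasDerivAt_id (0:ℝ)).const_mul 2).const_add (2 * a))).congr_deriv ?_ |>.deriv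
  simp
  ring

/-- Positivity of the metric in the direction of the axis. -/
theorem momD_pos {ψ : Hom → ℝ} (hT : 0 < T) (hK : IsKahlerPotential L ψ) (i : Fin 9)
    (hG : Smooth2 (Icc 0 T) (Ici 0) G) (ht : t ∈ Icc 0 T)
    (hψ : ∀ s : ℂ, ψ (point i (Pi.single 0 s)) = G t (‖s‖ ^ 2)) (hN : 0 ≤ N) :
    0 < momD L T G t N := by
  have hI := uniqueDiffOn_Icc hT
  have hJ := uniqueDiffOn_Ici (0:ℝ)
  set r := Real.sqrt N with hr
  have hrN : r ^ 2 = N := Real.sq_sqrt hN
  have hf : ContDiff ℝ ∞ (pot L ψ i) := by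
    have e : pot L ψ i = fun z => L * Real.log (hSq (point i z)) + ψ (point i z) := by
      funext z; rw [pot, hSq_point]
    rw [e]
    exact (contDiff_const.mul ((contDiff_hSq.comp (point_smooth i)).log
      fun z => (hSq_pos (point_ne i z)).ne')).add
      (contDiffOn_univ.1 (hK.smooth.comp (point_smooth i).contDiffOn fun z _ => point_ne i z))
  set z : Chart := Pi.single 0 (r : ℂ) with hz
  have line : ∀ (w : ℂ) (a : ℝ), w.re * r = a → Complex.normSq w = 1 →
      d2 (pot L ψ i) z (Pi.single 0 w) (Pi.single 0 w)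
        = (-(L / (1 + N) ^ 2) + pdX (Icc 0 T) (Ici 0) (pdX (Icc 0 T) (Ici 0) G) t N) * (2 * a) ^ 2
          + (L / (1 + N) + pdX (Icc 0 T) (Ici 0) G t N) * 2 := by
    intro w a ha hw
    rw [d2_line hf]
    set q : ℝ → ℝ := fun s => N + 2 * a * s + s ^ 2 with hq
    have hnorm : ∀ s : ℝ, ‖(r : ℂ) + s * w‖ ^ 2 = q s := fun s => by
      rw [Complex.normSq_apply] at hw
      rw [Complex.sq_norm, Complex.normSq_apply, hq]
      simp only [Complex.add_re, Complex.add_im, Complex.mul_re, Complex.mul_im,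
        Complex.ofReal_re, Complex.ofReal_im]
      linear_combination s ^ 2 * hw + hrN + 2 * s * ha
    have hv : ∀ s : ℝ, z + s • (Pi.single 0 w : Chart) = Pi.single 0 ((r : ℂ) + s * w) := by
      intro s; funext j
      by_cases hj : j = 0 <;> simp [hz, hj]
    have e : (fun s : ℝ => pot L ψ i (z + s • (Pi.single 0 w : Chart)))
        = fun s => L * Real.log (1 + q s) + G t (q s) := by
      funext s
      rw [hv, pot, sq2_eq, sq2_single, hψ, hnorm]
    rw [e, deriv2_comp (a := a) (H := G t) (H1 := pdX (Icc 0 T) (Ici 0) G t)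
      (H2 := pdX (Icc 0 T) (Ici 0) (pdX (Icc 0 T) (Ici 0) G) t) (q := q)
      (fun s => ?_) (fun s => hnorm s ▸ sq_nonneg _)
      (fun M hM => hG.hasDerivWithinAt_x ht (mem_Ici.2 hM))
      (fun M hM => (hG.pdX hI hJ).hasDerivWithinAt_x ht (mem_Ici.2 hM))]
    · simp [hq]
    · refine ((((hasDerivAt_id s).const_mul (2 * a)).const_add N).add
        (hasDerivAt_pow 2 s)).congr_deriv ?_
      simp
  have hp := (Complex.pos_iff.1 ((hK.pos i z).diag_pos (i := (0 : Fin 8)))).1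
  simp only [metric, cHess, Matrix.of_apply] at hp
  rw [line 1 r (by simp) (by simp), line Complex.I 0 (by simp) (by simp)] at hp
  generalize hA : -(L / (1 + N) ^ 2) + pdX (Icc 0 T) (Ici 0) (pdX (Icc 0 T) (Ici 0) G) t N = A
    at hp
  generalize hB : L / (1 + N) + pdX (Icc 0 T) (Ici 0) G t N = B at hp
  simp at hp
  have e : momD L T G t N
      = (-(L / (1 + N) ^ 2) + pdX (Icc 0 T) (Ici 0) (pdX (Icc 0 T) (Ici 0) G) t N) * N
        + (L / (1 + N) + pdX (Icc 0 T) (Ici 0) G t N) := by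
    have : (1 : ℝ) + N ≠ 0 := by positivity
    rw [momD]; field_simp; ring
  rw [e, hA, hB]
  simp [pow_two] at hp
  rw [← hrN]
  nlinarith

end Vale.Agent.P264.Manifold
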