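import Mathlib
import Vale.Agent.P250.Disproof.Wirt

/-!
Derivatives of families of functions and of matrices on an open subset of a complex space.
-/

open scoped Topology ContDiff ComplexConjugate
open Complex Filter Set
open Vale.Agent.P250.Disproof

noncomputable section

namespace Vale.Agent.P264.Manifold

variable {V : Type*} [NormedAddCommGroup V] [NormedSpace ℂ V]

/-- A smooth family of functions on an open set. -/
structure SmP (P : Set ℝ) (S : Set V) (f : ℝ → V → ℂ) : Prop where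
  ud : UniqueDiffOn ℝ P
  isOpen : IsOpen S
  smooth : ContDiffOn ℝ ∞ (Function.uncurry f) (P ×ˢ S)

variable {P : Set ℝ} {S : Set V} {f g : ℝ → V → ℂ} {t : ℝ} {y : V} {φ : V → ℂ}

theorem SmP.congr (h : SmP P S f) (e : ∀ t ∈ P, ∀ y ∈ S, g t y = f t y) : SmP P S g :=
  ⟨h.ud, h.isOpen, h.smooth.congr fun p hp => e p.1 hp.1 p.2 hp.2⟩

theorem SmP.slice (h : SmP P S f) (ht : t ∈ P) : Sm S (f t) :=
  ⟨h.isOpen, h.smooth.comp (contDiffOn_const.prodMk contDiffOn_id) fun _ hy => ⟨ht, hy⟩⟩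

theorem SmP.ofSm (h : Sm S φ) : SmP univ S fun _ => φ :=
  ⟨uniqueDiffOn_univ, h.isOpen, h.smooth.comp contDiffOn_snd fun _ hp => hp.2⟩

theorem SmP.const (hP : UniqueDiffOn ℝ P) (hS : IsOpen S) (c : ℂ) : SmP P S fun _ _ => c :=
  ⟨hP, hS, contDiffOn_const⟩

theorem SmP.add' (hf : SmP P S f) (hg : SmP P S g) : SmP P S fun t y => f t y + g t y :=
  ⟨hf.ud, hf.isOpen, hf.smooth.add hg.smooth⟩

theorem SmP.sub' (hf : SmP P S f) (hg : SmP P S g) : SmP P S fun t y => f t y - g t y :=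
  ⟨hf.ud, hf.isOpen, hf.smooth.sub hg.smooth⟩

theorem SmP.mul' (hf : SmP P S f) (hg : SmP P S g) : SmP P S fun t y => f t y * g t y :=
  ⟨hf.ud, hf.isOpen, hf.smooth.mul hg.smooth⟩

theorem SmP.smulc (c : ℂ) (hf : SmP P S f) : SmP P S fun t y => c * f t y :=
  ⟨hf.ud, hf.isOpen, contDiffOn_const.mul hf.smooth⟩

theorem SmP.inv' (hf : SmP P S f) (h0 : ∀ t ∈ P, ∀ y ∈ S, f t y ≠ 0) :
    SmP P S fun t y => (f t y)⁻¹ :=
  ⟨hf.ud, hf.isOpen, hf.smooth.inv fun p hp => h0 p.1 hp.1 p.2 hp.2⟩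

theorem SmP.sum' {ι : Type*} (s : Finset ι) {F : ι → ℝ → V → ℂ} (hP : UniqueDiffOn ℝ P)
    (hS : IsOpen S) (h : ∀ i ∈ s, SmP P S (F i)) : SmP P S fun t y => ∑ i ∈ s, F i t y :=
  ⟨hP, hS, ContDiffOn.sum fun i hi => (h i hi).smooth⟩

theorem SmP.prod' {ι : Type*} (s : Finset ι) {F : ι → ℝ → V → ℂ} (hP : UniqueDiffOn ℝ P)
    (hS : IsOpen S) (h : ∀ i ∈ s, SmP P S (F i)) : SmP P S fun t y => ∏ i ∈ s, F i t y :=
  ⟨hP, hS, contDiffOn_prod fun i hi => (h i hi).smooth⟩

theorem SmP.dd' (h : SmP P S f) (a : V) : SmP P S fun t => dd a (f t) := by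
  refine ⟨h.ud, h.isOpen, ?_⟩
  have hD := h.smooth.fderivWithin (h.ud.prod h.isOpen.uniqueDiffOn) (m := ∞) (by simp)
  refine (hD.clm_apply (contDiffOn_const (c := ((0 : ℝ), a)))).congr ?_
  rintro ⟨t, y⟩ ⟨ht, hy⟩
  have h1 := ((h.smooth (t, y) ⟨ht, hy⟩).differentiableWithinAt (by simp)).hasFDerivWithinAt
  have h2 : HasFDerivWithinAt (fun x : V => (t, x))
      ((0 : V →L[ℝ] ℝ).prod (ContinuousLinearMap.id ℝ V)) S y :=
    ((hasFDerivAt_const t y).prodMk (hasFDerivAt_id y)).hasFDerivWithinAt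
  have h3 := h1.comp y h2 (fun x hx => ⟨ht, hx⟩)
  have h4 := h3.hasFDerivAt (h.isOpen.mem_nhds hy)
  show fderiv ℝ (f t) y a = _
  rw [show f t = Function.uncurry f ∘ fun x : V => (t, x) from rfl, h4.fderiv]
  rfl

theorem SmP.dz' (h : SmP P S f) (a : V) : SmP P S fun t => dz a (f t) :=
  ((h.dd' a).sub' ((h.dd' (I • a)).smulc I)).smulc (1 / 2)

theorem SmP.dzb' (h : SmP P S f) (a : V) : SmP P S fun t => dzb a (f t) :=
  ((h.dd' a).add' ((h.dd' (I • a)).smulc I)).smulc (1 / 2)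

theorem SmP.conj' (h : SmP P S f) : SmP P S fun t y => conj (f t y) :=
  ⟨h.ud, h.isOpen, conjCLE.contDiff.comp_contDiffOn h.smooth⟩

/-! ### Rules for `dd` -/

theorem dd_neg (a : V) : dd a (fun x => -φ x) y = -dd a φ y := by
  simp [dd, fderiv_fun_neg]

theorem dd_sub {ψ : V → ℂ} (hφ : DifferentiableAt ℝ φ y) (hψ : DifferentiableAt ℝ ψ y) (a : V) :
    dd a (fun x => φ x - ψ x) y = dd a φ y - dd a ψ y := by
  simp [dd, fderiv_fun_sub hφ hψ]

theorem dz_sub {ψ : V → ℂ} (hφ : DifferentiableAt ℝ φ y) (hψ : DifferentiableAt ℝ ψ y) (a : V) :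
    dz a (fun x => φ x - ψ x) y = dz a φ y - dz a ψ y := by
  simp only [dz, dd_sub hφ hψ]; ring

theorem dzb_sub {ψ : V → ℂ} (hφ : DifferentiableAt ℝ φ y) (hψ : DifferentiableAt ℝ ψ y) (a : V) :
    dzb a (fun x => φ x - ψ x) y = dzb a φ y - dzb a ψ y := by
  simp only [dzb, dd_sub hφ hψ]; ring

theorem dd_sum {ι : Type*} (s : Finset ι) {F : ι → V → ℂ}
    (h : ∀ i ∈ s, DifferentiableAt ℝ (F i) y) (a : V) :
    dd a (fun x => ∑ i ∈ s, F i x) y = ∑ i ∈ s, dd a (F i) y := by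
  simp [dd, fderiv_fun_sum h]

theorem dz_sum {ι : Type*} (s : Finset ι) {F : ι → V → ℂ}
    (h : ∀ i ∈ s, DifferentiableAt ℝ (F i) y) (a : V) :
    dz a (fun x => ∑ i ∈ s, F i x) y = ∑ i ∈ s, dz a (F i) y := by
  simp only [dz, dd_sum s h, Finset.mul_sum, ← Finset.sum_sub_distrib]

theorem dzb_sum {ι : Type*} (s : Finset ι) {F : ι → V → ℂ}
    (h : ∀ i ∈ s, DifferentiableAt ℝ (F i) y) (a : V) :
    dzb a (fun x => ∑ i ∈ s, F i x) y = ∑ i ∈ s, dzb a (F i) y := by
  simp only [dzb, dd_sum s h, Finset.mul_sum, ← Finset.sum_add_distrib]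

/-- Chain rule with an affine map whose linear part is `R`. -/
theorem dd_comp_affine {W : Type*} [NormedAddCommGroup W] [NormedSpace ℂ W] {F : V → ℂ}
    {p : W → V} {R : W →L[ℂ] V} {w : W} (hp : HasFDerivAt p (R.restrictScalars ℝ) w)
    (hF : DifferentiableAt ℝ F (p w)) (a : W) :
    dd a (fun x => F (p x)) w = dd (R a) F (p w) := by
  have h : HasFDerivAt (fun x => F (p x)) _ w := hF.hasFDerivAt.comp w hp
  simp [dd, h.fderiv]

theorem dz_comp_affine {W : Type*} [NormedAddCommGroup W] [NormedSpace ℂ W] {F : V → ℂ}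
    {p : W → V} {R : W →L[ℂ] V} {w : W} (hp : HasFDerivAt p (R.restrictScalars ℝ) w)
    (hF : DifferentiableAt ℝ F (p w)) (a : W) :
    dz a (fun x => F (p x)) w = dz (R a) F (p w) := by
  simp only [dz, dd_comp_affine hp hF, map_smul]

theorem dzb_comp_affine {W : Type*} [NormedAddCommGroup W] [NormedSpace ℂ W] {F : V → ℂ}
    {p : W → V} {R : W →L[ℂ] V} {w : W} (hp : HasFDerivAt p (R.restrictScalars ℝ) w)
    (hF : DifferentiableAt ℝ F (p w)) (a : W) :
    dzb a (fun x => F (p x)) w = dzb (R a) F (p w) := by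
  simp only [dzb, dd_comp_affine hp hF, map_smul]

/-! ### Real functions -/

theorem dd_ofReal {u : V → ℝ} (hu : DifferentiableAt ℝ u y) (a : V) :
    dd a (fun x => (u x : ℂ)) y = (fderiv ℝ u y a : ℂ) := by
  have h : HasFDerivAt (fun x => (u x : ℂ)) _ y := ofRealCLM.hasFDerivAt.comp y hu.hasFDerivAt
  simp [dd, h.fderiv]

theorem dd_real_comp {u : V → ℝ} {F : ℝ → ℝ} {F' : ℝ} (hF : HasDerivAt F F' (u y))
    (hu : DifferentiableAt ℝ u y) (a : V) :
    dd a (fun x => (F (u x) : ℂ)) y = (F' : ℂ) * dd a (fun x => (u x : ℂ)) y := by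
  have h : HasFDerivAt (fun x => F (u x)) _ y := hF.comp_hasFDerivAt y hu.hasFDerivAt
  rw [dd_ofReal hu, dd_ofReal h.differentiableAt, h.fderiv]
  simp

theorem dz_real_comp {u : V → ℝ} {F : ℝ → ℝ} {F' : ℝ} (hF : HasDerivAt F F' (u y))
    (hu : DifferentiableAt ℝ u y) (a : V) :
    dz a (fun x => (F (u x) : ℂ)) y = (F' : ℂ) * dz a (fun x => (u x : ℂ)) y := by
  simp only [dz, dd_real_comp hF hu]; ring

theorem dzb_real_comp {u : V → ℝ} {F : ℝ → ℝ} {F' : ℝ} (hF : HasDerivAt F F' (u y))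
    (hu : DifferentiableAt ℝ u y) (a : V) :
    dzb a (fun x => (F (u x) : ℂ)) y = (F' : ℂ) * dzb a (fun x => (u x : ℂ)) y := by
  simp only [dzb, dd_real_comp hF hu]; ring

theorem conj_dd {u : V → ℂ} (hu : DifferentiableAt ℝ u y) (hr : ∀ x, conj (u x) = u x) (a : V) :
    conj (dd a u y) = dd a u y := by
  rw [← dd_conj hu, funext hr]

theorem conj_dzb {u : V → ℂ} (hu : DifferentiableAt ℝ u y) (hr : ∀ x, conj (u x) = u x) (a : V) :
    conj (dzb a u y) = dz a u y := by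
  rw [← dz_conj hu, funext hr]

theorem conj_dz {u : V → ℂ} (hu : DifferentiableAt ℝ u y) (hr : ∀ x, conj (u x) = u x) (a : V) :
    conj (dz a u y) = dzb a u y := by
  rw [← dzb_conj hu, funext hr]

/-! ### The time derivative -/

/-- The derivative in the parameter. -/
def dt (f : ℝ → V → ℂ) : ℝ → V → ℂ := fun t y => deriv (fun r => f r y) t

theorem SmP.dt' (h : SmP P S f) (hP : IsOpen P) : SmP P S (dt f) := by
  refine ⟨h.ud, h.isOpen, ?_⟩
  have hD := h.smooth.fderiv_of_isOpen (hP.prod h.isOpen) (m := ∞) (by simp)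
  refine (hD.clm_apply (contDiffOn_const (c := ((1 : ℝ), (0 : V))))).congr ?_
  rintro ⟨t, y⟩ ⟨ht, hy⟩
  have h1 := ((h.smooth.contDiffAt ((hP.prod h.isOpen).mem_nhds ⟨ht, hy⟩)).differentiableAt
    (by simp)).hasFDerivAt
  exact (h1.comp_hasDerivAt (f := fun r => (r, y)) t
    ((hasDerivAt_id t).prodMk (hasDerivAt_const t y))).deriv

theorem SmP.hasDerivAt (h : SmP P S f) (hP : IsOpen P) (ht : t ∈ P) (hy : y ∈ S) :
    HasDerivAt (fun r => f r y) (dt f t y) t := by
  have h1 : DifferentiableAt ℝ (Function.uncurry f) (t, y) :=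
    (h.smooth.contDiffAt ((hP.prod h.isOpen).mem_nhds ⟨ht, hy⟩)).differentiableAt (by simp)
  have h2 : HasDerivAt (fun r => f r y) _ t := h1.hasFDerivAt.comp_hasDerivAt
    (f := fun r => (r, y)) t ((hasDerivAt_id t).prodMk (hasDerivAt_const t y))
  exact h2.differentiableAt.hasDerivAt

/-- The two derivatives commute. -/
theorem dt_dd (h : SmP P S f) (hP : IsOpen P) (ht : t ∈ P) (hy : y ∈ S) (a : V) :
    dt (fun r => dd a (f r)) t y = dd a (dt f t) y := by
  have hO := hP.prod h.isOpen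
  set F := Function.uncurry f with hFdef
  have hc : ContDiffAt ℝ ∞ F (t, y) := h.smooth.contDiffAt (hO.mem_nhds ⟨ht, hy⟩)
  have hd : DifferentiableAt ℝ (fderiv ℝ F) (t, y) :=
    (hc.fderiv_right (m := ∞) (by simp)).differentiableAt (by simp)
  have hdF : ∀ᶠ q in 𝓝 (t, y), DifferentiableAt ℝ F q :=
    eventually_of_mem (hO.mem_nhds ⟨ht, hy⟩) fun q hq =>
      (h.smooth.contDiffAt (hO.mem_nhds hq)).differentiableAt (by simp)
  have el : (fun r => dd a (f r) y) =ᶠ[𝓝 t] fun r => fderiv ℝ F (r, y) (0, a) := by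
    filter_upwards [(Continuous.prodMk continuous_id continuous_const).continuousAt.tendsto.eventually
      hdF] with r hr
    have h4 : HasFDerivAt (f r) _ y :=
      hr.hasFDerivAt.comp (f := fun x : V => (r, x)) y
        ((hasFDerivAt_const r y).prodMk (hasFDerivAt_id y))
    show fderiv ℝ (f r) y a = _
    rw [h4.fderiv]; rfl
  have er : dt f t =ᶠ[𝓝 y] fun x => fderiv ℝ F (t, x) (1, 0) := by
    filter_upwards [(Continuous.prodMk continuous_const continuous_id).continuousAt.tendsto.eventually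
      hdF] with x hx
    exact (hx.hasFDerivAt.comp_hasDerivAt (f := fun r => (r, x)) t
      ((hasDerivAt_id t).prodMk (hasDerivAt_const t x))).deriv
  have l : HasDerivAt (fun r => fderiv ℝ F (r, y) (0, a))
      (fderiv ℝ (fderiv ℝ F) (t, y) (1, 0) (0, a)) t := by
    have := (hd.hasFDerivAt.comp_hasDerivAt (f := fun r => (r, y)) t
      ((hasDerivAt_id t).prodMk (hasDerivAt_const t y))).clm_apply
      (hasDerivAt_const t ((0 : ℝ), a))
    simpa [Function.comp_def] using this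
  have r : HasFDerivAt (fun x => fderiv ℝ F (t, x) (1, 0)) _ y :=
    (hd.hasFDerivAt.comp (f := fun x : V => (t, x)) y
      ((hasFDerivAt_const t y).prodMk (hasFDerivAt_id y))).clm_apply
      (hasFDerivAt_const ((1 : ℝ), (0 : V)) y)
  rw [dt, el.deriv_eq, l.deriv, dd_congr er]
  show _ = fderiv ℝ _ y a
  rw [r.fderiv]
  have hs := (hc.isSymmSndFDerivAt (by simp; exact WithTop.coe_le_coe.2 le_top)).eq
    ((1 : ℝ), (0 : V)) (0, a)
  rw [hs]
  simp

theorem dt_dz (h : SmP P S f) (hP : IsOpen P) (ht : t ∈ P) (hy : y ∈ S) (a : V) :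
    dt (fun r => dz a (f r)) t y = dz a (dt f t) y := by
  have e : HasDerivAt (fun r => dz a (f r) y) _ t :=
    (((h.dd' a).hasDerivAt hP ht hy).sub
      (((h.dd' (I • a)).hasDerivAt hP ht hy).const_mul I)).const_mul (1 / 2 : ℂ)
  rw [dt, e.deriv, dt_dd h hP ht hy, dt_dd h hP ht hy]
  rfl

theorem dt_dzb (h : SmP P S f) (hP : IsOpen P) (ht : t ∈ P) (hy : y ∈ S) (a : V) :
    dt (fun r => dzb a (f r)) t y = dzb a (dt f t) y := by
  have e : HasDerivAt (fun r => dzb a (f r) y) _ t :=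
    (((h.dd' a).hasDerivAt hP ht hy).add
      (((h.dd' (I • a)).hasDerivAt hP ht hy).const_mul I)).const_mul (1 / 2 : ℂ)
  rw [dt, e.deriv, dt_dd h hP ht hy, dt_dd h hP ht hy]
  rfl

/-! ### Matrices -/

variable {n : Type*} [Fintype n] [DecidableEq n] {M : V → Matrix n n ℂ}

/-- An operator applied to the entries of a matrix. -/
def em (D : (V → ℂ) → V → ℂ) (M : V → Matrix n n ℂ) (y : V) : Matrix n n ℂ :=
  Matrix.of fun j k => D (fun x => M x j k) y

/-- Jacobi's formula. -/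
theorem dd_det (hM : ∀ j k, DifferentiableAt ℝ (fun x => M x j k) y) (a : V) :
    dd a (fun x => (M x).det) y = ((M y).adjugate * em (dd a) M y).trace := by
  have hp : ∀ σ : Equiv.Perm n, HasFDerivAt (fun x => ∏ i, M x (σ i) i)
      (∑ i, (∏ j ∈ Finset.univ.erase i, M y (σ j) j) • fderiv ℝ (fun x => M x (σ i) i) y) y :=
    fun σ => HasFDerivAt.finsetProd fun i _ => (hM (σ i) i).hasFDerivAt
  have hd : HasFDerivAt (fun x => (M x).det)
      (∑ σ : Equiv.Perm n, ((Equiv.Perm.sign σ : ℤ) : ℂ) •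
        ∑ i, (∏ j ∈ Finset.univ.erase i, M y (σ j) j) • fderiv ℝ (fun x => M x (σ i) i) y) y := by
    have := HasFDerivAt.fun_sum (u := Finset.univ) fun σ (_ : σ ∈ Finset.univ) =>
      (hp σ).const_mul ((Equiv.Perm.sign σ : ℤ) : ℂ)
    simpa only [Matrix.det_apply'] using this
  have hX : ∀ σ : Equiv.Perm n, ∀ i,
      fderiv ℝ (fun x => M x (σ i) i) y a = em (dd a) M y (σ i) i := fun σ i => rfl
  show fderiv ℝ _ y a = _
  rw [hd.fderiv]
  simp only [sum_apply, smul_apply, smul_eq_mul, hX, Matrix.trace, Matrix.diag_apply,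
    Matrix.mul_apply]
  have hc : ∀ i, ∑ j, (M y).adjugate i j * em (dd a) M y j i
      = ((M y).updateCol i fun j => em (dd a) M y j i).det := fun i => by
    rw [← Matrix.cramer_apply, Matrix.cramer_eq_adjugate_mulVec]
    rfl
  simp only [hc, Matrix.det_apply', Finset.mul_sum]
  rw [Finset.sum_comm]
  refine Finset.sum_congr rfl fun i _ => Finset.sum_congr rfl fun σ _ => ?_
  congr 1
  rw [← Finset.mul_prod_erase Finset.univ _ (Finset.mem_univ i), Matrix.updateCol_self, mul_comm]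
  congr 1
  exact Finset.prod_congr rfl fun j hj => (Matrix.updateCol_ne (Finset.ne_of_mem_erase hj)).symm

/-- The derivative of the inverse. -/
theorem dd_inv (hS : IsOpen S) (hy : y ∈ S) (hu : ∀ x ∈ S, IsUnit (M x).det)
    (hM : ∀ j k, DifferentiableAt ℝ (fun x => M x j k) y)
    (hI : ∀ j k, DifferentiableAt ℝ (fun x => (M x)⁻¹ j k) y) (a : V) :
    em (dd a) (fun x => (M x)⁻¹) y = -((M y)⁻¹ * em (dd a) M y * (M y)⁻¹) := by
  have h0 : em (dd a) (fun x => (M x)⁻¹) y * M y + (M y)⁻¹ * em (dd a) M y = 0 := by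
    ext j k
    have e : (fun x => ∑ l, (M x)⁻¹ j l * M x l k) =ᶠ[𝓝 y]
        fun _ => (1 : Matrix n n ℂ) j k :=
      eventually_of_mem (hS.mem_nhds hy) fun x hx => by
        show ((M x)⁻¹ * M x) j k = _
        rw [Matrix.nonsing_inv_mul _ (hu x hx)]
    have := (dd_congr e a).trans (dd_const _ a)
    rw [dd_sum Finset.univ (F := fun l x => (M x)⁻¹ j l * M x l k)
      fun l _ => (hI j l).mul (hM l k)] at this
    simp only [dd_mul (hI j _) (hM _ k)] at this
    rw [Finset.sum_add_distrib] at this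
    simp only [Matrix.add_apply, Matrix.mul_apply, em, Matrix.of_apply, Matrix.zero_apply]
    rw [add_comm, this]
  have h1 := congrArg (· * (M y)⁻¹) (eq_neg_of_add_eq_zero_left h0)
  simpa [Matrix.mul_assoc, Matrix.mul_nonsing_inv _ (hu y hy)] using h1

omit [Fintype n] [DecidableEq n] in
theorem em_dz (a : V) :
    em (dz a) M y = (1 / 2 : ℂ) • (em (dd a) M y - I • em (dd (I • a)) M y) := by
  ext j k; simp [em, dz]

omit [Fintype n] [DecidableEq n] in
theorem em_dzb (a : V) :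
    em (dzb a) M y = (1 / 2 : ℂ) • (em (dd a) M y + I • em (dd (I • a)) M y) := by
  ext j k; simp [em, dzb]

theorem dz_det (hM : ∀ j k, DifferentiableAt ℝ (fun x => M x j k) y) (a : V) :
    dz a (fun x => (M x).det) y = ((M y).adjugate * em (dz a) M y).trace := by
  rw [em_dz, dz, dd_det hM, dd_det hM]
  simp [Matrix.mul_sub, Matrix.trace_sub, Matrix.trace_smul]

theorem dz_inv (hS : IsOpen S) (hy : y ∈ S) (hu : ∀ x ∈ S, IsUnit (M x).det)
    (hM : ∀ j k, DifferentiableAt ℝ (fun x => M x j k) y)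
    (hI : ∀ j k, DifferentiableAt ℝ (fun x => (M x)⁻¹ j k) y) (a : V) :
    em (dz a) (fun x => (M x)⁻¹) y = -((M y)⁻¹ * em (dz a) M y * (M y)⁻¹) := by
  rw [em_dz, em_dz, dd_inv hS hy hu hM hI, dd_inv hS hy hu hM hI]
  simp [Matrix.mul_sub, Matrix.sub_mul]
  module

variable {Mt : ℝ → V → Matrix n n ℂ}

theorem SmP.det' (hP : UniqueDiffOn ℝ P) (hS : IsOpen S)
    (h : ∀ j k, SmP P S fun t y => Mt t y j k) : SmP P S fun t y => (Mt t y).det := by
  simp only [Matrix.det_apply']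
  exact SmP.sum' _ hP hS fun σ _ => (SmP.prod' _ hP hS fun i _ => h (σ i) i).smulc _

theorem SmP.matInv (hP : UniqueDiffOn ℝ P) (hS : IsOpen S)
    (h : ∀ j k, SmP P S fun t y => Mt t y j k) (h0 : ∀ t ∈ P, ∀ y ∈ S, (Mt t y).det ≠ 0)
    (j k : n) : SmP P S fun t y => (Mt t y)⁻¹ j k := by
  have hc : SmP P S fun t y => ((Mt t y).updateRow k (Pi.single j 1)).det := by
    refine SmP.det' hP hS fun p q => ?_
    by_cases hp : p = k
    · simpa [hp] using SmP.const hP hS ((Pi.single j (1 : ℂ) : n → ℂ) q)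
    · simpa [hp] using h p q
  refine (((SmP.det' hP hS h).inv' h0).mul' hc).congr fun t _ y _ => ?_
  rw [Matrix.inv_def, Matrix.smul_apply, Ring.inverse_eq_inv', Matrix.adjugate_apply]
  rfl

end Vale.Agent.P264.Manifold

end
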