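import Vale.Agent.P264.Defs

/-!
The Calabi flow on complex projective 8-space in its nine affine charts.

A function on the projective space is a function on `Fin 9 → ℂ` which, away from `0`, does not
change under nonzero scaling. A Kaehler form in the class `L` times the Fubini-Study class is
`L` times Fubini-Study plus `i ddbar ψ` for such a function `ψ`. In chart `i` (coordinate `i`
equal to `1`) its potential is `L log (1 + |z|^2) + ψ`.
-/

namespace Vale.Agent.P264.Manifold

open Set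
open scoped ContDiff ComplexOrder

/-- Coordinates in one chart. -/
abbrev Chart : Type := Fin 8 → ℂ

/-- Homogeneous coordinates. -/
abbrev Hom : Type := Fin 9 → ℂ

/-- The point of chart `i` with coordinates `z`. -/
noncomputable def point (i : Fin 9) (z : Chart) : Hom := Fin.insertNth i 1 z

/-- Second directional derivative. -/
noncomputable def d2 (f : Chart → ℝ) (z v w : Chart) : ℝ := fderiv ℝ (fderiv ℝ f) z v w

/-- The complex Hessian `d^2 f / dz_j dzbar_k`. -/
noncomputable def cHess (f : Chart → ℝ) (z : Chart) : Matrix (Fin 8) (Fin 8) ℂ :=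
  Matrix.of fun j k =>
    (1 / 4 : ℂ) * ((d2 f z (Pi.single j 1) (Pi.single k 1)
        + d2 f z (Pi.single j Complex.I) (Pi.single k Complex.I) : ℝ)
      + Complex.I * (d2 f z (Pi.single j 1) (Pi.single k Complex.I)
        - d2 f z (Pi.single j Complex.I) (Pi.single k 1) : ℝ))

/-- Local potential of the form given by `ψ` in chart `i`. -/
noncomputable def pot (L : ℝ) (ψ : Hom → ℝ) (i : Fin 9) (z : Chart) : ℝ :=
  L * Real.log (1 + ∑ j, ‖z j‖ ^ 2) + ψ (point i z)

/-- The metric in chart `i`. -/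
noncomputable def metric (L : ℝ) (ψ : Hom → ℝ) (i : Fin 9) (z : Chart) :
    Matrix (Fin 8) (Fin 8) ℂ :=
  cHess (pot L ψ i) z

/-- Scalar curvature: the trace of the Ricci form `- i ddbar log det g`. -/
noncomputable def scalar (L : ℝ) (ψ : Hom → ℝ) (i : Fin 9) (z : Chart) : ℝ :=
  -((metric L ψ i z)⁻¹ *
      cHess (fun w => Real.log ((metric L ψ i w).det.re)) z).trace.re

/-- `ψ` defines a smooth Kaehler form. -/
structure IsKahlerPotential (L : ℝ) (ψ : Hom → ℝ) : Prop where
  smooth : ContDiffOn ℝ ∞ ψ {0}ᶜ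
  scale : ∀ (a : ℂ) (Z : Hom), a ≠ 0 → Z ≠ 0 → ψ (a • Z) = ψ Z
  pos : ∀ i z, (metric L ψ i z).PosDef

/-- A smooth Calabi flow on `[0, T]` from the form of `ψ₀`. The constant `b` stands for the
average of the scalar curvature. -/
structure IsCalabiFlow (L T b : ℝ) (ψ₀ : Hom → ℝ) (ψ : ℝ → Hom → ℝ) : Prop where
  smooth : ContDiffOn ℝ ∞ (Function.uncurry ψ) (Icc 0 T ×ˢ {0}ᶜ)
  initial : ∀ Z, Z ≠ 0 → ψ 0 Z = ψ₀ Z
  kahler : ∀ t ∈ Icc 0 T, IsKahlerPotential L (ψ t)
  eqn : ∀ t ∈ Ioo 0 T, ∀ i z,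
    deriv (fun r => ψ r (point i z)) t = scalar L (ψ t) i z - b

/-- Some Kaehler form on complex projective 8-space has no smooth Calabi flow up to time one,
whatever constant plays the average. -/
def ManifoldDisproof : Prop :=
  ∃ L : ℝ, 0 < L ∧ ∃ ψ₀ : Hom → ℝ, IsKahlerPotential L ψ₀ ∧
    ∀ b T : ℝ, 1 ≤ T → ∀ ψ, ¬ IsCalabiFlow L T b ψ₀ ψ

end Vale.Agent.P264.Manifold
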