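import Mathlib
import Vale.Agent.P250.Disproof.Wirt
import Vale.Agent.P264.Manifold.Statement
import Vale.Agent.P264.Manifold.Param

/-!
The Kaehler cone over projective space of a potential: `h = |Z|^2 exp (ψ / L)`, its complex
Hessian `G`, and the Euler identities for homogeneous functions.
-/

open scoped Topology ContDiff ComplexConjugate ComplexOrder
open Complex Filter Set Matrix
open Vale.Agent.P250.Disproof

noncomputable section

namespace Vale.Agent.P264.Manifold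

/-- The complement of the origin. -/
def Ω : Set Hom := {0}ᶜ

theorem isOpen_Ω : IsOpen Ω := isOpen_compl_singleton

theorem mem_Ω {Z : Hom} : Z ∈ Ω ↔ Z ≠ 0 := Iff.rfl

/-- A coordinate vector. -/
def cv (j : Fin 9) : Hom := Pi.single j 1

/-- The complex Hessian on `Hom`. -/
def hs (F : Hom → ℂ) (Z : Hom) : Matrix (Fin 9) (Fin 9) ℂ :=
  Matrix.of fun j k => dz (cv j) (dzb (cv k) F) Z

/-- The squared norm. -/
def nR (Z : Hom) : ℝ := ∑ j, ‖Z j‖ ^ 2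

/-- The cone potential. -/
def hR (L : ℝ) (ψ : Hom → ℝ) (Z : Hom) : ℝ := nR Z * Real.exp (ψ Z / L)

/-- The cone potential as a complex function. -/
def hC (L : ℝ) (ψ : Hom → ℝ) (Z : Hom) : ℂ := (hR L ψ Z : ℂ)

/-- The cone metric. -/
def gG (L : ℝ) (ψ : Hom → ℝ) (Z : Hom) : Matrix (Fin 9) (Fin 9) ℂ := hs (hC L ψ) Z

/-- Its inverse. -/
def gA (L : ℝ) (ψ : Hom → ℝ) (Z : Hom) : Matrix (Fin 9) (Fin 9) ℂ := (gG L ψ Z)⁻¹

/-- Its volume density. -/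
def del (L : ℝ) (ψ : Hom → ℝ) (Z : Hom) : ℝ := (gG L ψ Z).det.re

/-- The logarithm of the volume density. -/
def dC (L : ℝ) (ψ : Hom → ℝ) (Z : Hom) : ℂ := (Real.log (del L ψ Z) : ℂ)

/-- The Laplacian of the cone metric. -/
def lap (L : ℝ) (ψ : Hom → ℝ) (F : Hom → ℂ) (Z : Hom) : ℂ := (gA L ψ Z * hs F Z).trace

/-- The velocity of the flow. -/
def vel (L b : ℝ) (ψ : Hom → ℝ) (Z : Hom) : ℂ :=
  ((72 / L - b : ℝ) : ℂ) - hC L ψ Z * lap L ψ (dC L ψ) Z / (L : ℂ)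

/-- A smooth homogeneous potential. -/
structure Pre (L : ℝ) (ψ : Hom → ℝ) : Prop where
  smooth : ContDiffOn ℝ ∞ ψ Ω
  scale : ∀ (a : ℂ) (Z : Hom), a ≠ 0 → Z ≠ 0 → ψ (a • Z) = ψ Z

/-- A smooth homogeneous potential with positive cone metric. -/
structure Good (L : ℝ) (ψ : Hom → ℝ) : Prop extends Pre L ψ where
  pos : ∀ Z ∈ Ω, (gG L ψ Z).PosDef

/-- Homogeneous of degree zero. -/
def Deg0 (F : Hom → ℂ) : Prop := ∀ (a : ℂ) (Z : Hom), a ≠ 0 → Z ≠ 0 → F (a • Z) = F Z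

variable {L : ℝ} {ψ : Hom → ℝ} {F K : Hom → ℂ} {Z : Hom}

theorem dC_conj (Z : Hom) : conj (dC L ψ Z) = dC L ψ Z := conj_ofReal _

theorem hC_conj (Z : Hom) : conj (hC L ψ Z) = hC L ψ Z := conj_ofReal _

/-! ### Directions and coordinates -/

theorem sum_cv (v : Hom) : ∑ j, v j • cv j = v := by
  funext l
  simp [cv, Pi.single_apply, Finset.sum_apply]

theorem dz_expand (v : Hom) : dz v F Z = ∑ j, v j * dz (cv j) F Z := by
  let f : Hom →+ ℂ := AddMonoidHom.mk' (fun a => dz a F Z) fun a b => dz_add_dir a b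
  calc dz v F Z = f (∑ j, v j • cv j) := by rw [sum_cv]; rfl
    _ = ∑ j, f (v j • cv j) := map_sum f _ _
    _ = _ := Finset.sum_congr rfl fun j _ => dz_smul_dir (v j) (cv j)

theorem dzb_expand (v : Hom) : dzb v F Z = ∑ j, conj (v j) * dzb (cv j) F Z := by
  let f : Hom →+ ℂ := AddMonoidHom.mk' (fun a => dzb a F Z) fun a b => dzb_add_dir a b
  calc dzb v F Z = f (∑ j, v j • cv j) := by rw [sum_cv]; rfl
    _ = ∑ j, f (v j • cv j) := map_sum f _ _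
    _ = _ := Finset.sum_congr rfl fun j _ => dzb_smul_dir (v j) (cv j)

theorem sm_coord (l : Fin 9) : Sm Ω fun x : Hom => x l :=
  ⟨isOpen_Ω, (contDiff_apply ℝ ℂ l).contDiffOn⟩

theorem dz_coord (a : Hom) (l : Fin 9) : dz a (fun x : Hom => x l) Z = a l :=
  dz_lin (ContinuousLinearMap.proj (R := ℂ) (φ := fun _ : Fin 9 => ℂ) l) a

theorem dzb_coord (a : Hom) (l : Fin 9) : dzb a (fun x : Hom => x l) Z = 0 :=
  dzb_lin (ContinuousLinearMap.proj (R := ℂ) (φ := fun _ : Fin 9 => ℂ) l) a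

theorem sm_coord_conj (l : Fin 9) : Sm Ω fun x : Hom => conj (x l) := (sm_coord l).conj'

theorem dz_coord_conj (a : Hom) (l : Fin 9) : dz a (fun x : Hom => conj (x l)) Z = 0 := by
  rw [dz_conj (differentiableAt_pi.1 differentiableAt_id l), dzb_coord, map_zero]

theorem dzb_coord_conj (a : Hom) (l : Fin 9) :
    dzb a (fun x : Hom => conj (x l)) Z = conj (a l) := by
  rw [dzb_conj (differentiableAt_pi.1 differentiableAt_id l), dz_coord]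

/-! ### The Hessian -/

theorem hs_congr {F' : Hom → ℂ} (h : EqOn F F' Ω) (hZ : Z ∈ Ω) : hs F Z = hs F' Z := by
  ext j k
  exact dz_congr_on isOpen_Ω (fun x hx => dzb_congr_on isOpen_Ω h hx _) hZ _

theorem hs_const_mul (c : ℂ) (hF : Sm Ω F) (hZ : Z ∈ Ω) :
    hs (fun x => c * F x) Z = c • hs F Z := by
  ext j k
  show dz _ (dzb _ fun x => c * F x) Z = c * dz _ (dzb _ F) Z
  rw [dz_congr_on isOpen_Ω (fun x hx => dzb_const_mul c (hF.diffAt hx) (cv k)) hZ,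
    dz_const_mul c ((hF.dzb' _).diffAt hZ)]

theorem hs_mul (hF : Sm Ω F) (hK : Sm Ω K) (hZ : Z ∈ Ω) :
    hs (fun x => F x * K x) Z = K Z • hs F Z + F Z • hs K Z
      + vecMulVec (fun j => dz (cv j) F Z) (fun k => dzb (cv k) K Z)
      + vecMulVec (fun j => dz (cv j) K Z) (fun k => dzb (cv k) F Z) := by
  ext j k
  show dz _ (dzb _ fun x => F x * K x) Z = _
  rw [dz_congr_on isOpen_Ω (fun x hx => dzb_mul (hF.diffAt hx) (hK.diffAt hx) (cv k)) hZ,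
    dz_add ((hF.diffAt hZ).fun_mul ((hK.dzb' _).diffAt hZ))
      (((hF.dzb' _).diffAt hZ).fun_mul (hK.diffAt hZ)),
    dz_mul (hF.diffAt hZ) ((hK.dzb' _).diffAt hZ), dz_mul ((hF.dzb' _).diffAt hZ) (hK.diffAt hZ)]
  simp [hs, vecMulVec_apply]
  ring

theorem hs_conjTranspose (hF : Sm Ω F) (hr : ∀ x, conj (F x) = F x) (hZ : Z ∈ Ω) :
    (hs F Z)ᴴ = hs F Z := by
  ext j k
  show conj (dz (cv k) (dzb (cv j) F) Z) = dz (cv j) (dzb (cv k) F) Z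
  rw [← dzb_conj ((hF.dzb' _).diffAt hZ),
    dzb_congr_on isOpen_Ω (fun x hx => conj_dzb (hF.diffAt hx) hr (cv j)) hZ,
    ← dz_dzb_comm hF hZ]

/-! ### Homogeneous functions -/

theorem dd_radial (hF : Sm Ω F) (hZ : Z ∈ Ω) (c : ℂ) {q : ℝ → ℂ} {q' : ℂ}
    (hq : HasDerivAt q q' 0) (he : ∀ᶠ r : ℝ in 𝓝 0, F (((1 : ℂ) + r * c) • Z) = q r * F Z) :
    dd (c • Z) F Z = q' * F Z := by
  have h0 : HasDerivAt (fun r : ℝ => ((1 : ℂ) + r * c)) c 0 := by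
    simpa using ((Complex.ofRealCLM.hasDerivAt (x := (0 : ℝ))).mul_const c).const_add (1 : ℂ)
  have h1 : HasDerivAt (fun r : ℝ => ((1 : ℂ) + r * c) • Z) (c • Z) 0 := h0.smul_const Z
  have h2 := (hF.diffAt hZ).hasFDerivAt.comp_hasDerivAt_of_eq (0 : ℝ) h1 (by simp)
  exact h2.unique ((hq.mul_const (F Z)).congr_of_eventuallyEq he)

theorem one_add_ne {c : ℂ} : ∀ᶠ r : ℝ in 𝓝 0, (1 : ℂ) + r * c ≠ 0 :=
  ((continuous_const.add (continuous_ofReal.mul continuous_const)).continuousAt).eventually_ne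
    (by simp)

theorem deg0_dd (hF : Sm Ω F) (hd : Deg0 F) (hZ : Z ∈ Ω) (c : ℂ) : dd (c • Z) F Z = 0 := by
  simpa using dd_radial hF hZ c (hasDerivAt_const (0 : ℝ) (1 : ℂ))
    (one_add_ne.mono fun r hr => by rw [one_mul, hd _ _ hr hZ])

theorem deg0_dz (hF : Sm Ω F) (hd : Deg0 F) (hZ : Z ∈ Ω) :
    ∑ j, Z j * dz (cv j) F Z = 0 := by
  have h1 := deg0_dd hF hd hZ 1
  rw [one_smul] at h1
  rw [← dz_expand, dz, h1, deg0_dd hF hd hZ I, mul_zero, sub_zero, mul_zero]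

theorem deg0_dzb (hF : Sm Ω F) (hd : Deg0 F) (hZ : Z ∈ Ω) :
    ∑ j, conj (Z j) * dzb (cv j) F Z = 0 := by
  have h1 := deg0_dd hF hd hZ 1
  rw [one_smul] at h1
  rw [← dzb_expand, dzb, h1, deg0_dd hF hd hZ I, mul_zero, add_zero, mul_zero]

theorem deg0_vecMul_hs (hF : Sm Ω F) (hd : Deg0 F) (hZ : Z ∈ Ω) : Z ᵥ* hs F Z = 0 := by
  funext k
  have h : dzb (cv k) (fun x => ∑ j, x j * dz (cv j) F x) Z = dzb (cv k) (fun _ => (0 : ℂ)) Z :=
    dzb_congr_on isOpen_Ω (fun x hx => deg0_dz hF hd hx) hZ _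
  rw [dzb_const, dzb_sum _ (F := fun j x => x j * dz (cv j) F x)
    (fun j _ => ((sm_coord j).diffAt hZ).fun_mul ((hF.dz' _).diffAt hZ))] at h
  simp only [dzb_mul ((sm_coord _).diffAt hZ) ((hF.dz' _).diffAt hZ), dzb_coord, zero_mul,
    add_zero, ← dz_dzb_comm hF hZ] at h
  exact h

theorem deg0_hs_mulVec (hF : Sm Ω F) (hd : Deg0 F) (hZ : Z ∈ Ω) : hs F Z *ᵥ star Z = 0 := by
  funext j
  have h : dz (cv j) (fun x => ∑ k, conj (x k) * dzb (cv k) F x) Z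
      = dz (cv j) (fun _ => (0 : ℂ)) Z :=
    dz_congr_on isOpen_Ω (fun x hx => deg0_dzb hF hd hx) hZ _
  rw [dz_const, dz_sum _ (F := fun k x => conj (x k) * dzb (cv k) F x)
    (fun k _ => ((sm_coord_conj k).diffAt hZ).fun_mul ((hF.dzb' _).diffAt hZ))] at h
  simp only [dz_mul ((sm_coord_conj _).diffAt hZ) ((hF.dzb' _).diffAt hZ), dz_coord_conj,
    zero_mul, add_zero] at h
  simpa [Matrix.mulVec, dotProduct, hs, mul_comm] using h

/-! ### Smoothness of the cone data -/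

theorem contDiff_nR : ContDiff ℝ ∞ nR :=
  ContDiff.sum fun j _ => (contDiff_norm_sq ℝ).comp (contDiff_apply ℝ ℂ j)

theorem nR_pos (hZ : Z ∈ Ω) : 0 < nR Z := by
  obtain ⟨j, hj⟩ := Function.ne_iff.1 hZ
  exact Finset.sum_pos' (fun i _ => by positivity) ⟨j, Finset.mem_univ _, by
    simp only [Pi.zero_apply] at hj; positivity⟩

theorem hR_pos (hZ : Z ∈ Ω) : 0 < hR L ψ Z := mul_pos (nR_pos hZ) (Real.exp_pos _)

theorem hC_ne (hZ : Z ∈ Ω) : hC L ψ Z ≠ 0 := ofReal_ne_zero.2 (hR_pos hZ).ne'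

theorem nR_smul (a : ℂ) (Z : Hom) : nR (a • Z) = ‖a‖ ^ 2 * nR Z := by
  simp [nR, Finset.mul_sum, mul_pow]

section Family

variable {P : Set ℝ} {ψt : ℝ → Hom → ℝ}

theorem smP_hC (hP : UniqueDiffOn ℝ P) (h : ContDiffOn ℝ ∞ (Function.uncurry ψt) (P ×ˢ Ω)) :
    SmP P Ω fun t => hC L (ψt t) :=
  ⟨hP, isOpen_Ω, ofRealCLM.contDiff.comp_contDiffOn
    (((contDiff_nR.comp contDiff_snd).contDiffOn).mul (h.div_const L).exp)⟩

theorem smP_hs {f : ℝ → Hom → ℂ} (hf : SmP P Ω f) (j k : Fin 9) :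
    SmP P Ω fun t Z => hs (f t) Z j k := (hf.dzb' (cv k)).dz' (cv j)

theorem smP_gG (hP : UniqueDiffOn ℝ P) (h : ContDiffOn ℝ ∞ (Function.uncurry ψt) (P ×ˢ Ω))
    (j k : Fin 9) : SmP P Ω fun t Z => gG L (ψt t) Z j k := smP_hs (smP_hC hP h) j k

theorem re_pos_of_pos {z : ℂ} (h : 0 < z) : 0 < z.re := (Complex.lt_def.1 h).1

theorem ofReal_re_of_pos {z : ℂ} (h : 0 < z) : (z.re : ℂ) = z :=
  Complex.ext (ofReal_re _) ((ofReal_im _).trans (Complex.lt_def.1 h).2)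

theorem Good.det_eq (hg : Good L ψ) (hZ : Z ∈ Ω) : ((del L ψ Z : ℝ) : ℂ) = (gG L ψ Z).det :=
  ofReal_re_of_pos (hg.pos Z hZ).det_pos

theorem Good.del_pos (hg : Good L ψ) (hZ : Z ∈ Ω) : 0 < del L ψ Z :=
  re_pos_of_pos (hg.pos Z hZ).det_pos

theorem Good.det_ne (hg : Good L ψ) (hZ : Z ∈ Ω) : (gG L ψ Z).det ≠ 0 :=
  (hg.pos Z hZ).det_pos.ne'

theorem smP_del (hP : UniqueDiffOn ℝ P) (h : ContDiffOn ℝ ∞ (Function.uncurry ψt) (P ×ˢ Ω))
    (hg : ∀ t ∈ P, Good L (ψt t)) : SmP P Ω fun t Z => (del L (ψt t) Z : ℂ) :=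
  (SmP.det' hP isOpen_Ω (smP_gG hP h)).congr fun t ht _ hZ => (hg t ht).det_eq hZ

theorem smP_dC (hP : UniqueDiffOn ℝ P) (h : ContDiffOn ℝ ∞ (Function.uncurry ψt) (P ×ˢ Ω))
    (hg : ∀ t ∈ P, Good L (ψt t)) : SmP P Ω fun t => dC L (ψt t) := by
  have h1 : ContDiffOn ℝ ∞ (Function.uncurry fun t Z => del L (ψt t) Z) (P ×ˢ Ω) :=
    (reCLM.contDiff.comp_contDiffOn (smP_del hP h hg).smooth).congr fun p _ => by
      simp [Function.uncurry]
  exact ⟨hP, isOpen_Ω, ofRealCLM.contDiff.comp_contDiffOn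
    (h1.log fun p hp => ((hg p.1 hp.1).del_pos hp.2).ne')⟩

theorem smP_gA (hP : UniqueDiffOn ℝ P) (h : ContDiffOn ℝ ∞ (Function.uncurry ψt) (P ×ˢ Ω))
    (hg : ∀ t ∈ P, Good L (ψt t)) (j k : Fin 9) : SmP P Ω fun t Z => gA L (ψt t) Z j k :=
  SmP.matInv hP isOpen_Ω (smP_gG hP h) (fun t ht _ hZ => (hg t ht).det_ne hZ) j k

theorem smP_lap (hP : UniqueDiffOn ℝ P) (h : ContDiffOn ℝ ∞ (Function.uncurry ψt) (P ×ˢ Ω))
    (hg : ∀ t ∈ P, Good L (ψt t)) {f : ℝ → Hom → ℂ} (hf : SmP P Ω f) :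
    SmP P Ω fun t Z => lap L (ψt t) (f t) Z := by
  simp only [lap, Matrix.trace, Matrix.diag_apply, Matrix.mul_apply]
  exact SmP.sum' _ hP isOpen_Ω fun j _ => SmP.sum' _ hP isOpen_Ω fun k _ =>
    (smP_gA hP h hg j k).mul' (smP_hs hf k j)

theorem smP_vel (b : ℝ) (hP : UniqueDiffOn ℝ P)
    (h : ContDiffOn ℝ ∞ (Function.uncurry ψt) (P ×ˢ Ω)) (hg : ∀ t ∈ P, Good L (ψt t)) :
    SmP P Ω fun t => vel L b (ψt t) := by
  refine ((SmP.const hP isOpen_Ω (((72 / L - b : ℝ)) : ℂ)).sub'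
    (((smP_hC (L := L) hP h).mul' (smP_lap hP h hg (smP_dC hP h hg))).mul'
      (SmP.const hP isOpen_Ω ((L : ℂ))⁻¹))).congr fun t _ Z _ => ?_
  simp [vel, div_eq_mul_inv]

end Family

theorem Pre.uncurry (hg : Pre L ψ) :
    ContDiffOn ℝ ∞ (Function.uncurry fun _ : ℝ => ψ) (univ ×ˢ Ω) :=
  hg.smooth.comp contDiff_snd.contDiffOn fun _ hp => hp.2

theorem Pre.sm_hC (hg : Pre L ψ) : Sm Ω (hC L ψ) :=
  (smP_hC uniqueDiffOn_univ hg.uncurry).slice (mem_univ (0 : ℝ))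

theorem Pre.sm_gG (hg : Pre L ψ) (j k : Fin 9) : Sm Ω fun Z => gG L ψ Z j k :=
  (smP_gG uniqueDiffOn_univ hg.uncurry j k).slice (mem_univ (0 : ℝ))

theorem Good.sm_gA (hg : Good L ψ) (j k : Fin 9) : Sm Ω fun Z => gA L ψ Z j k :=
  (smP_gA uniqueDiffOn_univ hg.uncurry (fun _ _ => hg) j k).slice (mem_univ (0 : ℝ))

theorem Good.sm_del (hg : Good L ψ) : Sm Ω fun Z => (del L ψ Z : ℂ) :=
  (smP_del uniqueDiffOn_univ hg.uncurry fun _ _ => hg).slice (mem_univ (0 : ℝ))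

theorem Good.sm_dC (hg : Good L ψ) : Sm Ω (dC L ψ) :=
  (smP_dC uniqueDiffOn_univ hg.uncurry fun _ _ => hg).slice (mem_univ (0 : ℝ))

theorem Good.sm_lap (hg : Good L ψ) (hF : Sm Ω F) : Sm Ω fun Z => lap L ψ F Z :=
  (smP_lap uniqueDiffOn_univ hg.uncurry (fun _ _ => hg) (SmP.ofSm hF)).slice (mem_univ (0 : ℝ))

theorem Good.sm_vel (hg : Good L ψ) (b : ℝ) : Sm Ω (vel L b ψ) :=
  (smP_vel b uniqueDiffOn_univ hg.uncurry fun _ _ => hg).slice (mem_univ (0 : ℝ))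

theorem Good.isUnit (hg : Good L ψ) : ∀ Z ∈ Ω, IsUnit (gG L ψ Z).det :=
  fun _ hZ => isUnit_iff_ne_zero.2 (hg.det_ne hZ)

/-! ### Identities of the cone metric -/

theorem Good.gA_mul (hg : Good L ψ) (hZ : Z ∈ Ω) : gA L ψ Z * gG L ψ Z = 1 :=
  Matrix.nonsing_inv_mul _ (hg.isUnit Z hZ)

theorem Good.mul_gA (hg : Good L ψ) (hZ : Z ∈ Ω) : gG L ψ Z * gA L ψ Z = 1 :=
  Matrix.mul_nonsing_inv _ (hg.isUnit Z hZ)

theorem Pre.hC_smul (hg : Pre L ψ) {a : ℂ} (ha : a ≠ 0) (hZ : Z ∈ Ω) :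
    hC L ψ (a • Z) = ((‖a‖ ^ 2 : ℝ) : ℂ) * hC L ψ Z := by
  simp only [hC, hR, nR_smul, hg.scale a Z ha hZ]
  push_cast
  ring

theorem Pre.euler_dz (hg : Pre L ψ) (hZ : Z ∈ Ω) :
    ∑ j, Z j * dz (cv j) (hC L ψ) Z = hC L ψ Z := by
  have q1 : HasDerivAt (fun r : ℝ => ((1 : ℂ) + r) * (1 + r)) 2 0 := by
    have h := (Complex.ofRealCLM.hasDerivAt (x := (0 : ℝ))).const_add (1 : ℂ)
    simpa [one_add_one_eq_two] using h.fun_mul h
  have q2 : HasDerivAt (fun r : ℝ => (1 : ℂ) + (r : ℂ) * r) 0 0 := by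
    have h := Complex.ofRealCLM.hasDerivAt (x := (0 : ℝ))
    simpa using (h.fun_mul h).const_add (1 : ℂ)
  have h1 := dd_radial hg.sm_hC hZ 1 q1 (one_add_ne.mono fun r hr => by
    rw [hg.hC_smul hr hZ, mul_one]
    congr 1
    rw [Complex.sq_norm, Complex.normSq_apply]
    apply Complex.ext <;> simp)
  have h2 := dd_radial hg.sm_hC hZ I q2 (one_add_ne.mono fun r hr => by
    rw [hg.hC_smul hr hZ]
    congr 1
    rw [Complex.sq_norm, Complex.normSq_apply]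
    apply Complex.ext <;> simp)
  rw [one_smul] at h1
  rw [← dz_expand, dz, h1, h2]
  ring

theorem Pre.euler_dzb (hg : Pre L ψ) (hZ : Z ∈ Ω) :
    ∑ j, conj (Z j) * dzb (cv j) (hC L ψ) Z = hC L ψ Z := by
  have h := congrArg conj (hg.euler_dz hZ)
  simpa only [map_sum, map_mul, conj_dz (hg.sm_hC.diffAt hZ) hC_conj, hC_conj] using h

/-- The holomorphic differential of the cone potential. -/
def av (L : ℝ) (ψ : Hom → ℝ) (Z : Hom) : Hom := fun j => dz (cv j) (hC L ψ) Z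

/-- The antiholomorphic differential of the cone potential. -/
def bv (L : ℝ) (ψ : Hom → ℝ) (Z : Hom) : Hom := fun j => dzb (cv j) (hC L ψ) Z

theorem Pre.vecMul_gG (hg : Pre L ψ) (hZ : Z ∈ Ω) : Z ᵥ* gG L ψ Z = bv L ψ Z := by
  funext k
  have hF := hg.sm_hC
  have h : dzb (cv k) (fun x => ∑ j, x j * dz (cv j) (hC L ψ) x) Z = dzb (cv k) (hC L ψ) Z :=
    dzb_congr_on isOpen_Ω (fun x hx => hg.euler_dz hx) hZ _
  rw [dzb_sum _ (F := fun j x => x j * dz (cv j) (hC L ψ) x)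
    (fun j _ => ((sm_coord j).diffAt hZ).fun_mul ((hF.dz' _).diffAt hZ))] at h
  simp only [dzb_mul ((sm_coord _).diffAt hZ) ((hF.dz' _).diffAt hZ), dzb_coord, zero_mul,
    add_zero, ← dz_dzb_comm hF hZ] at h
  exact h

theorem Pre.gG_mulVec (hg : Pre L ψ) (hZ : Z ∈ Ω) : gG L ψ Z *ᵥ star Z = av L ψ Z := by
  funext j
  have hF := hg.sm_hC
  have h : dz (cv j) (fun x => ∑ k, conj (x k) * dzb (cv k) (hC L ψ) x) Z
      = dz (cv j) (hC L ψ) Z :=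
    dz_congr_on isOpen_Ω (fun x hx => hg.euler_dzb hx) hZ _
  rw [dz_sum _ (F := fun k x => conj (x k) * dzb (cv k) (hC L ψ) x)
    (fun k _ => ((sm_coord_conj k).diffAt hZ).fun_mul ((hF.dzb' _).diffAt hZ))] at h
  simp only [dz_mul ((sm_coord_conj _).diffAt hZ) ((hF.dzb' _).diffAt hZ), dz_coord_conj,
    zero_mul, add_zero] at h
  simpa [Matrix.mulVec, dotProduct, gG, hs, av, mul_comm] using h

theorem Good.gA_av (hg : Good L ψ) (hZ : Z ∈ Ω) : gA L ψ Z *ᵥ av L ψ Z = star Z := by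
  rw [← hg.gG_mulVec hZ, mulVec_mulVec, hg.gA_mul hZ, one_mulVec]

theorem Good.bv_gA (hg : Good L ψ) (hZ : Z ∈ Ω) : bv L ψ Z ᵥ* gA L ψ Z = Z := by
  rw [← hg.vecMul_gG hZ, vecMul_vecMul, hg.mul_gA hZ, vecMul_one]

/-- Laplacian of `h u` for `u` of degree zero. -/
theorem Good.lap_hmul (hg : Good L ψ) (hF : Sm Ω F) (hd : Deg0 F) (hZ : Z ∈ Ω) :
    lap L ψ (fun x => hC L ψ x * F x) Z = 9 * F Z + hC L ψ Z * lap L ψ F Z := by
  rw [lap, hs_mul hg.sm_hC hF hZ]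
  change (gA L ψ Z * (F Z • gG L ψ Z + hC L ψ Z • hs F Z
    + vecMulVec (av L ψ Z) (fun k => dzb (cv k) F Z)
    + vecMulVec (fun j => dz (cv j) F Z) (bv L ψ Z))).trace = _
  simp only [Matrix.mul_add, Matrix.mul_smul, trace_add, trace_smul, mul_vecMulVec,
    trace_vecMulVec, hg.gA_mul hZ, trace_one, Fintype.card_fin, hg.gA_av hZ, smul_eq_mul]
  have e1 : star Z ⬝ᵥ (fun k => dzb (cv k) F Z) = 0 := deg0_dzb hF hd hZ
  have e2 : (gA L ψ Z *ᵥ fun j => dz (cv j) F Z) ⬝ᵥ bv L ψ Z = 0 := by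
    rw [dotProduct_comm, dotProduct_mulVec, hg.bv_gA hZ]
    exact deg0_dz hF hd hZ
  rw [e1, e2, lap]
  push_cast
  ring

theorem Good.conj_lap (hg : Good L ψ) (hF : Sm Ω F) (hr : ∀ x, conj (F x) = F x) (hZ : Z ∈ Ω) :
    conj (lap L ψ F Z) = lap L ψ F Z := by
  rw [lap, ← Complex.star_def, ← Matrix.trace_conjTranspose, conjTranspose_mul,
    hs_conjTranspose hF hr hZ, gA, Matrix.conjTranspose_nonsing_inv, gG,
    hs_conjTranspose hg.sm_hC hC_conj hZ, trace_mul_comm]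

theorem Good.conj_vel (hg : Good L ψ) (b : ℝ) (hZ : Z ∈ Ω) :
    conj (vel L b ψ Z) = vel L b ψ Z := by
  simp only [vel, map_sub, map_mul, map_div₀, conj_ofReal, hC_conj,
    hg.conj_lap hg.sm_dC dC_conj hZ]

/-! ### Scaling -/

theorem smul_mem_Ω {a : ℂ} (ha : a ≠ 0) (hZ : Z ∈ Ω) : a • Z ∈ Ω := smul_ne_zero ha hZ

theorem hs_comp_smul {a : ℂ} (ha : a ≠ 0) (hF : Sm Ω F) (hZ : Z ∈ Ω) :
    hs (fun x => F (a • x)) Z = (a * conj a) • hs F (a • Z) := by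
  ext j k
  have hp : ∀ x : Hom, HasFDerivAt (fun y : Hom => a • y)
      ((a • ContinuousLinearMap.id ℂ Hom).restrictScalars ℝ) x := fun x =>
    ((a • ContinuousLinearMap.id ℂ Hom).restrictScalars ℝ).hasFDerivAt
  show dz (cv j) (dzb (cv k) fun x => F (a • x)) Z = a * conj a * dz (cv j) (dzb (cv k) F) (a • Z)
  have e : EqOn (dzb (cv k) fun x => F (a • x))
      (fun x => conj a * dzb (cv k) F (a • x)) Ω := fun x hx => by
    have := dzb_comp_affine (hp x) (hF.diffAt (smul_mem_Ω ha hx)) (cv k)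
    rw [this]
    exact dzb_smul_dir a (cv k)
  have hd := (hF.dzb' (cv k)).diffAt (smul_mem_Ω ha hZ)
  rw [dz_congr_on isOpen_Ω e hZ, dz_const_mul (ψ := fun x => dzb (cv k) F (a • x)) _
      (hd.comp Z (hp Z).differentiableAt),
    dz_comp_affine (hp Z) hd]
  show conj a * dz (a • cv j) (dzb (cv k) F) (a • Z) = _
  rw [dz_smul_dir]
  ring

theorem Pre.gG_smul (hg : Pre L ψ) {a : ℂ} (ha : a ≠ 0) (hZ : Z ∈ Ω) :
    gG L ψ (a • Z) = gG L ψ Z := by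
  have h1 := hs_comp_smul ha hg.sm_hC hZ
  have h2 : hs (fun x => hC L ψ (a • x)) Z = ((‖a‖ ^ 2 : ℝ) : ℂ) • gG L ψ Z := by
    rw [hs_congr (F' := fun x => ((‖a‖ ^ 2 : ℝ) : ℂ) * hC L ψ x) (fun x hx => hg.hC_smul ha hx) hZ,
      hs_const_mul _ hg.sm_hC hZ]
    rfl
  have h3 : a * conj a = ((‖a‖ ^ 2 : ℝ) : ℂ) := by
    rw [Complex.mul_conj, Complex.normSq_eq_norm_sq]
  rw [h2, h3] at h1
  exact (smul_right_injective _ (by exact_mod_cast pow_ne_zero 2 (norm_ne_zero_iff.2 ha)) h1).symm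

theorem Good.deg0_dC (hg : Good L ψ) : Deg0 (dC L ψ) := fun a Z ha hZ => by
  rw [dC, dC, del, del, hg.gG_smul ha hZ]

theorem Good.deg0_hlap (hg : Good L ψ) (hF : Sm Ω F) (hd : Deg0 F) :
    Deg0 fun Z => hC L ψ Z * lap L ψ F Z := fun a Z ha hZ => by
  have h1 := hs_comp_smul ha hF hZ
  rw [hs_congr (F' := F) (fun x hx => hd a x ha hx) hZ] at h1
  show hC L ψ (a • Z) * lap L ψ F (a • Z) = hC L ψ Z * lap L ψ F Z
  rw [lap, lap, gA, gA, hg.gG_smul ha hZ, hg.hC_smul ha hZ, h1, Matrix.mul_smul, trace_smul,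
    smul_eq_mul]
  have h3 : a * conj a = ((‖a‖ ^ 2 : ℝ) : ℂ) := by
    rw [Complex.mul_conj, Complex.normSq_eq_norm_sq]
  rw [h3]
  ring

theorem Good.deg0_vel (hg : Good L ψ) (b : ℝ) : Deg0 (vel L b ψ) := fun a Z ha hZ => by
  have := hg.deg0_hlap hg.sm_dC hg.deg0_dC a Z ha hZ
  simp only [vel, this]

end Vale.Agent.P264.Manifold

end
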