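import Mathlib
import Vale.Agent.P250.Disproof.Wirt
import Vale.Agent.P264.Manifold.Statement
import Vale.Agent.P264.Manifold.Param
import Vale.Agent.P264.Manifold.Cone

/-!
The cone metric in an affine chart: positivity, determinant and scalar curvature, and the Calabi
flow equation on the cone.
-/

open scoped Topology ContDiff ComplexConjugate ComplexOrder
open Complex Filter Set Matrix
open Vale.Agent.P250.Disproof

noncomputable section

namespace Vale.Agent.P264.Manifold

variable {L : ℝ} {ψ : Hom → ℝ} {F : Hom → ℂ}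

/-- The linear part of `point i`. -/
def incl (i : Fin 9) : Chart →L[ℂ] Hom :=
  ContinuousLinearMap.pi fun y => Fin.insertNth (α := fun _ => Chart →L[ℂ] ℂ) i 0
    (fun j => ContinuousLinearMap.proj j) y

theorem incl_apply (i : Fin 9) (z : Chart) : incl i z = Fin.insertNth i 0 z := by
  funext y
  cases y using Fin.succAboveCases i <;> simp [incl]

theorem point_eq (i : Fin 9) (z : Chart) : point i z = incl i z + cv i := by
  funext y
  cases y using Fin.succAboveCases i <;> simp [incl_apply, point, cv, Fin.succAbove_ne]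

theorem hasFDerivAt_point (i : Fin 9) (z : Chart) :
    HasFDerivAt (point i) ((incl i).restrictScalars ℝ) z := by
  rw [show point i = fun z => incl i z + cv i from funext (point_eq i)]
  exact ((incl i).restrictScalars ℝ).hasFDerivAt.add_const _

theorem incl_single (i : Fin 9) (j : Fin 8) : incl i (Pi.single j 1) = cv (i.succAbove j) := by
  funext y
  cases y using Fin.succAboveCases i with
  | x => simp [incl_apply, cv]
  | p k => simp [incl_apply, cv, Pi.single_apply]

theorem point_mem (i : Fin 9) (z : Chart) : point i z ∈ Ω := fun h => by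
  have := congr_fun h i
  simp [point] at this

theorem contDiff_point (i : Fin 9) : ContDiff ℝ ∞ (point i) := by
  rw [show point i = fun z => incl i z + cv i from funext (point_eq i)]
  exact ((incl i).restrictScalars ℝ).contDiff.add contDiff_const

/-- `cHess` in Wirtinger derivatives. -/
theorem cHess_eq {f : Chart → ℝ} (hf : ContDiff ℝ ∞ f) (z : Chart) (j k : Fin 8) :
    cHess f z j k = dz (Pi.single j 1) (dzb (Pi.single k 1) fun x => (f x : ℂ)) z := by
  have hS : Sm univ fun x => (f x : ℂ) :=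
    ⟨isOpen_univ, (ofRealCLM.contDiff.comp hf).contDiffOn⟩
  have h1 : ∀ v w : Chart, dd v (dd w fun x => (f x : ℂ)) z = (d2 f z v w : ℂ) := fun v w => by
    have hd : DifferentiableAt ℝ (fderiv ℝ f) z :=
      (hf.fderiv_right (m := ∞) (by simp)).differentiable (by simp) z
    rw [show (dd w fun x => (f x : ℂ)) = fun x => ((fderiv ℝ f x w : ℝ) : ℂ) from
        funext fun x => dd_ofReal (hf.differentiable (by simp) x) w,
      dd_ofReal (hd.clm_apply (differentiableAt_const w))]
    show ((fderiv ℝ (fun x => fderiv ℝ f x w) z v : ℝ) : ℂ) = _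
    rw [fderiv_clm_apply hd (differentiableAt_const w)]
    simp [d2]
  have hI : ∀ l : Fin 8, I • (Pi.single l 1 : Chart) = Pi.single l I := fun l => by
    funext m
    by_cases hm : m = l <;> simp [hm]
  rw [dz, dd_dzb hS (mem_univ z), dd_dzb hS (mem_univ z), h1, h1, h1, h1, hI, hI]
  simp only [cHess, of_apply]
  push_cast
  linear_combination (d2 f z (Pi.single j I) (Pi.single k I) : ℂ) / 4 * I_mul_I

theorem cHess_comp (hF : Sm Ω F) (hr : ∀ x, conj (F x) = F x) (i : Fin 9) (z : Chart) :
    cHess (fun w => (F (point i w)).re) z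
      = (hs F (point i z)).submatrix i.succAbove i.succAbove := by
  have hc : ContDiff ℝ ∞ fun w => (F (point i w)).re := by
    refine reCLM.contDiff.comp (g := Complex.re) ?_
    exact contDiffOn_univ.1 (hF.smooth.comp (contDiff_point i).contDiffOn fun w _ => point_mem i w)
  ext j k
  rw [cHess_eq hc, show (fun x => (((F (point i x)).re : ℝ) : ℂ)) = fun x => F (point i x) from
    funext fun x => conj_eq_iff_re.1 (hr _)]
  have e : dzb (Pi.single k 1) (fun x => F (point i x))
      = fun x => dzb (cv (i.succAbove k)) F (point i x) := funext fun x => by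
    rw [dzb_comp_affine (hasFDerivAt_point i x) (hF.diffAt (point_mem i x)), incl_single]
  rw [e, dz_comp_affine (hasFDerivAt_point i z) ((hF.dzb' _).diffAt (point_mem i z)), incl_single]
  rfl

/-! ### The logarithm of the cone potential -/

/-- The logarithm of the cone potential. -/
def lh (L : ℝ) (ψ : Hom → ℝ) (Z : Hom) : ℂ := (Real.log (hR L ψ Z) : ℂ)

theorem lh_conj (Z : Hom) : conj (lh L ψ Z) = lh L ψ Z := conj_ofReal _

theorem Pre.sm_lh (hg : Pre L ψ) : Sm Ω (lh L ψ) :=
  ⟨isOpen_Ω, ofRealCLM.contDiff.comp_contDiffOn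
    (((contDiff_nR.contDiffOn).mul (hg.smooth.div_const L).exp).log fun _ hZ => (hR_pos hZ).ne')⟩

theorem Pre.diff_hR (hg : Pre L ψ) {Z : Hom} (hZ : Z ∈ Ω) : DifferentiableAt ℝ (hR L ψ) Z :=
  (((contDiff_nR.contDiffOn).mul (hg.smooth.div_const L).exp).contDiffAt
    (isOpen_Ω.mem_nhds hZ)).differentiableAt (by simp)

theorem Pre.hs_lh (hg : Pre L ψ) {Z : Hom} (hZ : Z ∈ Ω) :
    hs (lh L ψ) Z = (hC L ψ Z)⁻¹ • gG L ψ Z
      - ((hC L ψ Z)⁻¹ ^ 2) • vecMulVec (av L ψ Z) (bv L ψ Z) := by
  ext j k
  have e : EqOn (dzb (cv k) (lh L ψ)) (fun x => (hC L ψ x)⁻¹ * dzb (cv k) (hC L ψ) x) Ω :=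
    fun x hx => by
      have := dzb_real_comp (Real.hasDerivAt_log (hR_pos (L := L) (ψ := ψ) hx).ne')
        (hg.diff_hR hx) (cv k)
      exact this.trans (by rw [ofReal_inv]; rfl)
  show dz (cv j) (dzb (cv k) (lh L ψ)) Z = _
  have hh := hg.sm_hC.diffAt hZ
  rw [dz_congr_on isOpen_Ω e hZ, dz_mul (hh.fun_inv (hC_ne hZ)) ((hg.sm_hC.dzb' _).diffAt hZ),
    dz_comp (F := fun w => w⁻¹) (hasDerivAt_inv (hC_ne hZ)) hh]
  simp [gG, hs, av, bv, vecMulVec_apply]
  ring

theorem nR_point (i : Fin 9) (z : Chart) : nR (point i z) = 1 + ∑ j, ‖z j‖ ^ 2 := by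
  simp [nR, point, Fin.sum_univ_succAbove _ i]

theorem pot_eq (hL : L ≠ 0) (ψ : Hom → ℝ) (i : Fin 9) (z : Chart) :
    pot L ψ i z = ((L : ℂ) * lh L ψ (point i z)).re := by
  have h1 : (0 : ℝ) < 1 + ∑ j, ‖z j‖ ^ 2 := by positivity
  rw [lh, hR, nR_point, Real.log_mul h1.ne' (Real.exp_pos _).ne', Real.log_exp, pot,
    re_ofReal_mul, ofReal_re]
  field_simp

/-- Two-block matrices. -/
def blk (i : Fin 9) (a : ℂ) (X : Matrix (Fin 8) (Fin 8) ℂ) : Matrix (Fin 9) (Fin 9) ℂ :=
  Matrix.of fun x y => Fin.insertNth (α := fun _ => ℂ) i (Fin.insertNth (α := fun _ => ℂ) i a 0 y)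
    (fun j => Fin.insertNth (α := fun _ => ℂ) i 0 (X j) y) x

variable {i : Fin 9} {a c : ℂ} {X Y : Matrix (Fin 8) (Fin 8) ℂ}

@[simp] theorem blk_ii : blk i a X i i = a := by simp [blk]

@[simp] theorem blk_is (k : Fin 8) : blk i a X i (i.succAbove k) = 0 := by simp [blk]

@[simp] theorem blk_si (j : Fin 8) : blk i a X (i.succAbove j) i = 0 := by simp [blk]

@[simp] theorem blk_ss (j k : Fin 8) : blk i a X (i.succAbove j) (i.succAbove k) = X j k := by
  simp [blk]

theorem blk_mul : blk i a X * blk i c Y = blk i (a * c) (X * Y) := by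
  ext x y
  cases x using Fin.succAboveCases i <;> cases y using Fin.succAboveCases i <;>
    simp [Matrix.mul_apply, Fin.sum_univ_succAbove _ i]

theorem blk_one : blk i 1 1 = 1 := by
  ext x y
  cases x using Fin.succAboveCases i <;> cases y using Fin.succAboveCases i <;>
    simp [Matrix.one_apply, Fin.succAbove_ne, (Fin.succAbove_ne _ _).symm]

theorem blk_trace : (blk i a X).trace = a + X.trace := by
  simp [Matrix.trace, Fin.sum_univ_succAbove _ i]

theorem blk_det : (blk i a X).det = a * X.det := by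
  rw [det_succ_row _ i, Fin.sum_univ_succAbove _ i]
  have : (blk i a X).submatrix i.succAbove i.succAbove = X := by ext; simp
  simp [this, Even.neg_one_pow ⟨(i : ℕ), rfl⟩]

theorem blk_posDef {r : ℝ} (hr : 0 < r) (hX : X.PosDef) : (blk i (r : ℂ) X).PosDef := by
  rw [posDef_iff_dotProduct_mulVec]
  refine ⟨?_, fun x hx => ?_⟩
  · ext p q
    cases p using Fin.succAboveCases i <;> cases q using Fin.succAboveCases i <;>
      simp [hX.1.apply]
  · have e : star x ⬝ᵥ (blk i (r : ℂ) X *ᵥ x) = (r : ℂ) * (conj (x i) * x i)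
        + star (x ∘ i.succAbove) ⬝ᵥ (X *ᵥ (x ∘ i.succAbove)) := by
      simp [dotProduct, Matrix.mulVec, Fin.sum_univ_succAbove _ i]
      ring
    rw [e]
    by_cases h0 : x ∘ i.succAbove = 0
    · have hi : x i ≠ 0 := fun hi => hx (funext fun p => by
        cases p using Fin.succAboveCases i with
        | x => exact hi
        | p j => exact congr_fun h0 j)
      simp only [h0, star_zero, zero_dotProduct, add_zero, mul_comm (conj (x i)), mul_conj,
        ← ofReal_mul]
      exact_mod_cast mul_pos hr (normSq_pos.2 hi)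
    · refine add_pos_of_nonneg_of_pos ?_ (hX.dotProduct_mulVec_pos h0)
      simp only [mul_comm (conj (x i)), mul_conj, ← ofReal_mul]
      exact_mod_cast mul_nonneg hr.le (normSq_nonneg _)

/-- The frame adapted to the point `P` of chart `i`. -/
def frame (L : ℝ) (ψ : Hom → ℝ) (i : Fin 9) (P : Hom) : Matrix (Fin 9) (Fin 9) ℂ :=
  Matrix.of fun x y => Fin.insertNth (α := fun _ => Hom) i P
    (fun j => cv (i.succAbove j) - (av L ψ P (i.succAbove j) / hC L ψ P) • P) y x

theorem frame_det {P : Hom} (hP : P i = 1) : (frame L ψ i P).det = 1 := by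
  set B0 : Matrix (Fin 9) (Fin 9) ℂ := (1 : Matrix (Fin 9) (Fin 9) ℂ).updateCol i P with hB0
  rw [← det_transpose, det_eq_of_forall_row_eq_smul_add_const (B := B0ᵀ)
    (Fin.insertNth (α := fun _ => ℂ) i 0 fun j => -(av L ψ P (i.succAbove j) / hC L ψ P)) i
    (by simp)]
  · rw [det_transpose, hB0, ← cramer_apply, cramer_one]
    simpa using hP
  · intro x y
    cases x using Fin.succAboveCases i with
    | x => simp [frame, B0]
    | p j =>
      simp [frame, B0, cv, Matrix.one_apply, Pi.single_apply]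
      ring

theorem frame_map_det {P : Hom} (hP : P i = 1) : ((frame L ψ i P).map conj).det = 1 := by
  have := (RingHom.map_det (starRingEnd ℂ) (frame L ψ i P)).symm
  rw [frame_det hP, map_one] at this
  exact this

theorem frame_col (P : Hom) :
    (fun x => frame L ψ i P x i) = P ∧ ∀ j, (fun x => frame L ψ i P x (i.succAbove j))
      = cv (i.succAbove j) - (av L ψ P (i.succAbove j) / hC L ψ P) • P := by
  constructor
  · funext x; simp [frame]
  · intro j; funext x; simp [frame]

theorem sandwich (B H : Matrix (Fin 9) (Fin 9) ℂ) (x y : Fin 9) :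
    (Bᵀ * H * B.map conj) x y = (fun p => B p x) ⬝ᵥ (H *ᵥ star fun p => B p y) := by
  rw [Matrix.mul_assoc]
  simp [Matrix.mul_apply, dotProduct, Matrix.mulVec]

theorem metric_eq (hL : 0 < L) (hg : Pre L ψ) (i : Fin 9) (z : Chart) :
    metric L ψ i z = ((L : ℂ) • hs (lh L ψ) (point i z)).submatrix i.succAbove i.succAbove := by
  have hm := hs_const_mul (L : ℂ) hg.sm_lh (point_mem i z)
  rw [metric, show pot L ψ i = fun w => ((L : ℂ) * lh L ψ (point i w)).re from
    funext (pot_eq hL.ne' ψ i), cHess_comp (F := fun x => (L : ℂ) * lh L ψ x)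
    ⟨isOpen_Ω, contDiffOn_const.mul hg.sm_lh.smooth⟩
    (fun x => by simp [lh_conj]), hm]

/-- The cone metric in the adapted frame. -/
theorem frame_gG (hL : 0 < L) (hg : Pre L ψ) (i : Fin 9) (z : Chart) :
    (frame L ψ i (point i z))ᵀ * gG L ψ (point i z) * (frame L ψ i (point i z)).map conj
      = blk i (hC L ψ (point i z)) ((hC L ψ (point i z) / (L : ℂ)) • metric L ψ i z) := by
  have hP := point_mem i z
  set P := point i z with hPdef
  set G := gG L ψ P with hG
  have hh : hC L ψ P ≠ 0 := hC_ne hP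
  have hLc : (L : ℂ) ≠ 0 := ofReal_ne_zero.2 hL.ne'
  have hrow : ∀ l, P ⬝ᵥ (fun x => G x l) = bv L ψ P l := fun l => congr_fun (hg.vecMul_gG hP) l
  have hPa : P ⬝ᵥ av L ψ P = hC L ψ P := hg.euler_dz hP
  have hPb : bv L ψ P ⬝ᵥ star P = hC L ψ P := by
    rw [dotProduct_comm]; exact hg.euler_dzb hP
  have hGP : G *ᵥ star P = av L ψ P := hg.gG_mulVec hP
  have hGe : ∀ l, G *ᵥ star (cv l) = fun x => G x l := fun l => by
    funext x; simp [cv, Matrix.mulVec, dotProduct, Pi.single_apply]
  have he : ∀ l (v : Hom), cv l ⬝ᵥ v = v l := fun l v => by simp [cv]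
  have hconj : ∀ l, conj (av L ψ P l) = bv L ψ P l := fun l =>
    conj_dz (hg.sm_hC.diffAt hP) hC_conj (cv l)
  obtain ⟨c1, c2⟩ := frame_col (L := L) (ψ := ψ) (i := i) P
  rw [metric_eq hL hg, hg.hs_lh hP]
  ext x y
  rw [sandwich]
  cases x using Fin.succAboveCases i <;> cases y using Fin.succAboveCases i <;>
    simp [c1, c2, star_sub, star_smul, hconj, hC_conj, Matrix.mulVec_sub, Matrix.mulVec_smul, hGP, hGe,
      sub_dotProduct, smul_dotProduct, dotProduct_sub, dotProduct_smul, hPa, hrow, he,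
      vecMulVec_apply, ← hG] <;>
    field_simp <;> ring

/-- A form of degree zero in the adapted frame. -/
theorem frame_hs (hF : Sm Ω F) (hd : Deg0 F) (i : Fin 9) (z : Chart) :
    (frame L ψ i (point i z))ᵀ * hs F (point i z) * (frame L ψ i (point i z)).map conj
      = blk i 0 ((hs F (point i z)).submatrix i.succAbove i.succAbove) := by
  have hP := point_mem i z
  set P := point i z with hPdef
  set H := hs F P with hH
  have hrow : ∀ l, P ⬝ᵥ (fun x => H x l) = 0 := fun l => congr_fun (deg0_vecMul_hs hF hd hP) l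
  have hHP : H *ᵥ star P = 0 := deg0_hs_mulVec hF hd hP
  have hHe : ∀ l, H *ᵥ star (cv l) = fun x => H x l := fun l => by
    funext x; simp [cv, Matrix.mulVec, dotProduct, Pi.single_apply]
  have he : ∀ l (v : Hom), cv l ⬝ᵥ v = v l := fun l v => by simp [cv]
  obtain ⟨c1, c2⟩ := frame_col (L := L) (ψ := ψ) (i := i) P
  ext x y
  rw [sandwich]
  cases x using Fin.succAboveCases i <;> cases y using Fin.succAboveCases i <;>
    simp [c1, c2, star_sub, star_smul, Matrix.mulVec_sub, Matrix.mulVec_smul, hHP, hHe,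
      sub_dotProduct, smul_dotProduct, hrow, he]

theorem exists_point {Z : Hom} (hZ : Z ∈ Ω) : ∃ (i : Fin 9) (z : Chart) (a : ℂ),
    a ≠ 0 ∧ Z = a • point i z := by
  obtain ⟨i, hi⟩ := Function.ne_iff.1 hZ
  refine ⟨i, fun j => Z (i.succAbove j) / Z i, Z i, hi, funext fun y => ?_⟩
  simp only [Pi.zero_apply] at hi
  cases y using Fin.succAboveCases i with
  | x => simp [point]
  | p j => simp [point]; field_simp

/-- A Kaehler potential has a positive cone metric. -/
theorem good_of_isKahler (hL : 0 < L) (h : IsKahlerPotential L ψ) : Good L ψ := by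
  have hg : Pre L ψ := ⟨h.smooth, h.scale⟩
  refine ⟨hg, fun Z hZ => ?_⟩
  obtain ⟨i, z, a, ha, rfl⟩ := exists_point hZ
  rw [hg.gG_smul ha (point_mem i z)]
  have hu : IsUnit ((frame L ψ i (point i z)).map conj) :=
    (Matrix.isUnit_iff_isUnit_det _).2 (by rw [frame_map_det (by simp [point])]; exact isUnit_one)
  rw [← hu.posDef_star_left_conjugate_iff]
  have e : star ((frame L ψ i (point i z)).map conj) = (frame L ψ i (point i z))ᵀ := by
    ext p q; simp
  rw [e, frame_gG hL hg i z]
  refine blk_posDef (hR_pos (point_mem i z)) ?_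
  rw [show hC L ψ (point i z) / (L : ℂ) = ((hR L ψ (point i z) / L : ℝ) : ℂ) by simp [hC]]
  exact (h.pos i z).smul (by exact_mod_cast div_pos (hR_pos (point_mem i z)) hL)

theorem Good.det_chart (hg : Good L ψ) (hL : 0 < L) (i : Fin 9) (z : Chart) :
    (gG L ψ (point i z)).det
      = hC L ψ (point i z) * (hC L ψ (point i z) / (L : ℂ)) ^ 8 * (metric L ψ i z).det := by
  have h := congrArg Matrix.det (frame_gG hL hg.toPre i z)
  rw [det_mul, det_mul, det_transpose, frame_det (by simp [point]),
    frame_map_det (by simp [point]), one_mul, mul_one, blk_det, det_smul, Fintype.card_fin] at h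
  rw [h]; ring

theorem Good.lap_chart (hg : Good L ψ) (hL : 0 < L) (hF : Sm Ω F) (hd : Deg0 F) (i : Fin 9)
    (z : Chart) :
    lap L ψ F (point i z) = (L : ℂ) / hC L ψ (point i z) *
      ((metric L ψ i z)⁻¹ * (hs F (point i z)).submatrix i.succAbove i.succAbove).trace := by
  have hP := point_mem i z
  set S := (frame L ψ i (point i z))ᵀ
  set U := (frame L ψ i (point i z)).map conj
  have hS : IsUnit S.det := by
    simp only [S, det_transpose, frame_det (P := point i z) (i := i) (by simp [point]),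
      isUnit_one]
  have hU : IsUnit U.det := by
    simp only [U, frame_map_det (P := point i z) (i := i) (by simp [point]), isUnit_one]
  have hh : hC L ψ (point i z) ≠ 0 := hC_ne hP
  have hLc : (L : ℂ) ≠ 0 := ofReal_ne_zero.2 hL.ne'
  have hm : IsUnit (metric L ψ i z).det := by
    rw [isUnit_iff_ne_zero]
    intro h0
    exact hg.det_ne hP (by rw [hg.det_chart hL, h0, mul_zero])
  have hinv : (S * gG L ψ (point i z) * U)⁻¹
      = blk i (hC L ψ (point i z))⁻¹ (((L : ℂ) / hC L ψ (point i z)) • (metric L ψ i z)⁻¹) := by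
    rw [frame_gG hL hg.toPre]
    refine Matrix.inv_eq_right_inv ?_
    rw [blk_mul, mul_inv_cancel₀ hh, smul_mul_smul_comm, Matrix.mul_nonsing_inv _ hm,
      div_mul_div_comm, mul_comm (L : ℂ), div_self (mul_ne_zero hh hLc), one_smul, blk_one]
  have key : ((S * gG L ψ (point i z) * U)⁻¹ * (S * hs F (point i z) * U)).trace
      = lap L ψ F (point i z) := by
    rw [Matrix.mul_inv_rev, Matrix.mul_inv_rev, Matrix.mul_assoc, trace_mul_comm]
    simp only [lap, gA, Matrix.mul_assoc]
    rw [Matrix.mul_nonsing_inv _ hU, Matrix.mul_one, ← Matrix.mul_assoc S⁻¹,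
      Matrix.nonsing_inv_mul _ hS, Matrix.one_mul]
  rw [← key, hinv, frame_hs hF hd, blk_mul, blk_trace, mul_zero, zero_add, Matrix.smul_mul,
    trace_smul, smul_eq_mul]

/-- The velocity of the flow in a chart. -/
theorem Good.vel_chart (hg : Good L ψ) (hL : 0 < L) (b : ℝ) (i : Fin 9) (z : Chart) :
    (vel L b ψ (point i z)).re = scalar L ψ i z - b := by
  have hP := point_mem i z
  have hh : hC L ψ (point i z) ≠ 0 := hC_ne hP
  have hLc : (L : ℂ) ≠ 0 := ofReal_ne_zero.2 hL.ne'
  let F : Hom → ℂ := fun x => dC L ψ x + (8 * Real.log L : ℝ) - 9 * lh L ψ x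
  have hF : Sm Ω F :=
    ⟨isOpen_Ω, (hg.sm_dC.smooth.add contDiffOn_const).sub
      (contDiffOn_const.mul hg.sm_lh.smooth)⟩
  have hlog : (fun w => Real.log ((metric L ψ i w).det.re)) = fun w => (F (point i w)).re := by
    funext w
    have hh0 := hR_pos (L := L) (ψ := ψ) (point_mem i w)
    have e : (metric L ψ i w).det
        = ((del L ψ (point i w) * L ^ 8 / hR L ψ (point i w) ^ 9 : ℝ) : ℂ) := by
      push_cast
      rw [hg.det_eq (point_mem i w), hg.det_chart hL]
      have : (hR L ψ (point i w) : ℂ) ≠ 0 := ofReal_ne_zero.2 hh0.ne'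
      simp only [hC]
      field_simp
    rw [e, ofReal_re, Real.log_div (mul_pos (hg.del_pos (point_mem i w)) (by positivity)).ne'
      (by positivity), Real.log_mul (hg.del_pos (point_mem i w)).ne' (by positivity),
      Real.log_pow, Real.log_pow]
    simp [F, dC, lh]
  have hFs : hs F (point i z) = hs (dC L ψ) (point i z) - (9 : ℂ) • hs (lh L ψ) (point i z) := by
    ext j k
    have e : EqOn (dzb (cv k) F)
        (fun x => dzb (cv k) (dC L ψ) x - 9 * dzb (cv k) (lh L ψ) x) Ω := fun x hx => by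
      rw [dzb_sub ((hg.sm_dC.diffAt hx).fun_add (differentiableAt_const _))
        ((hg.sm_lh.diffAt hx).const_mul 9), dzb_add (hg.sm_dC.diffAt hx) (differentiableAt_const _),
        dzb_const, add_zero, dzb_const_mul _ (hg.sm_lh.diffAt hx)]
    show dz (cv j) (dzb (cv k) F) (point i z) = _
    rw [dz_congr_on isOpen_Ω e hP, dz_sub ((hg.sm_dC.dzb' _).diffAt hP)
      (((hg.sm_lh.dzb' _).diffAt hP).const_mul 9), dz_const_mul _ ((hg.sm_lh.dzb' _).diffAt hP)]
    rfl
  have hsl : (hs (lh L ψ) (point i z)).submatrix i.succAbove i.succAbove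
      = (L : ℂ)⁻¹ • metric L ψ i z := by
    rw [metric_eq hL hg.toPre]
    ext; simp; field_simp
  have hm : IsUnit (metric L ψ i z).det := by
    rw [isUnit_iff_ne_zero]
    intro h0
    exact hg.det_ne hP (by rw [hg.det_chart hL, h0, mul_zero])
  have hsc : scalar L ψ i z = -((metric L ψ i z)⁻¹ *
      ((hs (dC L ψ) (point i z)).submatrix i.succAbove i.succAbove
        - ((9 : ℂ) / L) • metric L ψ i z)).trace.re := by
    rw [scalar, hlog, cHess_comp hF (fun x => by simp [F, dC_conj, lh_conj, map_ofNat]), hFs]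
    congr 4
    ext j k
    have := congr_fun (congr_fun hsl j) k
    simp only [submatrix_apply, Matrix.smul_apply, smul_eq_mul] at this
    simp [this]
    ring
  rw [hsc, Matrix.mul_sub, Matrix.mul_smul, Matrix.nonsing_inv_mul _ hm, trace_sub, trace_smul,
    trace_one, Fintype.card_fin, vel, hg.lap_chart hL hg.sm_dC hg.deg0_dC]
  field_simp
  simp
  field_simp
  ring

/-- The flow equation at every point of the cone. -/
theorem flow_eq {T b : ℝ} {ψ₀ : Hom → ℝ} {ψt : ℝ → Hom → ℝ} (hL : 0 < L)
    (h : IsCalabiFlow L T b ψ₀ ψt) {t : ℝ} (ht : t ∈ Ioo 0 T) {Z : Hom} (hZ : Z ∈ Ω) :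
    deriv (fun r => ψt r Z) t = (vel L b (ψt t) Z).re := by
  have hg := good_of_isKahler hL (h.kahler t (Ioo_subset_Icc_self ht))
  obtain ⟨i, z, a, ha, rfl⟩ := exists_point hZ
  have e : (fun r => ψt r (a • point i z)) =ᶠ[𝓝 t] fun r => ψt r (point i z) :=
    eventually_of_mem (Icc_mem_nhds ht.1 ht.2) fun r hr =>
      (h.kahler r hr).scale a _ ha (point_mem i z)
  rw [e.deriv_eq, h.eqn t ht, hg.deg0_vel b a _ ha (point_mem i z), hg.vel_chart hL]

end Vale.Agent.P264.Manifold

end
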