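import Mathlib
import Vale.Agent.P250.Disproof.Wirt
import Vale.Agent.P264.Manifold.Param
import Vale.Agent.P264.Manifold.Cone

/-!
The derivative of the velocity of the flow along a skew-Hermitian linear vector field.
-/

open scoped Topology ContDiff ComplexConjugate ComplexOrder
open Complex Filter Set Matrix
open Vale.Agent.P250.Disproof

noncomputable section

namespace Vale.Agent.P264.Manifold

/-- The derivative along the linear vector field of `M`. -/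
def xd (M : Matrix (Fin 9) (Fin 9) ℂ) (F : Hom → ℂ) (Z : Hom) : ℂ := dd (M *ᵥ Z) F Z

/-- Skew-Hermitian matrices. -/
def Skew (M : Matrix (Fin 9) (Fin 9) ℂ) : Prop := ∀ j k, conj (M j k) = -M k j

/-- The infinitesimal variation of a potential. -/
def wC (M : Matrix (Fin 9) (Fin 9) ℂ) (ψ : Hom → ℝ) : Hom → ℂ := xd M fun x => (ψ x : ℂ)

/-- Its rescaled Laplacian. -/
def uC (L : ℝ) (M : Matrix (Fin 9) (Fin 9) ℂ) (ψ : Hom → ℝ) (Z : Hom) : ℂ :=
  hC L ψ Z * lap L ψ (wC M ψ) Z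

variable {L : ℝ} {ψ : Hom → ℝ} {F K : Hom → ℂ} {Z : Hom} {M : Matrix (Fin 9) (Fin 9) ℂ}

theorem sm_mulVec (M : Matrix (Fin 9) (Fin 9) ℂ) (l : Fin 9) :
    Sm Ω fun x : Hom => (M *ᵥ x) l :=
  ⟨isOpen_Ω, (ContDiffOn.sum (t := Ω) fun m (_ : m ∈ (Finset.univ : Finset (Fin 9))) =>
    (contDiffOn_const (c := M l m)).mul (sm_coord m).smooth).congr fun _ _ => rfl⟩

theorem dz_mulVec (a : Hom) (l : Fin 9) (hZ : Z ∈ Ω) :
    dz a (fun x : Hom => (M *ᵥ x) l) Z = (M *ᵥ a) l := by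
  show dz a (fun x : Hom => ∑ m, M l m * x m) Z = _
  rw [dz_sum _ fun m _ => ((sm_coord m).diffAt hZ).const_mul _]
  simp [dz_const_mul _ ((sm_coord _).diffAt hZ), dz_coord, Matrix.mulVec, dotProduct]

theorem dzb_mulVec (a : Hom) (l : Fin 9) (hZ : Z ∈ Ω) :
    dzb a (fun x : Hom => (M *ᵥ x) l) Z = 0 := by
  show dzb a (fun x : Hom => ∑ m, M l m * x m) Z = _
  rw [dzb_sum _ fun m _ => ((sm_coord m).diffAt hZ).const_mul _]
  simp [dzb_const_mul _ ((sm_coord _).diffAt hZ), dzb_coord]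

theorem dz_mulVec_conj (a : Hom) (l : Fin 9) (hZ : Z ∈ Ω) :
    dz a (fun x : Hom => conj ((M *ᵥ x) l)) Z = 0 := by
  rw [dz_conj ((sm_mulVec M l).diffAt hZ), dzb_mulVec a l hZ, map_zero]

theorem dzb_mulVec_conj (a : Hom) (l : Fin 9) (hZ : Z ∈ Ω) :
    dzb a (fun x : Hom => conj ((M *ᵥ x) l)) Z = conj ((M *ᵥ a) l) := by
  rw [dzb_conj ((sm_mulVec M l).diffAt hZ), dz_mulVec a l hZ]

theorem mulVec_cv (j l : Fin 9) : (M *ᵥ cv j) l = M l j := by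
  simp [cv, Matrix.mulVec, dotProduct, Pi.single_apply]

theorem xd_eq (M : Matrix (Fin 9) (Fin 9) ℂ) (F : Hom → ℂ) (Z : Hom) :
    xd M F Z = ∑ l, ((M *ᵥ Z) l * dz (cv l) F Z + conj ((M *ᵥ Z) l) * dzb (cv l) F Z) := by
  rw [Finset.sum_add_distrib, ← dz_expand, ← dzb_expand]
  exact dd_eq _

theorem smP_xd {P : Set ℝ} {f : ℝ → Hom → ℂ} (hf : SmP P Ω f)
    (M : Matrix (Fin 9) (Fin 9) ℂ) : SmP P Ω fun t => xd M (f t) := by
  have hc : ∀ l, SmP P Ω fun _ (x : Hom) => (M *ᵥ x) l := fun l =>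
    ⟨hf.ud, isOpen_Ω, (sm_mulVec M l).smooth.comp contDiff_snd.contDiffOn fun _ hp => hp.2⟩
  refine (SmP.sum' Finset.univ hf.ud isOpen_Ω fun l _ =>
    ((hc l).mul' (hf.dz' (cv l))).add' ((hc l).conj'.mul' (hf.dzb' (cv l)))).congr
    fun t _ x _ => xd_eq M (f t) x

theorem sm_xd (hF : Sm Ω F) (M : Matrix (Fin 9) (Fin 9) ℂ) : Sm Ω (xd M F) :=
  (smP_xd (SmP.ofSm hF) M).slice (mem_univ (0 : ℝ))

theorem sum_xd (hF : Sm Ω F) (hZ : Z ∈ Ω) (v : Hom) :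
    ∑ l, ((M *ᵥ Z) l * dz v (dz (cv l) F) Z + conj ((M *ᵥ Z) l) * dz v (dzb (cv l) F) Z)
      = xd M (dz v F) Z := by
  simp only [dz_comm hF hZ v, dz_dzb_comm hF hZ v, ← xd_eq]

theorem dz_xd (hF : Sm Ω F) (hZ : Z ∈ Ω) (j : Fin 9) :
    dz (cv j) (xd M F) Z = xd M (dz (cv j) F) Z + ∑ l, M l j * dz (cv l) F Z := by
  rw [funext (xd_eq M F), dz_sum _ fun l _ => (((sm_mulVec M l).diffAt hZ).fun_mul
    ((hF.dz' _).diffAt hZ)).fun_add (((sm_mulVec M l).conj'.diffAt hZ).fun_mul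
    ((hF.dzb' _).diffAt hZ))]
  simp only [dz_add (((sm_mulVec M _).diffAt hZ).fun_mul ((hF.dz' _).diffAt hZ))
    (((sm_mulVec M _).conj'.diffAt hZ).fun_mul ((hF.dzb' _).diffAt hZ)),
    dz_mul ((sm_mulVec M _).diffAt hZ) ((hF.dz' _).diffAt hZ),
    dz_mul ((sm_mulVec M _).conj'.diffAt hZ) ((hF.dzb' _).diffAt hZ), dz_mulVec _ _ hZ,
    dz_mulVec_conj _ _ hZ, mulVec_cv, zero_mul, add_zero]
  rw [← sum_xd hF hZ, ← Finset.sum_add_distrib]
  exact Finset.sum_congr rfl fun l _ => by ring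

theorem dzb_xd (hF : Sm Ω F) (hZ : Z ∈ Ω) (k : Fin 9) :
    dzb (cv k) (xd M F) Z = xd M (dzb (cv k) F) Z + ∑ l, conj (M l k) * dzb (cv l) F Z := by
  rw [funext (xd_eq M F), dzb_sum _ fun l _ => (((sm_mulVec M l).diffAt hZ).fun_mul
    ((hF.dz' _).diffAt hZ)).fun_add (((sm_mulVec M l).conj'.diffAt hZ).fun_mul
    ((hF.dzb' _).diffAt hZ))]
  simp only [dzb_add (((sm_mulVec M _).diffAt hZ).fun_mul ((hF.dz' _).diffAt hZ))
    (((sm_mulVec M _).conj'.diffAt hZ).fun_mul ((hF.dzb' _).diffAt hZ)),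
    dzb_mul ((sm_mulVec M _).diffAt hZ) ((hF.dz' _).diffAt hZ),
    dzb_mul ((sm_mulVec M _).conj'.diffAt hZ) ((hF.dzb' _).diffAt hZ), dzb_mulVec _ _ hZ,
    dzb_mulVec_conj _ _ hZ, mulVec_cv, zero_mul, add_zero]
  rw [xd_eq, ← Finset.sum_add_distrib]
  refine Finset.sum_congr rfl fun l _ => ?_
  rw [dz_dzb_comm hF hZ (cv l) (cv k), dzb_comm hF hZ (cv l) (cv k)]
  ring

theorem hs_xd (hF : Sm Ω F) (hZ : Z ∈ Ω) :
    hs (xd M F) Z = em (dd (M *ᵥ Z)) (hs F) Z + Mᵀ * hs F Z + hs F Z * M.map conj := by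
  ext j k
  show dz (cv j) (dzb (cv k) (xd M F)) Z = _
  have hk := hF.dzb' (cv k)
  rw [dz_congr_on isOpen_Ω (fun x hx => dzb_xd hF hx k) hZ,
    dz_add ((sm_xd hk M).diffAt hZ)
      (DifferentiableAt.fun_sum fun l _ => ((hF.dzb' _).diffAt hZ).const_mul _),
    dz_xd hk hZ, dz_sum _ fun l _ => ((hF.dzb' _).diffAt hZ).const_mul _]
  simp only [dz_const_mul _ ((hF.dzb' _).diffAt hZ), Matrix.add_apply, Matrix.mul_apply,
    transpose_apply, map_apply]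
  exact congrArg₂ (· + ·) rfl (Finset.sum_congr rfl fun l _ => mul_comm _ _)

theorem hs_add (hF : Sm Ω F) (hK : Sm Ω K) (hZ : Z ∈ Ω) :
    hs (fun x => F x + K x) Z = hs F Z + hs K Z := by
  ext j k
  show dz _ (dzb _ fun x => F x + K x) Z = _
  rw [dz_congr_on isOpen_Ω (fun x hx => dzb_add (hF.diffAt hx) (hK.diffAt hx) (cv k)) hZ,
    dz_add ((hF.dzb' _).diffAt hZ) ((hK.dzb' _).diffAt hZ)]
  rfl

theorem dd_trace_mul {A B : Hom → Matrix (Fin 9) (Fin 9) ℂ}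
    (hA : ∀ j k, DifferentiableAt ℝ (fun x => A x j k) Z)
    (hB : ∀ j k, DifferentiableAt ℝ (fun x => B x j k) Z) (a : Hom) :
    dd a (fun x => (A x * B x).trace) Z
      = (em (dd a) A Z * B Z).trace + (A Z * em (dd a) B Z).trace := by
  simp only [Matrix.trace, Matrix.diag_apply, Matrix.mul_apply]
  rw [dd_sum _ fun j _ => DifferentiableAt.fun_sum fun k _ => (hA j k).fun_mul (hB k j)]
  simp only [dd_sum _ fun k _ => (hA _ k).fun_mul (hB k _), dd_mul (hA _ _) (hB _ _),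
    ← Finset.sum_add_distrib, em, of_apply]
  exact Finset.sum_congr rfl fun j _ => Finset.sum_congr rfl fun k _ => add_comm _ _

theorem Pre.sm_psi (hg : Pre L ψ) : Sm Ω fun x => (ψ x : ℂ) :=
  ⟨isOpen_Ω, ofRealCLM.contDiff.comp_contDiffOn hg.smooth⟩

theorem Pre.deg0_psi (hg : Pre L ψ) : Deg0 fun x => (ψ x : ℂ) := fun a Z ha hZ => by
  show (ψ (a • Z) : ℂ) = ψ Z
  rw [hg.scale a Z ha hZ]

theorem Pre.sm_wC (hg : Pre L ψ) : Sm Ω (wC M ψ) := sm_xd hg.sm_psi M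

theorem deg0_xd (hF : Sm Ω F) (hd : Deg0 F) : Deg0 (xd M F) := fun a Z ha hZ => by
  have hp : HasFDerivAt (fun y : Hom => a • y)
      ((a • ContinuousLinearMap.id ℂ Hom).restrictScalars ℝ) Z :=
    ((a • ContinuousLinearMap.id ℂ Hom).restrictScalars ℝ).hasFDerivAt
  have h := dd_comp_affine hp (hF.diffAt (smul_mem_Ω ha hZ)) (M *ᵥ Z)
  rw [dd_congr (φ := fun x => F (a • x)) (ψ := F)
    (eventually_of_mem (isOpen_Ω.mem_nhds hZ) fun x hx => hd a x ha hx)] at h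
  show dd (M *ᵥ (a • Z)) F (a • Z) = dd (M *ᵥ Z) F Z
  rw [h, Matrix.mulVec_smul]
  rfl

theorem Pre.deg0_wC (hg : Pre L ψ) : Deg0 (wC M ψ) := deg0_xd hg.sm_psi hg.deg0_psi

theorem xd_conj (hF : Sm Ω F) (hr : ∀ x, conj (F x) = F x) (hZ : Z ∈ Ω) :
    conj (xd M F Z) = xd M F Z :=
  conj_dd (hF.diffAt hZ) hr _

theorem Pre.wC_conj (hg : Pre L ψ) (hZ : Z ∈ Ω) : conj (wC M ψ Z) = wC M ψ Z :=
  xd_conj hg.sm_psi (fun _ => conj_ofReal _) hZ

theorem Good.sm_uC (hg : Good L ψ) : Sm Ω (uC L M ψ) :=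
  ⟨isOpen_Ω, hg.sm_hC.smooth.mul (hg.sm_lap hg.sm_wC).smooth⟩

theorem Good.deg0_uC (hg : Good L ψ) : Deg0 (uC L M ψ) := hg.deg0_hlap hg.sm_wC hg.deg0_wC

theorem Skew.trace_add (hM : Skew M) : Mᵀ.trace + (M.map conj).trace = 0 := by
  simp [Matrix.trace, hM _ _]

theorem Pre.xd_hC (hg : Pre L ψ) (hM : Skew M) (hZ : Z ∈ Ω) :
    xd M (hC L ψ) Z = hC L ψ Z * wC M ψ Z / (L : ℂ) := by
  have hN : DifferentiableAt ℝ (fun x : Hom => (nR x : ℂ)) Z :=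
    (ofRealCLM.contDiff.comp contDiff_nR).differentiable (by simp) Z
  have hp := hg.sm_psi.diffAt hZ
  have hN0 : dd (M *ᵥ Z) (fun x : Hom => (nR x : ℂ)) Z = 0 := by
    rw [show (fun x : Hom => (nR x : ℂ)) = fun x => ∑ l, x l * conj (x l) from funext fun x => by
      simp [nR, Complex.mul_conj'],
      dd_sum _ fun l _ => ((sm_coord l).diffAt hZ).fun_mul ((sm_coord_conj l).diffAt hZ)]
    simp only [dd_mul ((sm_coord _).diffAt hZ) ((sm_coord_conj _).diffAt hZ), dd_eq,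
      dz_coord, dzb_coord, dz_coord_conj, dzb_coord_conj, add_zero, zero_add]
    simp only [Matrix.mulVec, dotProduct, map_sum, map_mul, hM _ _, Finset.mul_sum,
      Finset.sum_mul, Finset.sum_add_distrib]
    rw [Finset.sum_comm, ← Finset.sum_add_distrib]
    refine Finset.sum_eq_zero fun l _ => ?_
    rw [← Finset.sum_add_distrib]
    exact Finset.sum_eq_zero fun m _ => by ring
  have hF : ∀ w : ℂ, HasDerivAt (fun w : ℂ => cexp (w / L)) (cexp (w / L) * (1 / L)) w :=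
    fun w => ((hasDerivAt_id w).div_const (L : ℂ)).cexp
  have e : hC L ψ = fun x => (nR x : ℂ) * cexp ((ψ x : ℂ) / L) := funext fun x => by
    simp [hC, hR]
  have hc : DifferentiableAt ℝ (fun x : Hom => cexp ((ψ x : ℂ) / L)) Z :=
    ((hF _).differentiableAt.restrictScalars ℝ).comp Z hp
  rw [xd, e, dd_mul hN hc, dd_comp (F := fun w : ℂ => cexp (w / L)) (hF _) hp, hN0]
  simp only [wC, xd]
  ring

/-- The variation of the metric. -/
theorem Good.xd_gG (hg : Good L ψ) (hM : Skew M) (hZ : Z ∈ Ω) :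
    em (dd (M *ᵥ Z)) (gG L ψ) Z = (L : ℂ)⁻¹ • hs (fun x => hC L ψ x * wC M ψ x) Z
      - Mᵀ * gG L ψ Z - gG L ψ Z * M.map conj := by
  have h := hs_xd (M := M) hg.sm_hC hZ
  rw [hs_congr (F' := fun x => (L : ℂ)⁻¹ * (hC L ψ x * wC M ψ x))
    (fun x hx => by rw [hg.xd_hC hM hx]; ring) hZ,
    hs_const_mul (F := fun x => hC L ψ x * wC M ψ x) _
      ⟨isOpen_Ω, hg.sm_hC.smooth.mul hg.sm_wC.smooth⟩ hZ] at h
  rw [h, show gG L ψ = hs (hC L ψ) from rfl]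
  abel

theorem Good.adjugate_eq (hg : Good L ψ) (hZ : Z ∈ Ω) :
    (gG L ψ Z).adjugate = (del L ψ Z : ℂ) • gA L ψ Z := by
  rw [gA, Matrix.inv_def, smul_smul, hg.det_eq hZ, Ring.inverse_eq_inv',
    mul_inv_cancel₀ (hg.det_ne hZ), one_smul]

theorem Good.diff_gG (hg : Good L ψ) (hZ : Z ∈ Ω) (j k : Fin 9) :
    DifferentiableAt ℝ (fun x => gG L ψ x j k) Z := (hg.sm_gG j k).diffAt hZ

theorem Good.diff_gA (hg : Good L ψ) (hZ : Z ∈ Ω) (j k : Fin 9) :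
    DifferentiableAt ℝ (fun x => gA L ψ x j k) Z := (hg.sm_gA j k).diffAt hZ

/-- The variation of the logarithm of the volume. -/
theorem Good.xd_dC (hg : Good L ψ) (hM : Skew M) (hZ : Z ∈ Ω) :
    xd M (dC L ψ) Z = (L : ℂ)⁻¹ * (9 * wC M ψ Z + uC L M ψ Z) := by
  have hd : DifferentiableAt ℝ (del L ψ) Z := by
    have := reCLM.differentiableAt.comp Z (hg.sm_del.diffAt hZ)
    exact this.congr_of_eventuallyEq (Eventually.of_forall fun x => by simp)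
  rw [xd, show dC L ψ = fun x => ((Real.log (del L ψ x) : ℝ) : ℂ) from rfl,
    dd_real_comp (Real.hasDerivAt_log (hg.del_pos hZ).ne') hd,
    dd_congr (ψ := fun x => (gG L ψ x).det)
      (eventually_of_mem (isOpen_Ω.mem_nhds hZ) fun x hx => hg.det_eq hx),
    dd_det (hg.diff_gG hZ), hg.adjugate_eq hZ, Matrix.smul_mul, trace_smul, smul_eq_mul,
    ofReal_inv, inv_mul_cancel_left₀ (ofReal_ne_zero.2 (hg.del_pos hZ).ne'), hg.xd_gG hM hZ]
  have h1 : (gA L ψ Z * hs (fun x => hC L ψ x * wC M ψ x) Z).trace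
      = 9 * wC M ψ Z + uC L M ψ Z := hg.lap_hmul hg.sm_wC hg.deg0_wC hZ
  simp only [Matrix.mul_sub, Matrix.mul_smul, trace_sub, trace_smul, smul_eq_mul, h1]
  rw [trace_mul_comm (gA L ψ Z) (Mᵀ * gG L ψ Z), Matrix.mul_assoc, hg.mul_gA hZ, mul_one,
    ← Matrix.mul_assoc (gA L ψ Z), hg.gA_mul hZ, one_mul]
  linear_combination -hM.trace_add

/-- The variation of the velocity. -/
theorem Good.xd_vel (hg : Good L ψ) (hM : Skew M) (b : ℝ) (hZ : Z ∈ Ω) :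
    xd M (vel L b ψ) Z
      = (hC L ψ Z ^ 2 * (gA L ψ Z * hs (wC M ψ) Z * gA L ψ Z * hs (dC L ψ) Z).trace
          - 9 * uC L M ψ Z - hC L ψ Z * lap L ψ (uC L M ψ) Z) / (L : ℂ) ^ 2 := by
  set a := M *ᵥ Z with ha
  set A := gA L ψ Z with hA
  set G := gG L ψ Z with hG
  set H := hs (dC L ψ) Z with hH
  have hdA : em (dd a) (gA L ψ) Z = -(A * em (dd a) (gG L ψ) Z * A) :=
    dd_inv isOpen_Ω hZ hg.isUnit (hg.diff_gG hZ) (hg.diff_gA hZ) a
  have hdH : em (dd a) (hs (dC L ψ)) Z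
      = (L : ℂ)⁻¹ • ((9 : ℂ) • hs (wC M ψ) Z + hs (uC L M ψ) Z) - Mᵀ * H - H * M.map conj := by
    have h := hs_xd (M := M) hg.sm_dC hZ
    rw [hs_congr (F' := fun x => (L : ℂ)⁻¹ * (9 * wC M ψ x + uC L M ψ x))
      (fun x hx => hg.xd_dC hM hx) hZ,
      hs_const_mul (F := fun x => 9 * wC M ψ x + uC L M ψ x) _
        ⟨isOpen_Ω, (contDiffOn_const.mul hg.sm_wC.smooth).add hg.sm_uC.smooth⟩ hZ,
      hs_add (F := fun x => 9 * wC M ψ x) ⟨isOpen_Ω, contDiffOn_const.mul hg.sm_wC.smooth⟩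
        hg.sm_uC hZ, hs_const_mul _ hg.sm_wC hZ] at h
    rw [h]
    abel
  have hK : (A * hs (fun x => hC L ψ x * wC M ψ x) Z * A * H).trace
      = wC M ψ Z * lap L ψ (dC L ψ) Z + hC L ψ Z * (A * hs (wC M ψ) Z * A * H).trace := by
    rw [hs_mul hg.sm_hC hg.sm_wC hZ]
    change (A * (wC M ψ Z • G + hC L ψ Z • hs (wC M ψ) Z
      + vecMulVec (av L ψ Z) (fun k => dzb (cv k) (wC M ψ) Z)
      + vecMulVec (fun j => dz (cv j) (wC M ψ) Z) (bv L ψ Z)) * A * H).trace = _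
    simp only [Matrix.mul_add, Matrix.add_mul, Matrix.mul_smul, Matrix.smul_mul, trace_add,
      trace_smul, smul_eq_mul, mul_vecMulVec, vecMulVec_mul, trace_vecMulVec]
    rw [hA, hG, hg.gA_mul hZ, one_mul, hg.gA_av hZ, hg.bv_gA hZ, hH,
      deg0_vecMul_hs hg.sm_dC hg.deg0_dC hZ, dotProduct_zero,
      dotProduct_comm (star Z), ← dotProduct_mulVec, deg0_hs_mulVec hg.sm_dC hg.deg0_dC hZ,
      dotProduct_zero, lap]
    ring
  have hlap : dd a (fun x => lap L ψ (dC L ψ) x) Z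
      = (L : ℂ)⁻¹ * (9 * lap L ψ (wC M ψ) Z + lap L ψ (uC L M ψ) Z
          - (wC M ψ Z * lap L ψ (dC L ψ) Z
            + hC L ψ Z * (A * hs (wC M ψ) Z * A * H).trace)) := by
    show dd a (fun x => (gA L ψ x * hs (dC L ψ) x).trace) Z = _
    rw [dd_trace_mul (A := gA L ψ) (B := hs (dC L ψ)) (hg.diff_gA hZ)
      (fun j k => ((hg.sm_dC.dzb' _).dz' _).diffAt hZ), hdA, hdH, hg.xd_gG hM hZ, ← hG, ← hA,
      ← hH, ← hK]
    simp only [Matrix.neg_mul, Matrix.mul_sub, Matrix.sub_mul, Matrix.mul_smul, Matrix.smul_mul,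
      Matrix.mul_add, trace_neg, trace_sub, trace_smul, trace_add, smul_eq_mul, lap, ← hA]
    have e1 : (A * (Mᵀ * G) * A * H).trace = (A * (Mᵀ * H)).trace := by
      simp only [Matrix.mul_assoc, hA, hG]
      rw [← Matrix.mul_assoc (gG L ψ Z), hg.mul_gA hZ, one_mul]
    have e2 : (A * (G * M.map conj) * A * H).trace = (A * (H * M.map conj)).trace := by
      rw [← Matrix.mul_assoc A G, hA, hG, hg.gA_mul hZ, one_mul, Matrix.mul_assoc, trace_mul_comm,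
        Matrix.mul_assoc]
    rw [e1, e2]
    ring
  have hd1 := hg.sm_hC.diffAt hZ
  have hd2 := (hg.sm_lap hg.sm_dC).diffAt hZ
  rw [xd, show vel L b ψ = fun x => ((72 / L - b : ℝ) : ℂ)
      - (L : ℂ)⁻¹ * (hC L ψ x * lap L ψ (dC L ψ) x) from funext fun x => by simp [vel]; ring,
    dd_sub (differentiableAt_const _) ((hd1.fun_mul hd2).const_mul _), dd_const,
    dd_mul (differentiableAt_const _) (hd1.fun_mul hd2), dd_const, dd_mul hd1 hd2, hlap]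
  have e : dd (M *ᵥ Z) (hC L ψ) Z = hC L ψ Z * wC M ψ Z / (L : ℂ) := hg.xd_hC hM hZ
  rw [e, uC]
  ring

end Vale.Agent.P264.Manifold

end
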