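import Mathlib
import Vale.Agent.P264.Manifold.Linear

/-!
Integration by parts and Green's identity for the cone metric against cutoffs of the cone
potential.
-/

open scoped Topology ContDiff ComplexConjugate ComplexOrder
open Complex Filter Set Matrix MeasureTheory
open Vale.Agent.P250.Disproof

noncomputable section

namespace Vale.Agent.P264.Manifold

variable {L : ℝ} {ψ : Hom → ℝ} {F K : Hom → ℂ} {Z : Hom} {C : Set Hom} {χ : ℝ → ℝ}

/-- The pairing of the differentials. -/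
def pair (L : ℝ) (ψ : Hom → ℝ) (F K : Hom → ℂ) (Z : Hom) : ℂ :=
  ∑ k, ∑ j, dz (cv j) F Z * gA L ψ Z k j * dzb (cv k) K Z

variable {a b : ℝ}

/-- The level shells of the cone potential are compact. -/
theorem exists_compact_level (hg : Pre L ψ) (hχ : ∀ r, r ∉ Icc a b → χ r = 0) (ha : 0 < a) :
    ∃ C : Set Hom, IsCompact C ∧ C ⊆ Ω ∧ ∀ x ∉ C, χ (hR L ψ x) = 0 := by
  have hS : Metric.sphere (0 : Hom) 1 ⊆ Ω := fun x hx h0 => by
    rw [mem_singleton_iff] at h0
    simp [h0] at hx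
  have hc : ContinuousOn (hR L ψ) Ω := contDiff_nR.continuous.continuousOn.mul
    ((hg.smooth.continuousOn.div_const L).rexp)
  obtain ⟨m, hm, hmle⟩ := (isCompact_sphere (0 : Hom) 1).exists_isMinOn
    (NormedSpace.sphere_nonempty.2 zero_le_one) (hc.mono hS)
  obtain ⟨M, hM, hleM⟩ := (isCompact_sphere (0 : Hom) 1).exists_isMaxOn
    (NormedSpace.sphere_nonempty.2 zero_le_one) (hc.mono hS)
  have hmp : 0 < hR L ψ m := hR_pos (hS hm)
  have hMp : 0 < hR L ψ M := hR_pos (hS hM)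
  let r₀ : ℝ := Real.sqrt (a / hR L ψ M)
  let r₁ : ℝ := Real.sqrt (b / hR L ψ m)
  refine ⟨Metric.closedBall 0 r₁ ∩ {x | r₀ ≤ ‖x‖},
    (isCompact_closedBall _ _).inter_right (isClosed_le continuous_const continuous_norm),
    fun x hx h0 => ?_, fun x hx => hχ _ fun hI => hx ?_⟩
  · rw [mem_singleton_iff] at h0
    have : 0 < r₀ := Real.sqrt_pos.2 (div_pos ha hMp)
    simp only [h0, mem_inter_iff, mem_ofPred_eq, norm_zero] at hx
    linarith [hx.2]
  · rcases eq_or_ne x 0 with rfl | hx0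
    · have h00 : hR L ψ 0 = 0 := by simp [hR, nR]
      linarith [hI.1]
    have hn : 0 < ‖x‖ := norm_pos_iff.2 hx0
    set u : Hom := ((‖x‖⁻¹ : ℝ) : ℂ) • x with hu
    have hne : ((‖x‖⁻¹ : ℝ) : ℂ) ≠ 0 := ofReal_ne_zero.2 (inv_ne_zero hn.ne')
    have huS : u ∈ Metric.sphere (0 : Hom) 1 := by
      simp [hu, norm_smul, inv_mul_cancel₀ hn.ne']
    have e : hR L ψ x = ‖x‖ ^ 2 * hR L ψ u := by
      simp only [hu, hR, nR_smul, hg.scale _ x hne hx0, norm_real, Real.norm_eq_abs, sq_abs]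
      field_simp
    refine ⟨mem_closedBall_zero_iff.2 (Real.le_sqrt_of_sq_le ?_), (Real.sqrt_le_left hn.le).2 ?_⟩
    · rw [le_div_iff₀ hmp]
      calc ‖x‖ ^ 2 * hR L ψ m ≤ ‖x‖ ^ 2 * hR L ψ u :=
            mul_le_mul_of_nonneg_left (isMinOn_iff.1 hmle u huS) (sq_nonneg _)
        _ ≤ b := e ▸ hI.2
    · rw [div_le_iff₀ hMp]
      calc a ≤ ‖x‖ ^ 2 * hR L ψ u := e ▸ hI.1
        _ ≤ ‖x‖ ^ 2 * hR L ψ M :=
            mul_le_mul_of_nonneg_left (isMaxOn_iff.1 hleM u huS) (sq_nonneg _)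

/-- The cofactors of the cone metric are divergence free. -/
theorem Good.div_adj (hg : Good L ψ) (hZ : Z ∈ Ω) (k : Fin 9) :
    ∑ j, dz (cv j) (fun x => gA L ψ x k j * (del L ψ x : ℂ)) Z = 0 := by
  have hd := hg.sm_del.diffAt hZ
  set A := gA L ψ Z with hA
  set D : Fin 9 → Matrix (Fin 9) (Fin 9) ℂ := fun j => em (dz (cv j)) (gG L ψ) Z with hD
  have hsym : ∀ j l m, D j l m = D l j m := fun j l m =>
    dz_comm (hg.sm_hC.dzb' (cv m)) hZ (cv j) (cv l)
  have h1 : ∀ j, dz (cv j) (fun x => (del L ψ x : ℂ)) Z = (del L ψ Z : ℂ) * (A * D j).trace := by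
    intro j
    rw [dz_congr_on isOpen_Ω (fun x hx => hg.det_eq hx) hZ, dz_det (hg.diff_gG hZ),
      hg.adjugate_eq hZ, Matrix.smul_mul, trace_smul, smul_eq_mul]
  have h2 : ∀ j, dz (cv j) (fun x => gA L ψ x k j) Z = -((A * D j * A) k j) := fun j =>
    congrFun (congrFun (dz_inv isOpen_Ω hZ hg.isUnit (hg.diff_gG hZ) (hg.diff_gA hZ) (cv j)) k) j
  simp only [dz_mul (hg.diff_gA hZ k _) hd, h1, h2, Finset.sum_add_distrib, ← hA]
  have h3 : ∑ j, A k j * (A * D j).trace = ∑ j, (A * D j * A) k j := by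
    simp only [Matrix.trace, Matrix.diag_apply, Matrix.mul_apply, Finset.mul_sum, Finset.sum_mul]
    rw [Finset.sum_comm]
    conv_rhs => rw [Finset.sum_comm]
    refine Finset.sum_congr rfl fun m _ => ?_
    rw [Finset.sum_comm]
    refine Finset.sum_congr rfl fun l _ => Finset.sum_congr rfl fun j _ => ?_
    rw [hsym j l m]
    ring
  calc _ = (del L ψ Z : ℂ) * (∑ j, A k j * (A * D j).trace - ∑ j, (A * D j * A) k j) := by
          rw [mul_sub, Finset.mul_sum, Finset.mul_sum, sub_eq_add_neg, ← Finset.sum_neg_distrib]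
          exact congrArg₂ (· + ·) (Finset.sum_congr rfl fun _ _ => by ring)
            (Finset.sum_congr rfl fun _ _ => by ring)
    _ = 0 := by rw [h3, sub_self, mul_zero]

/-- A smooth function with compact support in `Ω` is smooth everywhere. -/
theorem contDiff_of_support (hF : Sm Ω F) (hC : IsCompact C) (hCΩ : C ⊆ Ω)
    (h0 : ∀ x ∉ C, F x = 0) : ContDiff ℝ ∞ F :=
  contDiff_iff_contDiffAt.2 fun x => by
    by_cases hx : x ∈ C
    · exact hF.cda (hCΩ hx)
    · exact contDiffAt_const.congr_of_eventuallyEq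
        (eventuallyEq_of_mem (hC.isClosed.isOpen_compl.mem_nhds hx) h0)

/-- A function continuous on `Ω` with compact support in `Ω` is integrable. -/
theorem integrable_of_support (hF : ContinuousOn F Ω) (hC : IsCompact C) (hCΩ : C ⊆ Ω)
    (h0 : ∀ x ∉ C, F x = 0) : Integrable F :=
  ((hF.mono hCΩ).integrableOn_compact hC).integrable_of_forall_notMem_eq_zero h0

theorem integral_dd_eq_zero (hF : Sm Ω F) (hC : IsCompact C) (hCΩ : C ⊆ Ω)
    (h0 : ∀ x ∉ C, F x = 0) (v : Hom) : ∫ x, dd v F x = 0 := by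
  have hd := contDiff_of_support hF hC hCΩ h0
  have hs : HasCompactSupport F := HasCompactSupport.intro hC h0
  have hc : Continuous fun x => fderiv ℝ F x v :=
    (hd.continuous_fderiv (by simp)).clm_apply continuous_const
  have hs' : HasCompactSupport fun x => fderiv ℝ F x v := HasCompactSupport.intro hC fun x hx => by
    rw [(eventuallyEq_of_mem (hC.isClosed.isOpen_compl.mem_nhds hx) h0 :
      F =ᶠ[𝓝 x] fun _ => (0 : ℂ)).fderiv_eq]
    simp
  have := integral_mul_fderiv_eq_neg_fderiv_mul_of_integrable (f := fun _ : Hom => (1 : ℂ))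
    (g := F) (v := v) (μ := volume) (by simp [fderiv_fun_const])
    (by simpa using hc.integrable_of_hasCompactSupport hs')
    (by simpa using hd.continuous.integrable_of_hasCompactSupport hs)
    (fun _ _ => differentiableAt_const _) fun x _ => hd.differentiable (by simp) x
  simpa [dd, fderiv_fun_const] using this

theorem integral_dz_eq_zero (hF : Sm Ω F) (hC : IsCompact C) (hCΩ : C ⊆ Ω)
    (h0 : ∀ x ∉ C, F x = 0) (v : Hom) : ∫ x, dz v F x = 0 := by
  have hi : ∀ w, Integrable fun x => dd w F x := fun w =>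
    integrable_of_support (hF.dd' w).smooth.continuousOn hC hCΩ fun x hx => by
      simp only [dd]
      rw [(eventuallyEq_of_mem (hC.isClosed.isOpen_compl.mem_nhds hx) h0 :
        F =ᶠ[𝓝 x] fun _ => (0 : ℂ)).fderiv_eq]
      simp
  simp only [dz]
  rw [integral_const_mul, integral_sub (hi v) ((hi _).const_mul I), integral_const_mul,
    integral_dd_eq_zero hF hC hCΩ h0, integral_dd_eq_zero hF hC hCΩ h0]
  simp

theorem Good.sm_pair (hg : Good L ψ) (hF : Sm Ω F) (hK : Sm Ω K) : Sm Ω (pair L ψ F K) :=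
  ⟨isOpen_Ω, ContDiffOn.sum fun k _ => ContDiffOn.sum fun j _ =>
    (((hF.dz' _).smooth.mul (hg.sm_gA k j).smooth).mul (hK.dzb' _).smooth)⟩

theorem Pre.sm_cut (hg : Pre L ψ) (hχ : ContDiff ℝ ∞ χ) :
    Sm Ω fun x => (χ (hR L ψ x) : ℂ) :=
  ⟨isOpen_Ω, ofRealCLM.contDiff.comp_contDiffOn (hχ.comp_contDiffOn
    ((reCLM.contDiff.comp_contDiffOn hg.sm_hC.smooth).congr fun x _ => by simp [hC]))⟩

/-- Integration by parts against a cutoff of the cone potential. -/
theorem Good.parts (hg : Good L ψ) (hχ : ContDiff ℝ ∞ χ) (hC : IsCompact C) (hCΩ : C ⊆ Ω)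
    (h0 : ∀ x ∉ C, χ (hR L ψ x) = 0) (hF : Sm Ω F) (hK : Sm Ω K) (hd : Deg0 K) :
    ∫ x, (χ (hR L ψ x) : ℂ) * F x * lap L ψ K x * (del L ψ x : ℂ)
      = -∫ x, (χ (hR L ψ x) : ℂ) * pair L ψ F K x * (del L ψ x : ℂ) := by
  set c : Hom → ℂ := fun x => (χ (hR L ψ x) : ℂ) with hc
  have hcs : Sm Ω c := hg.sm_cut hχ
  let U : Fin 9 → Fin 9 → Hom → ℂ := fun k j x =>
    c x * F x * dzb (cv k) K x * (gA L ψ x k j * (del L ψ x : ℂ))
  have hU : ∀ k j, Sm Ω (U k j) := fun k j => ⟨isOpen_Ω,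
    ((hcs.smooth.mul hF.smooth).mul (hK.dzb' _).smooth).mul
      ((hg.sm_gA k j).smooth.mul hg.sm_del.smooth)⟩
  have hU0 : ∀ k j, ∀ x ∉ C, U k j x = 0 := fun k j x hx => by simp [U, c, h0 x hx]
  have hpt : ∀ x ∈ Ω, ∑ k, ∑ j, dz (cv j) (U k j) x
      = c x * F x * lap L ψ K x * (del L ψ x : ℂ) + c x * pair L ψ F K x * (del L ψ x : ℂ) := by
    intro x hx
    have e : ∀ k j, dz (cv j) (U k j) x
        = c x * F x * dzb (cv k) K x * dz (cv j) (fun y => gA L ψ y k j * (del L ψ y : ℂ)) x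
          + c x * F x * dz (cv j) (dzb (cv k) K) x * gA L ψ x k j * (del L ψ x : ℂ)
          + c x * dz (cv j) F x * gA L ψ x k j * dzb (cv k) K x * (del L ψ x : ℂ)
          + dz (cv j) c x * F x * gA L ψ x k j * dzb (cv k) K x * (del L ψ x : ℂ) := by
      intro k j
      have d1 := hcs.diffAt hx
      have d2 := hF.diffAt hx
      have d3 := (hK.dzb' (cv k)).diffAt hx
      rw [dz_mul ((d1.fun_mul d2).fun_mul d3) (((hg.sm_gA k j).diffAt hx).fun_mul
        (hg.sm_del.diffAt hx)), dz_mul (d1.fun_mul d2) d3, dz_mul d1 d2]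
      ring
    simp only [e, Finset.sum_add_distrib, ← Finset.mul_sum, hg.div_adj hx, mul_zero,
      zero_add]
    have z : ∑ k, ∑ j, dz (cv j) c x * F x * gA L ψ x k j * dzb (cv k) K x * (del L ψ x : ℂ) = 0 := by
      have hh : DifferentiableAt ℝ (hR L ψ) x :=
        (reCLM.differentiableAt.comp x (hg.sm_hC.diffAt hx)).congr_of_eventuallyEq
          (Eventually.of_forall fun y => by simp [Manifold.hC])
      have dc : ∀ j, dz (cv j) c x = ((deriv χ (hR L ψ x) : ℝ) : ℂ) * av L ψ x j := fun j =>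
        dz_real_comp ((hχ.differentiable (by simp) _).hasDerivAt) hh (cv j)
      have ga : ∀ k, ∑ j, gA L ψ x k j * av L ψ x j = conj (x k) := fun k =>
        congrFun (hg.gA_av hx) k
      calc _ = ∑ k, (((deriv χ (hR L ψ x) : ℝ) : ℂ) * F x * (del L ψ x : ℂ)) *
            ((∑ j, gA L ψ x k j * av L ψ x j) * dzb (cv k) K x) :=
            Finset.sum_congr rfl fun k _ => by
              rw [Finset.sum_mul, Finset.mul_sum]
              exact Finset.sum_congr rfl fun j _ => by rw [dc]; ring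
        _ = 0 := by simp only [ga, ← Finset.mul_sum, deg0_dzb hK hd hx, mul_zero]
    rw [z, add_zero]
    congr 1
    · simp only [lap, hs, Matrix.trace, Matrix.diag_apply, Matrix.mul_apply, Matrix.of_apply,
        Finset.sum_mul, Finset.mul_sum]
      exact Finset.sum_congr rfl fun k _ => Finset.sum_congr rfl fun j _ => by ring
    · simp only [pair, Finset.sum_mul, Finset.mul_sum]
      exact Finset.sum_congr rfl fun k _ => Finset.sum_congr rfl fun j _ => by ring
  have hlap := hg.sm_lap hK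
  have hp := hg.sm_pair hF hK
  have i1 : Integrable fun x => c x * F x * lap L ψ K x * (del L ψ x : ℂ) :=
    integrable_of_support (((hcs.smooth.mul hF.smooth).mul hlap.smooth).mul
      hg.sm_del.smooth).continuousOn hC hCΩ fun x hx => by simp [c, h0 x hx]
  have i2 : Integrable fun x => c x * pair L ψ F K x * (del L ψ x : ℂ) :=
    integrable_of_support ((hcs.smooth.mul hp.smooth).mul hg.sm_del.smooth).continuousOn
      hC hCΩ fun x hx => by simp [c, h0 x hx]
  have hz : ∀ k j, Integrable fun x => dz (cv j) (U k j) x := fun k j =>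
    integrable_of_support ((hU k j).dz' _).smooth.continuousOn hC hCΩ fun x hx => by
      rw [dz_congr (eventuallyEq_of_mem (hC.isClosed.isOpen_compl.mem_nhds hx) (hU0 k j)) (cv j),
        dz_const]
  have hall : ∀ x, ∑ k, ∑ j, dz (cv j) (U k j) x
      = c x * F x * lap L ψ K x * (del L ψ x : ℂ) + c x * pair L ψ F K x * (del L ψ x : ℂ) := by
    intro x
    by_cases hx : x ∈ C
    · exact hpt x (hCΩ hx)
    · have : ∀ k j, dz (cv j) (U k j) x = 0 := fun k j => by
        rw [dz_congr (eventuallyEq_of_mem (hC.isClosed.isOpen_compl.mem_nhds hx) (hU0 k j)) (cv j),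
          dz_const]
      simp [this, c, h0 x hx]
  have hsum : ∫ x, ∑ k, ∑ j, dz (cv j) (U k j) x = 0 := by
    rw [integral_finsetSum _ fun k _ => integrable_finsetSum _ fun j _ => hz k j]
    exact Finset.sum_eq_zero fun k _ => by
      rw [integral_finsetSum _ fun j _ => hz k j]
      exact Finset.sum_eq_zero fun j _ => integral_dz_eq_zero (hU k j) hC hCΩ (hU0 k j) _
  simp only [hall] at hsum
  rw [integral_add i1 i2] at hsum
  exact eq_neg_of_add_eq_zero_left hsum

theorem Good.gA_conj (hg : Good L ψ) (hZ : Z ∈ Ω) (j k : Fin 9) :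
    conj (gA L ψ Z j k) = gA L ψ Z k j := by
  have h : (gA L ψ Z)ᴴ = gA L ψ Z := by
    rw [gA, Matrix.conjTranspose_nonsing_inv, gG, hs_conjTranspose hg.sm_hC hC_conj hZ]
  exact congrFun (congrFun h k) j

theorem Good.conj_pair (hg : Good L ψ) (hF : Sm Ω F) (hK : Sm Ω K) (hrF : ∀ x, conj (F x) = F x)
    (hrK : ∀ x, conj (K x) = K x) (hZ : Z ∈ Ω) :
    conj (pair L ψ F K Z) = pair L ψ K F Z := by
  simp only [pair, map_sum, map_mul, hg.gA_conj hZ, conj_dz (hF.diffAt hZ) hrF,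
    conj_dzb (hK.diffAt hZ) hrK]
  rw [Finset.sum_comm]
  exact Finset.sum_congr rfl fun k _ => Finset.sum_congr rfl fun j _ => by ring

theorem Good.pair_nonneg (hg : Good L ψ) (hF : Sm Ω F) (hrF : ∀ x, conj (F x) = F x)
    (hZ : Z ∈ Ω) : 0 ≤ pair L ψ F F Z := by
  have h := (hg.pos Z hZ).inv.posSemidef.dotProduct_mulVec_nonneg fun j => dz (cv j) F Z
  refine h.trans_eq ?_
  simp only [pair, dotProduct, Matrix.mulVec, Pi.star_apply, Complex.star_def,
    conj_dz (hF.diffAt hZ) hrF, Finset.mul_sum, gA]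
  exact Finset.sum_congr rfl fun k _ => Finset.sum_congr rfl fun j _ => by ring

/-- Green's identity for real functions of degree zero. -/
theorem Good.green (hg : Good L ψ) (hχ : ContDiff ℝ ∞ χ) (hC : IsCompact C) (hCΩ : C ⊆ Ω)
    (h0 : ∀ x ∉ C, χ (hR L ψ x) = 0) (hF : Sm Ω F) (hdF : Deg0 F) (hrF : ∀ x, conj (F x) = F x)
    (hK : Sm Ω K) (hdK : Deg0 K) (hrK : ∀ x, conj (K x) = K x) :
    ∫ x, (χ (hR L ψ x) : ℂ) * F x * lap L ψ K x * (del L ψ x : ℂ)
      = ∫ x, (χ (hR L ψ x) : ℂ) * K x * lap L ψ F x * (del L ψ x : ℂ) := by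
  have hr : ∀ x, conj ((χ (hR L ψ x) : ℂ) * F x * lap L ψ K x * (del L ψ x : ℂ))
      = (χ (hR L ψ x) : ℂ) * F x * lap L ψ K x * (del L ψ x : ℂ) := by
    intro x
    by_cases hx : x ∈ C
    · simp [hrF, hg.conj_lap hK hrK (hCΩ hx)]
    · simp [h0 x hx]
  have hp : ∀ x, conj ((χ (hR L ψ x) : ℂ) * pair L ψ F K x * (del L ψ x : ℂ))
      = (χ (hR L ψ x) : ℂ) * pair L ψ K F x * (del L ψ x : ℂ) := by
    intro x
    by_cases hx : x ∈ C
    · simp [hg.conj_pair hF hK hrF hrK (hCΩ hx)]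
    · simp [h0 x hx]
  rw [hg.parts hχ hC hCΩ h0 hK hF hdF]
  simp only [← hp, integral_conj]
  rw [← map_neg, ← hg.parts hχ hC hCΩ h0 hF hK hdK, ← integral_conj]
  exact integral_congr_ae (Eventually.of_forall fun x => (hr x).symm)

end Vale.Agent.P264.Manifold

end
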