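import Mathlib
import Vale.Agent.P264.Manifold.Green

/-!
The cross term of the linearised Calabi flow is controlled by the gradient and the function.
-/

open scoped Topology ContDiff ComplexConjugate ComplexOrder
open Complex Filter Set Matrix MeasureTheory
open Vale.Agent.P250.Disproof

noncomputable section

namespace Vale.Agent.P264.Manifold

variable {L : ℝ} {χ : ℝ → ℝ} {C : Set Hom} {P : Set ℝ}

/-- The coefficient of the complex Hessian of the variation in the cross term. -/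
def crossCoef (L : ℝ) (ψ : Hom → ℝ) (Z : Hom) : Matrix (Fin 9) (Fin 9) ℂ :=
  Matrix.of fun l j =>
    hC L ψ Z ^ 2 * (gA L ψ Z * hs (dC L ψ) Z * gA L ψ Z) l j * (del L ψ Z : ℂ)

theorem smP_crossCoef {ψt : ℝ → Hom → ℝ} (hP : UniqueDiffOn ℝ P)
    (h : ContDiffOn ℝ ∞ (Function.uncurry ψt) (P ×ˢ Ω)) (hg : ∀ t ∈ P, Good L (ψt t))
    (l j : Fin 9) : SmP P Ω fun t Z => crossCoef L (ψt t) Z l j := by
  simp only [crossCoef, Matrix.of_apply, Matrix.mul_apply, sq]
  exact (((smP_hC hP h).mul' (smP_hC hP h)).mul' (SmP.sum' _ hP isOpen_Ω fun k _ =>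
    (SmP.sum' _ hP isOpen_Ω fun m _ =>
      (smP_gA hP h hg l m).mul' (smP_hs (smP_dC hP h hg) m k)).mul' (smP_gA hP h hg k j))).mul'
    (smP_del hP h hg)

theorem Good.crossCoef_av {ψ : Hom → ℝ} {Z : Hom} (hg : Good L ψ) (hZ : Z ∈ Ω) (l : Fin 9) :
    ∑ j, crossCoef L ψ Z l j * av L ψ Z j = 0 := by
  have h : (gA L ψ Z * hs (dC L ψ) Z * gA L ψ Z) *ᵥ av L ψ Z = 0 := by
    rw [← mulVec_mulVec, hg.gA_av hZ, ← mulVec_mulVec, deg0_hs_mulVec hg.sm_dC hg.deg0_dC hZ,
      mulVec_zero]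
  have h' := congrFun h l
  simp only [Matrix.mulVec, dotProduct, Pi.zero_apply] at h'
  calc _ = hC L ψ Z ^ 2 * (del L ψ Z : ℂ) *
        ∑ j, (gA L ψ Z * hs (dC L ψ) Z * gA L ψ Z) l j * av L ψ Z j := by
        rw [Finset.mul_sum]
        exact Finset.sum_congr rfl fun j _ => by simp only [crossCoef, Matrix.of_apply]; ring
    _ = 0 := by rw [h', mul_zero]

/-- The cross term is bounded by the gradient and the function, uniformly in time. -/
theorem cross_le {ψt : ℝ → Hom → ℝ} (hP : UniqueDiffOn ℝ P) (hPc : IsCompact P)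
    (h : ContDiffOn ℝ ∞ (Function.uncurry ψt) (P ×ˢ Ω)) (hg : ∀ t ∈ P, Good L (ψt t))
    (hχ : ContDiff ℝ ∞ χ) (hχ0 : ∀ r, 0 ≤ χ r) (hC : IsCompact C) (hCΩ : C ⊆ Ω)
    (h0 : ∀ t ∈ P, ∀ x ∉ C, χ (hR L (ψt t) x) = 0) :
    ∃ K : ℝ, 0 ≤ K ∧ ∀ t ∈ P, ∀ w : Hom → ℂ, Sm Ω w → (∀ x, conj (w x) = w x) →
      ‖∫ x, (χ (hR L (ψt t) x) : ℂ) * w x * (Manifold.hC L (ψt t) x ^ 2 *
          (gA L (ψt t) x * hs w x * gA L (ψt t) x * hs (dC L (ψt t)) x).trace) *
          (del L (ψt t) x : ℂ)‖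
        ≤ K * ∫ x, χ (hR L (ψt t) x) * ((w x).re ^ 2 + (pair L (ψt t) w w x).re) *
          del L (ψt t) x := by
  rcases P.eq_empty_or_nonempty with hPe | hPne
  · exact ⟨0, le_rfl, fun t ht => absurd ht (by simp [hPe])⟩
  rcases C.eq_empty_or_nonempty with hCe | hCne
  · refine ⟨0, le_rfl, fun t ht w _ _ => ?_⟩
    have : ∀ x, χ (hR L (ψt t) x) = 0 := fun x => h0 t ht x (by simp [hCe])
    simp [this]
  have hPC : P ×ˢ C ⊆ P ×ˢ Ω := prod_mono subset_rfl hCΩ
  have hK := (hPc.prod hC)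
  have hΦ := smP_crossCoef hP h hg
  have hD : ∀ l, SmP P Ω fun t x => ∑ j, dz (cv j) (fun y => crossCoef L (ψt t) y l j) x :=
    fun l => SmP.sum' _ hP isOpen_Ω fun j _ => (hΦ l j).dz' (cv j)
  obtain ⟨B, hB⟩ := hK.exists_bound_of_continuousOn
    (f := fun p : ℝ × Hom => (fun l j => crossCoef L (ψt p.1) p.2 l j,
      fun l => ∑ j, dz (cv j) (fun y => crossCoef L (ψt p.1) y l j) p.2))
    ((continuousOn_pi.2 fun l => continuousOn_pi.2 fun j =>
        (hΦ l j).smooth.continuousOn.mono hPC).prodMk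
      (continuousOn_pi.2 fun l => (hD l).smooth.continuousOn.mono hPC))
  have hK3 := hK.prod (isCompact_sphere (0 : Hom) 1)
  have hq : ContinuousOn (fun p : (ℝ × Hom) × Hom =>
      ((∑ k, ∑ j, p.2 j * gA L (ψt p.1.1) p.1.2 k j * conj (p.2 k)) *
        (del L (ψt p.1.1) p.1.2 : ℂ)).re) ((P ×ˢ C) ×ˢ Metric.sphere (0 : Hom) 1) := by
    refine continuous_re.comp_continuousOn (ContinuousOn.mul ?_ ?_)
    · refine continuousOn_finsetSum _ fun k _ => continuousOn_finsetSum _ fun j _ => ?_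
      refine (((continuous_apply j).comp continuous_snd).continuousOn.mul ?_).mul
        ((continuous_conj.comp ((continuous_apply k).comp continuous_snd)).continuousOn)
      exact (smP_gA hP h hg k j).smooth.continuousOn.comp continuousOn_fst
        fun p hp => hPC hp.1
    · exact (smP_del hP h hg).smooth.continuousOn.comp continuousOn_fst fun p hp => hPC hp.1
  obtain ⟨q, hqm, hqle⟩ := hK3.exists_isMinOn ((hPne.prod hCne).prod
    (NormedSpace.sphere_nonempty.2 zero_le_one)) hq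
  set m := ((∑ k, ∑ j, q.2 j * gA L (ψt q.1.1) q.1.2 k j * conj (q.2 k)) *
        (del L (ψt q.1.1) q.1.2 : ℂ)).re with hm
  have hquad : ∀ t ∈ P, ∀ x ∈ Ω, ∀ v : Hom,
      ∑ k, ∑ j, v j * gA L (ψt t) x k j * conj (v k) = star v ⬝ᵥ (gA L (ψt t) x *ᵥ v) := by
    intro t _ x _ v
    simp only [dotProduct, Matrix.mulVec, Pi.star_apply, Complex.star_def, Finset.mul_sum]
    exact Finset.sum_congr rfl fun k _ => Finset.sum_congr rfl fun j _ => by ring
  have hmpos : 0 < m := by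
    have hx := hCΩ hqm.1.2
    have hv : q.2 ≠ 0 := fun e => by simpa [e] using hqm.2
    rw [hm, hquad _ hqm.1.1 _ hx, Complex.mul_re, ofReal_im, mul_zero, sub_zero, ofReal_re]
    exact mul_pos (re_pos_of_pos (((hg _ hqm.1.1).pos _ hx).inv.dotProduct_mulVec_pos hv))
      ((hg _ hqm.1.1).del_pos hx)
  obtain ⟨δ, hδ⟩ := hK.exists_bound_of_continuousOn
    (f := fun p : ℝ × Hom => ((del L (ψt p.1) p.2 : ℂ))⁻¹)
    ((((smP_del hP h hg).inv' fun t ht x hx =>
      ofReal_ne_zero.2 ((hg t ht).del_pos hx).ne').smooth.continuousOn).mono hPC)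
  have hB0 : 0 ≤ B := by
    obtain ⟨p, hp⟩ := hPne.prod hCne
    exact (norm_nonneg _).trans (hB p hp)
  have hδ0 : 0 ≤ δ := by
    obtain ⟨p, hp⟩ := hPne.prod hCne
    exact (norm_nonneg _).trans (hδ p hp)
  refine ⟨90 * B * (1 / m + δ), by positivity, fun t ht w hw hr => ?_⟩
  have g := hg t ht
  set ψ := ψt t with hψ
  have h0' : ∀ x ∉ C, χ (hR L ψ x) = 0 := h0 t ht
  set c : Hom → ℂ := fun x => (χ (hR L ψ x) : ℂ) with hc
  have hcs : Sm Ω c := g.sm_cut hχ
  set Φ := fun l j x => crossCoef L ψ x l j with hΦd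
  have hΦs : ∀ l j, Sm Ω (Φ l j) := fun l j => (hΦ l j).slice ht
  let U : Fin 9 → Fin 9 → Hom → ℂ := fun l j x => c x * w x * dzb (cv l) w x * Φ l j x
  have hU : ∀ l j, Sm Ω (U l j) := fun l j => ⟨isOpen_Ω,
    ((hcs.smooth.mul hw.smooth).mul (hw.dzb' _).smooth).mul (hΦs l j).smooth⟩
  have hU0 : ∀ l j, ∀ x ∉ C, U l j x = 0 := fun l j x hx => by simp [U, c, h0' x hx]
  have hdU0 : ∀ l j, ∀ x ∉ C, dz (cv j) (U l j) x = 0 := fun l j x hx => by
    rw [dz_congr (eventuallyEq_of_mem (hC.isClosed.isOpen_compl.mem_nhds hx) (hU0 l j)) (cv j),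
      dz_const]
  let R : Hom → ℂ := fun x => ∑ l, ((∑ j, Φ l j x * dz (cv j) w x) * dzb (cv l) w x
    + w x * dzb (cv l) w x * ∑ j, dz (cv j) (Φ l j) x)
  let J : Hom → ℂ := fun x =>
    Manifold.hC L ψ x ^ 2 * (gA L ψ x * hs w x * gA L ψ x * hs (dC L ψ) x).trace
  have hpt : ∀ x, ∑ l, ∑ j, dz (cv j) (U l j) x
      = c x * w x * J x * (del L ψ x : ℂ) + c x * R x := by
    intro x
    by_cases hx : x ∈ C
    swap
    · simp [hdU0 _ _ x hx, c, h0' x hx]
    have hxΩ := hCΩ hx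
    have hh : DifferentiableAt ℝ (hR L ψ) x :=
      (reCLM.differentiableAt.comp x (g.sm_hC.diffAt hxΩ)).congr_of_eventuallyEq
        (Eventually.of_forall fun y => by simp [Manifold.hC])
    have dc : ∀ j, dz (cv j) c x = ((deriv χ (hR L ψ x) : ℝ) : ℂ) * av L ψ x j := fun j =>
      dz_real_comp ((hχ.differentiable (by simp) _).hasDerivAt) hh (cv j)
    have e : ∀ l j, dz (cv j) (U l j) x
        = c x * w x * (hs w x j l * Φ l j x)
          + c x * (Φ l j x * dz (cv j) w x * dzb (cv l) w x)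
          + c x * (w x * dzb (cv l) w x * dz (cv j) (Φ l j) x)
          + ((deriv χ (hR L ψ x) : ℝ) : ℂ) * w x * dzb (cv l) w x * (Φ l j x * av L ψ x j) := by
      intro l j
      have d1 := hcs.diffAt hxΩ
      have d2 := hw.diffAt hxΩ
      have d3 := (hw.dzb' (cv l)).diffAt hxΩ
      rw [dz_mul ((d1.fun_mul d2).fun_mul d3) ((hΦs l j).diffAt hxΩ),
        dz_mul (d1.fun_mul d2) d3, dz_mul d1 d2, dc]
      simp only [hs, Matrix.of_apply]
      ring
    have z : ∀ l, ∑ j, ((deriv χ (hR L ψ x) : ℝ) : ℂ) * w x * dzb (cv l) w x *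
        (Φ l j x * av L ψ x j) = 0 := fun l => by
      rw [← Finset.mul_sum, g.crossCoef_av hxΩ l, mul_zero]
    have hJ : J x * (del L ψ x : ℂ) = ∑ l, ∑ j, hs w x j l * Φ l j x := by
      have e1 : (gA L ψ x * hs w x * gA L ψ x * hs (dC L ψ) x).trace
          = (hs w x * (gA L ψ x * hs (dC L ψ) x * gA L ψ x)).trace := by
        rw [Matrix.mul_assoc, Matrix.mul_assoc, trace_mul_comm, Matrix.mul_assoc, Matrix.mul_assoc]
      simp only [J]
      rw [e1]
      simp only [Matrix.trace, Matrix.diag_apply]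
      rw [Finset.mul_sum, Finset.sum_mul, Finset.sum_comm]
      refine Finset.sum_congr rfl fun j _ => ?_
      rw [Matrix.mul_apply, Finset.mul_sum, Finset.sum_mul]
      exact Finset.sum_congr rfl fun l _ => by simp only [Φ, crossCoef, Matrix.of_apply]; ring
    simp only [e, Finset.sum_add_distrib, z, add_zero]
    rw [mul_assoc (c x * w x) (J x), hJ]
    simp only [R, Finset.mul_sum, Finset.sum_mul, mul_add, Finset.sum_add_distrib]
    ring
  have hJs : ContinuousOn J Ω := by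
    have hA : ContinuousOn (fun x => gA L ψ x) Ω :=
      continuousOn_pi.2 fun j => continuousOn_pi.2 fun k => (g.sm_gA j k).smooth.continuousOn
    have hH : ∀ {F : Hom → ℂ}, Sm Ω F → ContinuousOn (fun x => hs F x) Ω := fun hF =>
      continuousOn_pi.2 fun j => continuousOn_pi.2 fun k => ((hF.dzb' _).dz' _).smooth.continuousOn
    exact (g.sm_hC.smooth.continuousOn.pow 2).mul ((continuous_id.matrix_trace).comp_continuousOn
      (((hA.mul (hH hw)).mul hA).mul (hH g.sm_dC)))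
  have hRs : ContinuousOn R Ω := continuousOn_finsetSum _ fun l _ =>
    ((continuousOn_finsetSum _ fun j _ => (hΦs l j).smooth.continuousOn.mul
      (hw.dz' _).smooth.continuousOn).mul (hw.dzb' _).smooth.continuousOn).add
      ((hw.smooth.continuousOn.mul (hw.dzb' _).smooth.continuousOn).mul
        (continuousOn_finsetSum _ fun j _ => ((hΦs l j).dz' _).smooth.continuousOn))
  have i1 : Integrable fun x => c x * w x * J x * (del L ψ x : ℂ) :=
    integrable_of_support (((hcs.smooth.continuousOn.mul hw.smooth.continuousOn).mul hJs).mul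
      g.sm_del.smooth.continuousOn) hC hCΩ fun x hx => by simp [c, h0' x hx]
  have i2 : Integrable fun x => c x * R x :=
    integrable_of_support (hcs.smooth.continuousOn.mul hRs) hC hCΩ
      fun x hx => by simp [c, h0' x hx]
  have hi : ∀ l j, Integrable fun x => dz (cv j) (U l j) x := fun l j =>
    integrable_of_support ((hU l j).dz' _).smooth.continuousOn hC hCΩ (hdU0 l j)
  have hsum : ∫ x, ∑ l, ∑ j, dz (cv j) (U l j) x = 0 := by
    rw [integral_finsetSum _ fun l _ => integrable_finsetSum _ fun j _ => hi l j]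
    exact Finset.sum_eq_zero fun l _ => by
      rw [integral_finsetSum _ fun j _ => hi l j]
      exact Finset.sum_eq_zero fun j _ => integral_dz_eq_zero (hU l j) hC hCΩ (hU0 l j) _
  simp only [hpt] at hsum
  rw [integral_add i1 i2] at hsum
  show ‖∫ x, c x * w x * J x * (del L ψ x : ℂ)‖ ≤ _
  rw [eq_neg_of_add_eq_zero_left hsum, norm_neg, ← integral_const_mul]
  have hW : Integrable fun x => χ (hR L ψ x) * ((w x).re ^ 2 + (pair L ψ w w x).re) * del L ψ x := by
    have := ((integrable_of_support (((hcs.smooth.mul ((hw.smooth.mul hw.smooth).add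
      (g.sm_pair hw hw).smooth)).mul g.sm_del.smooth).continuousOn) hC hCΩ
      fun x hx => by simp [c, h0' x hx]).re)
    refine this.congr (Eventually.of_forall fun x => ?_)
    have him : (w x).im = 0 := Complex.conj_eq_iff_im.1 (hr x)
    simp [c, him, sq]
  refine norm_integral_le_of_norm_le (hW.const_mul _) (Eventually.of_forall fun x => ?_)
  by_cases hx : x ∈ C
  swap
  · simp [c, h0' x hx]
  have hxΩ := hCΩ hx
  have hBx := hB (t, x) ⟨ht, hx⟩
  have hΦb : ∀ l j, ‖Φ l j x‖ ≤ B := fun l j =>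
    ((norm_le_pi_norm (fun j => Φ l j x) j).trans
      (norm_le_pi_norm (fun l j => Φ l j x) l)).trans ((norm_fst_le _).trans hBx)
  have hDb : ∀ l, ‖∑ j, dz (cv j) (Φ l j) x‖ ≤ B := fun l =>
    (norm_le_pi_norm (fun l => ∑ j, dz (cv j) (Φ l j) x) l).trans ((norm_snd_le _).trans hBx)
  set v : Hom := fun j => dz (cv j) w x with hv
  have hvb : ∀ j, ‖dz (cv j) w x‖ ≤ ‖v‖ := fun j => norm_le_pi_norm v j
  have hvc : ∀ l, ‖dzb (cv l) w x‖ ≤ ‖v‖ := fun l => by
    rw [← conj_dz (hw.diffAt hxΩ) hr, Complex.norm_conj]; exact hvb l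
  have hpn : 0 ≤ (pair L ψ w w x).re := (Complex.le_def.1 (g.pair_nonneg hw hr hxΩ)).1
  have hd := g.del_pos hxΩ
  have hvv : m * ‖v‖ ^ 2 ≤ (pair L ψ w w x).re * del L ψ x := by
    rcases eq_or_ne v 0 with hv0 | hv0
    · rw [hv0]; simpa using mul_nonneg hpn hd.le
    have hn : 0 < ‖v‖ := norm_pos_iff.2 hv0
    have := isMinOn_iff.1 hqle ((t, x), ((‖v‖⁻¹ : ℝ) : ℂ) • v)
      ⟨⟨ht, hx⟩, by simp [norm_smul, inv_mul_cancel₀ hn.ne']⟩
    have e : (∑ k, ∑ j, (((‖v‖⁻¹ : ℝ) : ℂ) • v) j * gA L ψ x k j *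
        conj ((((‖v‖⁻¹ : ℝ) : ℂ) • v) k)) = ((‖v‖⁻¹ ^ 2 : ℝ) : ℂ) * pair L ψ w w x := by
      simp only [pair, hv, Pi.smul_apply, smul_eq_mul, map_mul, conj_ofReal, Finset.mul_sum,
        conj_dz (hw.diffAt hxΩ) hr]
      exact Finset.sum_congr rfl fun k _ => Finset.sum_congr rfl fun j _ => by push_cast; ring
    simp only [← hm, ← hψ, e, Complex.mul_re, ofReal_re, ofReal_im, zero_mul, mul_zero,
      sub_zero] at this
    calc m * ‖v‖ ^ 2 ≤ ‖v‖⁻¹ ^ 2 * (pair L ψ w w x).re * del L ψ x * ‖v‖ ^ 2 :=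
          mul_le_mul_of_nonneg_right this (sq_nonneg _)
      _ = _ := by field_simp
  have hδx : (1 : ℝ) ≤ δ * del L ψ x := by
    have := hδ (t, x) ⟨ht, hx⟩
    rw [norm_inv, norm_real, Real.norm_of_nonneg hd.le] at this
    rwa [← div_le_iff₀ hd, one_div]
  set a : ℝ := ‖w x‖ with ha
  have hwa : (w x).re ^ 2 = a ^ 2 := by
    rw [ha, Complex.sq_norm, Complex.normSq_apply, Complex.conj_eq_iff_im.1 (hr x)]; ring
  have hRb : ‖R x‖ ≤ 81 * B * ‖v‖ ^ 2 + 9 * B * (a * ‖v‖) := by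
    have h9 : ∀ l, ‖(∑ j, Φ l j x * dz (cv j) w x) * dzb (cv l) w x
        + w x * dzb (cv l) w x * ∑ j, dz (cv j) (Φ l j) x‖
        ≤ 9 * B * ‖v‖ ^ 2 + B * (a * ‖v‖) := fun l => by
      refine (norm_add_le _ _).trans (add_le_add ?_ ?_)
      · rw [norm_mul]
        have : ‖∑ j, Φ l j x * dz (cv j) w x‖ ≤ 9 * B * ‖v‖ := by
          refine (norm_sum_le_of_le _ fun j _ => (norm_mul_le _ _).trans
            (mul_le_mul (hΦb l j) (hvb j) (norm_nonneg _) hB0)).trans_eq ?_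
          simp [mul_assoc]
        calc _ ≤ 9 * B * ‖v‖ * ‖v‖ := mul_le_mul this (hvc l) (norm_nonneg _) (by positivity)
          _ = _ := by ring
      · rw [norm_mul, norm_mul]
        calc _ ≤ a * ‖v‖ * B := mul_le_mul (mul_le_mul_of_nonneg_left (hvc l) (norm_nonneg _))
              (hDb l) (norm_nonneg _) (by positivity)
          _ = _ := by ring
    refine (norm_sum_le_of_le _ fun l _ => h9 l).trans_eq ?_
    simp; ring
  have hfin : ‖R x‖ ≤ 90 * B * (1 / m + δ) * ((a ^ 2 + (pair L ψ w w x).re) * del L ψ x) := by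
    have h1 : ‖v‖ ^ 2 ≤ 1 / m * ((a ^ 2 + (pair L ψ w w x).re) * del L ψ x) := by
      rw [one_div_mul_eq_div, le_div_iff₀ hmpos]
      nlinarith [hvv, mul_nonneg (sq_nonneg a) hd.le]
    have h2 : a ^ 2 ≤ δ * ((a ^ 2 + (pair L ψ w w x).re) * del L ψ x) := by
      calc a ^ 2 ≤ a ^ 2 * (δ * del L ψ x) := le_mul_of_one_le_right (sq_nonneg _) hδx
        _ ≤ _ := by nlinarith [mul_nonneg (mul_nonneg hδ0 hpn) hd.le]
    have h3 : a * ‖v‖ ≤ a ^ 2 + ‖v‖ ^ 2 := by
      nlinarith [sq_nonneg (a - ‖v‖), mul_nonneg (norm_nonneg (w x)) (norm_nonneg v)]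
    calc ‖R x‖ ≤ 90 * B * (‖v‖ ^ 2 + a ^ 2) := by
          nlinarith [hRb, mul_le_mul_of_nonneg_left h3 hB0, mul_nonneg hB0 (sq_nonneg a),
            mul_nonneg hB0 (sq_nonneg ‖v‖)]
      _ ≤ 90 * B * (1 / m * ((a ^ 2 + (pair L ψ w w x).re) * del L ψ x)
            + δ * ((a ^ 2 + (pair L ψ w w x).re) * del L ψ x)) :=
          mul_le_mul_of_nonneg_left (add_le_add h1 h2) (by positivity)
      _ = _ := by ring
  rw [norm_mul, hwa]
  simp only [c, norm_real, Real.norm_of_nonneg (hχ0 _)]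
  calc χ (hR L ψ x) * ‖R x‖ ≤ χ (hR L ψ x) * _ := mul_le_mul_of_nonneg_left hfin (hχ0 _)
    _ = _ := by ring

end Vale.Agent.P264.Manifold

end
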