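import Mathlib
import Vale.Agent.P264.Manifold.Green

/-!
Differentiation under the integral for families on the cone, a common compact shell, and the
vanishing of an energy by Gronwall's inequality.
-/

open scoped Topology ContDiff
open Complex Filter Set MeasureTheory
open Vale.Agent.P250.Disproof

noncomputable section

namespace Vale.Agent.P264.Manifold

variable {L T a b : ℝ} {χ : ℝ → ℝ} {C : Set Hom} {P : Set ℝ}

/-- One compact shell for all potentials of a family on a compact time interval. -/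
theorem exists_compact_level_family {ψt : ℝ → Hom → ℝ} (hT : IsCompact P) (hne : P.Nonempty)
    (h : ContinuousOn (Function.uncurry ψt) (P ×ˢ Ω))
    (hs : ∀ t ∈ P, ∀ (c : ℂ) (Z : Hom), c ≠ 0 → Z ≠ 0 → ψt t (c • Z) = ψt t Z)
    (hχ : ∀ r, r ∉ Icc a b → χ r = 0) (ha : 0 < a) :
    ∃ C : Set Hom, IsCompact C ∧ C ⊆ Ω ∧ ∀ t ∈ P, ∀ x ∉ C, χ (hR L (ψt t) x) = 0 := by
  have hS : Metric.sphere (0 : Hom) 1 ⊆ Ω := fun x hx h0 => by
    rw [mem_singleton_iff] at h0
    simp [h0] at hx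
  have hc : ContinuousOn (fun p : ℝ × Hom => hR L (ψt p.1) p.2) (P ×ˢ Ω) :=
    (contDiff_nR.continuous.comp continuous_snd).continuousOn.mul ((h.div_const L).rexp)
  have hK : IsCompact (P ×ˢ Metric.sphere (0 : Hom) 1) := hT.prod (isCompact_sphere _ _)
  have hKn : (P ×ˢ Metric.sphere (0 : Hom) 1).Nonempty :=
    hne.prod (NormedSpace.sphere_nonempty.2 zero_le_one)
  obtain ⟨m, hm, hmle⟩ := hK.exists_isMinOn hKn (hc.mono (prod_mono subset_rfl hS))
  obtain ⟨M, hM, hleM⟩ := hK.exists_isMaxOn hKn (hc.mono (prod_mono subset_rfl hS))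
  have hmp : 0 < hR L (ψt m.1) m.2 := hR_pos (hS hm.2)
  have hMp : 0 < hR L (ψt M.1) M.2 := hR_pos (hS hM.2)
  let r₀ : ℝ := Real.sqrt (a / hR L (ψt M.1) M.2)
  let r₁ : ℝ := Real.sqrt (b / hR L (ψt m.1) m.2)
  refine ⟨Metric.closedBall 0 r₁ ∩ {x | r₀ ≤ ‖x‖},
    (isCompact_closedBall _ _).inter_right (isClosed_le continuous_const continuous_norm),
    fun x hx h0 => ?_, fun t ht x hx => hχ _ fun hI => hx ?_⟩
  · rw [mem_singleton_iff] at h0
    have : 0 < r₀ := Real.sqrt_pos.2 (div_pos ha hMp)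
    simp only [h0, mem_inter_iff, mem_ofPred_eq, norm_zero] at hx
    linarith [hx.2]
  · rcases eq_or_ne x 0 with rfl | hx0
    · have h00 : hR L (ψt t) 0 = 0 := by simp [hR, nR]
      linarith [hI.1]
    have hn : 0 < ‖x‖ := norm_pos_iff.2 hx0
    set u : Hom := ((‖x‖⁻¹ : ℝ) : ℂ) • x with hu
    have hne' : ((‖x‖⁻¹ : ℝ) : ℂ) ≠ 0 := ofReal_ne_zero.2 (inv_ne_zero hn.ne')
    have huS : u ∈ Metric.sphere (0 : Hom) 1 := by
      simp [hu, norm_smul, inv_mul_cancel₀ hn.ne']
    have e : hR L (ψt t) x = ‖x‖ ^ 2 * hR L (ψt t) u := by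
      simp only [hu, hR, nR_smul, hs t ht _ x hne' hx0, norm_real, Real.norm_eq_abs, sq_abs]
      field_simp
    refine ⟨mem_closedBall_zero_iff.2 (Real.le_sqrt_of_sq_le ?_), (Real.sqrt_le_left hn.le).2 ?_⟩
    · rw [le_div_iff₀ hmp]
      calc ‖x‖ ^ 2 * hR L (ψt m.1) m.2 ≤ ‖x‖ ^ 2 * hR L (ψt t) u :=
            mul_le_mul_of_nonneg_left (isMinOn_iff.1 hmle (t, u) ⟨ht, huS⟩) (sq_nonneg _)
        _ ≤ b := e ▸ hI.2
    · rw [div_le_iff₀ hMp]
      calc a ≤ ‖x‖ ^ 2 * hR L (ψt t) u := e ▸ hI.1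
        _ ≤ ‖x‖ ^ 2 * hR L (ψt M.1) M.2 :=
            mul_le_mul_of_nonneg_left (isMaxOn_iff.1 hleM (t, u) ⟨ht, huS⟩) (sq_nonneg _)

variable {f : ℝ → Hom → ℂ} {t : ℝ}

/-- Differentiation under the integral sign. -/
theorem hasDerivAt_integral (hf : SmP P Ω f) (hP : IsOpen P) (hC : IsCompact C) (hCΩ : C ⊆ Ω)
    (h0 : ∀ r ∈ P, ∀ x ∉ C, f r x = 0) (ht : t ∈ P) :
    HasDerivAt (fun r => ∫ x, f r x) (∫ x, dt f t x) t := by
  obtain ⟨ε, hε, hεP⟩ := Metric.nhds_basis_closedBall.mem_iff.1 (hP.mem_nhds ht)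
  have hd := hf.dt' hP
  have hd0 : ∀ r ∈ P, ∀ x ∉ C, dt f r x = 0 := fun r hr x hx => by
    have he : (fun s => f s x) =ᶠ[𝓝 r] fun _ => (0 : ℂ) :=
      eventually_of_mem (hP.mem_nhds hr) fun s hs => h0 s hs x hx
    rw [dt, he.deriv_eq, deriv_const]
  have hi : ∀ r ∈ P, Integrable (f r) := fun r hr =>
    integrable_of_support (hf.slice hr).smooth.continuousOn hC hCΩ (h0 r hr)
  obtain ⟨B, hB⟩ := ((isCompact_closedBall t ε).prod hC).exists_bound_of_continuousOn
    (hd.smooth.continuousOn.mono (prod_mono hεP hCΩ))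
  refine (hasDerivAt_integral_of_dominated_loc_of_deriv_le
    (bound := C.indicator fun _ => B) (F' := fun r x => dt f r x) (Metric.closedBall_mem_nhds t hε)
    ?_ (hi t ht) ?_ ?_ ?_ ?_).2
  · exact eventually_of_mem (hP.mem_nhds ht) fun r hr => (hi r hr).aestronglyMeasurable
  · exact (integrable_of_support (hd.slice ht).smooth.continuousOn hC hCΩ
      (hd0 t ht)).aestronglyMeasurable
  · refine Eventually.of_forall fun x r hr => ?_
    by_cases hx : x ∈ C
    · simpa [hx] using hB (r, x) ⟨hr, hx⟩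
    · simp [hx, hd0 r (hεP hr) x hx]
  · exact (integrable_indicator_iff hC.measurableSet).2
      (integrableOn_const hC.measure_lt_top.ne)
  · refine Eventually.of_forall fun x r hr => ?_
    by_cases hx : x ∈ C
    · exact hf.hasDerivAt hP (hεP hr) (hCΩ hx)
    · rw [hd0 r (hεP hr) x hx]
      exact (hasDerivAt_const r (0 : ℂ)).congr_of_eventuallyEq
        (eventually_of_mem (hP.mem_nhds (hεP hr)) fun s hs => h0 s hs x hx)

/-- Continuity of the integral up to the ends of the interval. -/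
theorem continuousOn_integral (hf : ContinuousOn (Function.uncurry f) (P ×ˢ Ω))
    (hC : IsCompact C) (hCΩ : C ⊆ Ω) (hT : IsCompact P)
    (h0 : ∀ r ∈ P, ∀ x ∉ C, f r x = 0) : ContinuousOn (fun r => ∫ x, f r x) P := by
  obtain ⟨B, hB⟩ := (hT.prod hC).exists_bound_of_continuousOn
    (hf.mono (prod_mono subset_rfl hCΩ))
  have hfr : ∀ r ∈ P, ContinuousOn (f r) Ω := fun r hr =>
    hf.comp (continuousOn_const.prodMk continuousOn_id) fun x hx => ⟨hr, hx⟩
  refine MeasureTheory.continuousOn_of_dominated (bound := C.indicator fun _ => B)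
    (fun r hr => (integrable_of_support (hfr r hr) hC hCΩ (h0 r hr)).aestronglyMeasurable) ?_
    ((integrable_indicator_iff hC.measurableSet).2 (integrableOn_const hC.measure_lt_top.ne)) ?_
  · refine fun r hr => Eventually.of_forall fun x => ?_
    by_cases hx : x ∈ C
    · simpa [hx] using hB (r, x) ⟨hr, hx⟩
    · simp [hx, h0 r hr x hx]
  · refine Eventually.of_forall fun x => ?_
    by_cases hx : x ∈ C
    · exact hf.comp (continuousOn_id.prodMk continuousOn_const) fun r hr => ⟨hr, hCΩ hx⟩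
    · exact continuousOn_const.congr fun r hr => h0 r hr x hx

/-- An energy that starts at zero and grows at most linearly in itself vanishes. -/
theorem eq_zero_of_deriv_le {E E' : ℝ → ℝ} {c : ℝ} (hc : ContinuousOn E (Icc 0 T))
    (hd : ∀ s ∈ Ioo 0 T, HasDerivAt E (E' s) s) (hle : ∀ s ∈ Ioo 0 T, E' s ≤ c * E s)
    (h0 : E 0 = 0) (hn : ∀ s ∈ Icc 0 T, 0 ≤ E s) : ∀ s ∈ Icc 0 T, E s = 0 := by
  have hm : AntitoneOn (fun s => Real.exp (-(c * s)) * E s) (Icc 0 T) := by
    refine antitoneOn_of_hasDerivWithinAt_nonpos (convex_Icc 0 T)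
      (f' := fun s => Real.exp (-(c * s)) * (E' s - c * E s)) ?_ ?_ ?_
    · exact (by fun_prop : Continuous fun s => Real.exp (-(c * s))).continuousOn.mul hc
    · intro s hs
      rw [interior_Icc] at hs ⊢
      have h1 : HasDerivAt (fun r => Real.exp (-(c * r))) (Real.exp (-(c * s)) * -c) s := by
        simpa using ((hasDerivAt_id s).const_mul c).fun_neg.exp
      exact ((h1.fun_mul (hd s hs)).congr_deriv (by ring)).hasDerivWithinAt
    · intro s hs
      rw [interior_Icc] at hs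
      exact mul_nonpos_of_nonneg_of_nonpos (Real.exp_pos _).le (sub_nonpos.2 (hle s hs))
  intro s hs
  have h := hm (left_mem_Icc.2 (hs.1.trans hs.2)) hs hs.1
  simp only [h0, mul_zero] at h
  exact le_antisymm (nonpos_of_mul_nonpos_right h (Real.exp_pos _)) (hn s hs)

end Vale.Agent.P264.Manifold

end
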