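import Mathlib
import Vale.Agent.P264.Manifold.ConeChart
import Vale.Agent.P264.Manifold.Linear
import Vale.Agent.P264.Manifold.Green
import Vale.Agent.P264.Manifold.EnergyCalc

/-!
The terms of the derivative of the energy of an infinitesimal variation, at one time.
-/

open scoped Topology ContDiff ComplexConjugate ComplexOrder
open Complex Filter Set Matrix MeasureTheory
open Vale.Agent.P250.Disproof

noncomputable section

namespace Vale.Agent.P264.Manifold

variable {L T b : ℝ} {C : Set Hom} {χ : ℝ → ℝ} {ψ : Hom → ℝ} {F w v G J : Hom → ℂ}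

theorem SmP.mono' {P Q : Set ℝ} {f : ℝ → Hom → ℂ} (h : SmP P Ω f) (hQ : UniqueDiffOn ℝ Q)
    (hs : Q ⊆ P) : SmP Q Ω f :=
  ⟨hQ, isOpen_Ω, h.smooth.mono (prod_mono hs subset_rfl)⟩

/-- A bound for the time derivative up to the ends of the interval. -/
theorem exists_bound_dt {f : ℝ → Hom → ℂ} (hT : 0 < T) (hf : SmP (Icc 0 T) Ω f) (hC : IsCompact C)
    (hCΩ : C ⊆ Ω) : ∃ D : ℝ, ∀ t ∈ Ioo 0 T, ∀ x ∈ C, ‖dt f t x‖ ≤ D := by
  have hU : UniqueDiffOn ℝ (Icc (0 : ℝ) T ×ˢ Ω) :=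
    (uniqueDiffOn_Icc hT).prod isOpen_Ω.uniqueDiffOn
  have hD := ((hf.smooth.fderivWithin hU (m := ∞) (by simp)).continuousOn).clm_apply
    (continuousOn_const (c := ((1 : ℝ), (0 : Hom))))
  obtain ⟨D, hD'⟩ := ((isCompact_Icc (a := (0 : ℝ)) (b := T)).prod hC).exists_bound_of_continuousOn
    (hD.mono (prod_mono subset_rfl hCΩ))
  refine ⟨D, fun t ht x hx => ?_⟩
  have hn : Icc (0 : ℝ) T ×ˢ Ω ∈ 𝓝 (t, x) :=
    prod_mem_nhds (Icc_mem_nhds ht.1 ht.2) (isOpen_Ω.mem_nhds (hCΩ hx))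
  have h1 : DifferentiableAt ℝ (Function.uncurry f) (t, x) :=
    (hf.smooth.contDiffAt hn).differentiableAt (by simp)
  have h2 : HasDerivAt (fun r => f r x) (fderiv ℝ (Function.uncurry f) (t, x) (1, 0)) t :=
    h1.hasFDerivAt.comp_hasDerivAt (f := fun r => (r, x)) t
      ((hasDerivAt_id t).prodMk (hasDerivAt_const t x))
  rw [show dt f t x = _ from h2.deriv, ← fderivWithin_of_mem_nhds hn]
  exact hD' (t, x) ⟨Ioo_subset_Icc_self ht, hx⟩

theorem Good.deg0_del (hg : Good L ψ) : Deg0 fun x => (del L ψ x : ℂ) := fun a Z ha hZ => by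
  show ((del L ψ (a • Z) : ℝ) : ℂ) = del L ψ Z
  rw [hg.det_eq (smul_mem_Ω ha hZ), hg.det_eq hZ, hg.gG_smul ha hZ]

theorem continuousOn_hR (hg : Pre L ψ) : ContinuousOn (hR L ψ) Ω := fun _ hx =>
  (hg.diff_hR hx).continuousAt.continuousWithinAt

/-- The integral of Euler's identity. -/
theorem Good.integral_euler (hg : Good L ψ) (hχ : ContDiff ℝ ∞ χ) (hC : IsCompact C) (hCΩ : C ⊆ Ω)
    (h0 : ∀ x ∉ C, χ (hR L ψ x) = 0) (h0' : ∀ x ∉ C, deriv χ (hR L ψ x) = 0) (hF : Sm Ω F)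
    (hd : Deg0 F) :
    ∫ x, ((deriv χ (hR L ψ x) * hR L ψ x : ℝ) : ℂ) * F x * (del L ψ x : ℂ)
      = -(9 * ∫ x, (χ (hR L ψ x) : ℂ) * F x * (del L ψ x : ℂ)) := by
  set c : Hom → ℂ := fun x => (χ (hR L ψ x) : ℂ) with hc
  have hcs : Sm Ω c := hg.sm_cut hχ
  let U : Fin 9 → Hom → ℂ := fun j x => x j * (c x * (F x * (del L ψ x : ℂ)))
  have hU : ∀ j, Sm Ω (U j) := fun j =>
    ⟨isOpen_Ω, (sm_coord j).smooth.mul (hcs.smooth.mul (hF.smooth.mul hg.sm_del.smooth))⟩
  have hU0 : ∀ j, ∀ x ∉ C, U j x = 0 := fun j x hx => by simp [U, c, h0 x hx]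
  have hdU0 : ∀ j, ∀ x ∉ C, dz (cv j) (U j) x = 0 := fun j x hx => by
    rw [dz_congr (eventuallyEq_of_mem (hC.isClosed.isOpen_compl.mem_nhds hx) (hU0 j)) (cv j),
      dz_const]
  have hpt : ∀ x, ∑ j, dz (cv j) (U j) x
      = 9 * (c x * F x * (del L ψ x : ℂ))
        + ((deriv χ (hR L ψ x) * hR L ψ x : ℝ) : ℂ) * F x * (del L ψ x : ℂ) := by
    intro x
    by_cases hx : x ∈ C
    swap
    · simp [hdU0 _ x hx, c, h0 x hx, h0' x hx]
    have hxΩ := hCΩ hx
    have dc : ∀ j, dz (cv j) c x = ((deriv χ (hR L ψ x) : ℝ) : ℂ) * av L ψ x j := fun j =>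
      dz_real_comp ((hχ.differentiable (by simp) _).hasDerivAt) (hg.diff_hR hxΩ) (cv j)
    have e : ∀ j, dz (cv j) (U j) x
        = c x * (F x * (del L ψ x : ℂ)) + c x * F x * (x j * dz (cv j) (fun y => (del L ψ y : ℂ)) x)
          + c x * (del L ψ x : ℂ) * (x j * dz (cv j) F x)
          + ((deriv χ (hR L ψ x) : ℝ) : ℂ) * F x * (del L ψ x : ℂ) * (x j * av L ψ x j) := by
      intro j
      rw [dz_mul ((sm_coord j).diffAt hxΩ) ((hcs.diffAt hxΩ).fun_mul
        ((hF.diffAt hxΩ).fun_mul (hg.sm_del.diffAt hxΩ))),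
        dz_mul (hcs.diffAt hxΩ) ((hF.diffAt hxΩ).fun_mul (hg.sm_del.diffAt hxΩ)),
        dz_mul (hF.diffAt hxΩ) (hg.sm_del.diffAt hxΩ), dz_coord, dc]
      simp [cv]
      ring
    simp only [e, Finset.sum_add_distrib, ← Finset.mul_sum,
      deg0_dz hg.sm_del hg.deg0_del hxΩ, deg0_dz hF hd hxΩ, mul_zero, add_zero,
      show ∑ j, x j * av L ψ x j = Manifold.hC L ψ x from hg.euler_dz hxΩ]
    simp [Manifold.hC, mul_assoc]
    ring
  have i1 : Integrable fun x => c x * F x * (del L ψ x : ℂ) :=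
    integrable_of_support ((hcs.smooth.mul hF.smooth).mul hg.sm_del.smooth).continuousOn hC hCΩ
      fun x hx => by simp [c, h0 x hx]
  have i2 : Integrable fun x =>
      ((deriv χ (hR L ψ x) * hR L ψ x : ℝ) : ℂ) * F x * (del L ψ x : ℂ) := by
    refine integrable_of_support (((continuous_ofReal.comp_continuousOn
      (((hχ.continuous_deriv (by simp)).comp_continuousOn (continuousOn_hR hg.toPre)).mul
        (continuousOn_hR hg.toPre))).mul hF.smooth.continuousOn).mul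
      hg.sm_del.smooth.continuousOn) hC hCΩ fun x hx => by simp [h0' x hx]
  have hi : ∀ j, Integrable fun x => dz (cv j) (U j) x := fun j =>
    integrable_of_support ((hU j).dz' _).smooth.continuousOn hC hCΩ (hdU0 j)
  have hsum : ∫ x, ∑ j, dz (cv j) (U j) x = 0 := by
    rw [integral_finsetSum _ fun j _ => hi j]
    exact Finset.sum_eq_zero fun j _ => integral_dz_eq_zero (hU j) hC hCΩ (hU0 j) _
  simp only [hpt] at hsum
  rw [integral_add (i1.const_mul 9) i2, integral_const_mul] at hsum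
  exact eq_neg_of_add_eq_zero_right hsum

/-- The cut-off energy of a variation. -/
def en (χ : ℝ → ℝ) (L : ℝ) (ψ : Hom → ℝ) (w : Hom → ℂ) : ℝ :=
  ∫ x, χ (hR L ψ x) * (w x).re ^ 2 * del L ψ x

theorem norm_of_real {z : ℂ} (h : conj z = z) : ‖z‖ = |z.re| :=
  (Complex.abs_re_eq_norm.2 (Complex.conj_eq_iff_im.1 h)).symm

theorem sq_norm_of_real {z : ℂ} (h : conj z = z) : ‖z‖ * ‖z‖ = z.re ^ 2 := by
  rw [norm_of_real h, abs_mul_abs_self, sq]

theorem integrable_real {f : Hom → ℝ} (hf : ContinuousOn f Ω) (hC : IsCompact C) (hCΩ : C ⊆ Ω)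
    (h0 : ∀ x ∉ C, f x = 0) : Integrable f :=
  ((hf.mono hCΩ).integrableOn_compact hC).integrable_of_forall_notMem_eq_zero h0

theorem Good.continuousOn_del (hg : Good L ψ) : ContinuousOn (del L ψ) Ω :=
  (continuous_re.comp_continuousOn hg.sm_del.smooth.continuousOn).congr fun x _ => by simp

theorem Good.integrable_en (hg : Good L ψ) (hχ : ContDiff ℝ ∞ χ) (hC : IsCompact C) (hCΩ : C ⊆ Ω)
    (h0 : ∀ x ∉ C, χ (hR L ψ x) = 0) (hw : Sm Ω w) :
    Integrable fun x => χ (hR L ψ x) * (w x).re ^ 2 * del L ψ x :=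
  integrable_real (((hχ.continuous.comp_continuousOn (continuousOn_hR hg.toPre)).mul
    ((continuous_re.comp_continuousOn hw.smooth.continuousOn).pow 2)).mul hg.continuousOn_del)
    hC hCΩ fun x hx => by simp [h0 x hx]

/-- The term of the moving cutoff. -/
theorem Good.cutoff_le (hg : Good L ψ) (hL : 0 < L) (hχ : ContDiff ℝ ∞ χ) (hχ0 : ∀ r, 0 ≤ χ r)
    (hC : IsCompact C) (hCΩ : C ⊆ Ω) (h0 : ∀ x ∉ C, χ (hR L ψ x) = 0)
    (h0' : ∀ x ∉ C, deriv χ (hR L ψ x) = 0) (hw : Sm Ω w) (hwd : Deg0 w)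
    (hwr : ∀ x, conj (w x) = w x) (hv : Sm Ω v) (hvd : Deg0 v) {V : ℝ}
    (hV : ∀ x ∈ C, ‖v x‖ ≤ V) :
    (∫ x, ((deriv χ (hR L ψ x) * hR L ψ x : ℝ) : ℂ) * (v x * (w x * w x) / (L : ℂ)) *
        (del L ψ x : ℂ)).re ≤ 9 * V / L * en χ L ψ w := by
  rw [hg.integral_euler hχ hC hCΩ h0 h0' (F := fun x => v x * (w x * w x) / (L : ℂ))
    ⟨isOpen_Ω, (hv.smooth.mul (hw.smooth.mul hw.smooth)).div_const _⟩
    (fun a Z ha hZ => by simp only [hvd a Z ha hZ, hwd a Z ha hZ]),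
    ← integral_const_mul, ← integral_neg, en, ← integral_const_mul]
  refine (Complex.re_le_norm _).trans (norm_integral_le_of_norm_le
    ((hg.integrable_en hχ hC hCΩ h0 hw).const_mul _) (Eventually.of_forall fun x => ?_))
  by_cases hx : x ∈ C
  swap
  · simp [h0 x hx]
  have hd := g_nonneg x hx
  simp only [norm_neg, norm_mul, norm_div, norm_real, Real.norm_of_nonneg (hχ0 _),
    Real.norm_of_nonneg hL.le, Real.norm_of_nonneg (hg.del_pos (hCΩ hx)).le,
    RCLike.norm_ofNat, sq_norm_of_real (hwr x)]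
  calc _ = ‖v x‖ * (9 * χ (hR L ψ x) * (w x).re ^ 2 * del L ψ x / L) := by ring
    _ ≤ V * _ := mul_le_mul_of_nonneg_right (hV x hx) hd
    _ = _ := by ring
where
  g_nonneg : ∀ x ∈ C, 0 ≤ 9 * χ (hR L ψ x) * (w x).re ^ 2 * del L ψ x / L := fun x hx =>
    div_nonneg (mul_nonneg (mul_nonneg (mul_nonneg (by norm_num) (hχ0 _)) (sq_nonneg _))
      (hg.del_pos (hCΩ hx)).le) hL.le

/-- The term of the moving volume. -/
theorem Good.volume_le (hg : Good L ψ) (hχ : ContDiff ℝ ∞ χ) (hχ0 : ∀ r, 0 ≤ χ r)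
    (hC : IsCompact C) (hCΩ : C ⊆ Ω) (h0 : ∀ x ∉ C, χ (hR L ψ x) = 0) (hw : Sm Ω w)
    (hwr : ∀ x, conj (w x) = w x) {D δ : ℝ} (hD : ∀ x ∈ C, ‖G x‖ ≤ D)
    (hδ : ∀ x ∈ C, 1 ≤ δ * del L ψ x) :
    (∫ x, (χ (hR L ψ x) : ℂ) * (w x * w x) * G x).re ≤ δ * D * en χ L ψ w := by
  rw [en, ← integral_const_mul]
  refine (Complex.re_le_norm _).trans (norm_integral_le_of_norm_le
    ((hg.integrable_en hχ hC hCΩ h0 hw).const_mul _) (Eventually.of_forall fun x => ?_))
  by_cases hx : x ∈ C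
  swap
  · simp [h0 x hx]
  simp only [norm_mul, norm_real, Real.norm_of_nonneg (hχ0 _), sq_norm_of_real (hwr x)]
  have hP0 : 0 ≤ χ (hR L ψ x) * (w x).re ^ 2 := mul_nonneg (hχ0 _) (sq_nonneg _)
  calc _ ≤ χ (hR L ψ x) * (w x).re ^ 2 * D := mul_le_mul_of_nonneg_left (hD x hx) hP0
    _ ≤ χ (hR L ψ x) * (w x).re ^ 2 * D * (δ * del L ψ x) :=
      le_mul_of_one_le_right (mul_nonneg hP0 ((norm_nonneg _).trans (hD x hx))) (hδ x hx)
    _ = _ := by ring

/-- The linearised flow dissipates the energy up to a multiple of itself. -/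
theorem Good.main_le (hg : Good L ψ) (hχ : ContDiff ℝ ∞ χ) (hχ0 : ∀ r, 0 ≤ χ r)
    (hs : ∀ r, χ r ≠ 0 → 1 ≤ r) (hC : IsCompact C) (hCΩ : C ⊆ Ω)
    (h0 : ∀ x ∉ C, χ (hR L ψ x) = 0) (hw : Sm Ω w) (hwd : Deg0 w) (hwr : ∀ x, conj (w x) = w x)
    (hu : Sm Ω v) (hud : Deg0 v) (hur : ∀ x, conj (v x) = v x)
    (hv : ∀ x, v x = Manifold.hC L ψ x * lap L ψ w x) {K : ℝ} (hK0 : 0 ≤ K)
    (hK : ‖∫ x, (χ (hR L ψ x) : ℂ) * w x * J x * (del L ψ x : ℂ)‖
      ≤ K * ∫ x, χ (hR L ψ x) * ((w x).re ^ 2 + (pair L ψ w w x).re) * del L ψ x) :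
    (∫ x, (χ (hR L ψ x) : ℂ) * w x * J x * (del L ψ x : ℂ)).re
        - 9 * (∫ x, (χ (hR L ψ x) : ℂ) * w x * v x * (del L ψ x : ℂ)).re
        - (∫ x, ((χ (hR L ψ x) * hR L ψ x : ℝ) : ℂ) * w x * lap L ψ v x * (del L ψ x : ℂ)).re
      ≤ (K + (K + 9) ^ 2 / 4) * en χ L ψ w := by
  have hb : ContinuousOn (fun x => χ (hR L ψ x)) Ω :=
    hχ.continuous.comp_continuousOn (continuousOn_hR hg.toPre)
  have hc : ContinuousOn (fun x => (χ (hR L ψ x) : ℂ)) Ω :=
    continuous_ofReal.comp_continuousOn hb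
  have hd : ContinuousOn (fun x => (del L ψ x : ℂ)) Ω := hg.sm_del.smooth.continuousOn
  have hwR := continuous_re.comp_continuousOn hw.smooth.continuousOn
  have huR := continuous_re.comp_continuousOn hu.smooth.continuousOn
  let eM : Hom → ℝ := fun x => χ (hR L ψ x) * |(w x).re * (v x).re| * del L ψ x
  let eU : Hom → ℝ := fun x => χ (hR L ψ x) * (v x).re ^ 2 * del L ψ x
  have iW := hg.integrable_en hχ hC hCΩ h0 hw
  have iU : Integrable eU := hg.integrable_en hχ hC hCΩ h0 hu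
  have iM : Integrable eM := integrable_real ((hb.mul (hwR.mul huR).abs).mul hg.continuousOn_del)
    hC hCΩ fun x hx => by simp [eM, h0 x hx]
  have e4 : (∫ x, ((χ (hR L ψ x) * hR L ψ x : ℝ) : ℂ) * w x * lap L ψ v x * (del L ψ x : ℂ)).re
      = ∫ x, eU x := by
    have hi : Integrable fun x => (χ (hR L ψ x) : ℂ) * v x * v x * (del L ψ x : ℂ) :=
      integrable_of_support (((hc.mul hu.smooth.continuousOn).mul hu.smooth.continuousOn).mul hd)
        hC hCΩ fun x hx => by simp [h0 x hx]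
    have h := integral_re hi
    simp only [RCLike.re_to_complex] at h
    have e := hg.green (χ := fun r => χ r * r) (hχ.mul contDiff_id) hC hCΩ
      (fun x hx => by simp [h0 x hx]) hw hwd hwr hu hud hur
    rw [e]
    rw [show (∫ x, ((χ (hR L ψ x) * hR L ψ x : ℝ) : ℂ) * v x * lap L ψ w x * (del L ψ x : ℂ))
        = ∫ x, (χ (hR L ψ x) : ℂ) * v x * v x * (del L ψ x : ℂ) from
      integral_congr_ae (Eventually.of_forall fun x => by
        simp only [hv x, Manifold.hC, ofReal_mul]; ring), ← h]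
    refine integral_congr_ae (Eventually.of_forall fun x => ?_)
    simp [eU, Complex.conj_eq_iff_im.1 (hur x), sq, mul_assoc]
  have b3 : |(∫ x, (χ (hR L ψ x) : ℂ) * w x * v x * (del L ψ x : ℂ)).re| ≤ ∫ x, eM x := by
    refine (Complex.abs_re_le_norm _).trans (norm_integral_le_of_norm_le iM
      (Eventually.of_forall fun x => ?_))
    by_cases hx : x ∈ C
    swap
    · simp [eM, h0 x hx]
    simp only [norm_mul, norm_real, Real.norm_of_nonneg (hχ0 _),
      Real.norm_of_nonneg (hg.del_pos (hCΩ hx)).le, norm_of_real (hwr x), norm_of_real (hur x), eM,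
      abs_mul]
    exact le_of_eq (by ring)
  have b2 : (∫ x, (χ (hR L ψ x) : ℂ) * w x * J x * (del L ψ x : ℂ)).re
      ≤ K * (en χ L ψ w + ∫ x, eM x) := by
    refine ((Complex.re_le_norm _).trans hK).trans (mul_le_mul_of_nonneg_left ?_ hK0)
    have hp := hg.sm_pair hw hw
    have ip : Integrable fun x => χ (hR L ψ x) * (pair L ψ w w x).re * del L ψ x :=
      integrable_real ((hb.mul (continuous_re.comp_continuousOn hp.smooth.continuousOn)).mul
        hg.continuousOn_del) hC hCΩ fun x hx => by simp [h0 x hx]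
    simp only [mul_add, add_mul]
    rw [integral_add iW ip]
    refine add_le_add le_rfl ?_
    have i4 : Integrable fun x => (χ (hR L ψ x) : ℂ) * pair L ψ w w x * (del L ψ x : ℂ) :=
      integrable_of_support ((hc.mul hp.smooth.continuousOn).mul hd) hC hCΩ
        fun x hx => by simp [h0 x hx]
    have hre : ∫ x, χ (hR L ψ x) * (pair L ψ w w x).re * del L ψ x
        = (∫ x, (χ (hR L ψ x) : ℂ) * pair L ψ w w x * (del L ψ x : ℂ)).re := by
      have h := integral_re i4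
      simp only [RCLike.re_to_complex] at h
      rw [← h]
      simp
    rw [hre, ← neg_neg (∫ x, (χ (hR L ψ x) : ℂ) * pair L ψ w w x * (del L ψ x : ℂ)),
      ← hg.parts hχ hC hCΩ h0 hw hw hwd, ← integral_neg]
    refine (Complex.re_le_norm _).trans (norm_integral_le_of_norm_le iM
      (Eventually.of_forall fun x => ?_))
    rcases eq_or_ne (χ (hR L ψ x)) 0 with h | h
    · simp [eM, h]
    have hx : x ∈ C := by_contra fun hx => h (h0 x hx)
    have h1 := hs _ h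
    have hl : ‖lap L ψ w x‖ ≤ |(v x).re| := by
      rw [← norm_of_real (hur x), hv x, norm_mul, Manifold.hC, norm_real,
        Real.norm_of_nonneg (zero_le_one.trans h1)]
      exact le_mul_of_one_le_left (norm_nonneg _) h1
    simp only [norm_neg, norm_mul, norm_real, Real.norm_of_nonneg (hχ0 _),
      Real.norm_of_nonneg (hg.del_pos (hCΩ hx)).le, norm_of_real (hwr x), eM, abs_mul]
    calc _ ≤ χ (hR L ψ x) * |(w x).re| * |(v x).re| * del L ψ x :=
          mul_le_mul_of_nonneg_right (mul_le_mul_of_nonneg_left hl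
            (mul_nonneg (hχ0 _) (abs_nonneg _))) (hg.del_pos (hCΩ hx)).le
      _ = _ := by ring
  have bM : (K + 9) * (∫ x, eM x) - ∫ x, eU x ≤ (K + 9) ^ 2 / 4 * en χ L ψ w := by
    rw [en, ← integral_const_mul, ← integral_const_mul, ← integral_sub (iM.const_mul _) iU]
    refine integral_mono ((iM.const_mul _).sub iU) (iW.const_mul _) fun x => ?_
    simp only [eM, eU]
    rcases Classical.em (x ∈ C) with hx | hx
    swap
    · simp [h0 x hx]
    have hq : (K + 9) * |(w x).re * (v x).re| - (v x).re ^ 2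
        ≤ (K + 9) ^ 2 / 4 * (w x).re ^ 2 := by
      rw [abs_mul, ← sq_abs (v x).re, ← sq_abs (w x).re]
      nlinarith [sq_nonneg (|(v x).re| - (K + 9) / 2 * |(w x).re|)]
    nlinarith [mul_le_mul_of_nonneg_left hq (mul_nonneg (hχ0 (hR L ψ x)) (hg.del_pos (hCΩ hx)).le)]
  rw [e4]
  nlinarith [b2, abs_le.1 b3, bM]

/-- The bump used to cut off the cone. -/
def bump : ContDiffBump (3 / 2 : ℝ) := ⟨1 / 4, 1 / 2, by norm_num, by norm_num⟩

theorem bump_zero {r : ℝ} (hr : r ∉ Icc (1 : ℝ) 2) : bump r = 0 := by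
  refine bump.zero_of_le_dist ?_
  rw [Real.dist_eq]
  rcases lt_or_ge r 1 with h | h
  · rw [abs_of_nonpos (by linarith)]; simp [bump]; linarith
  · have h2 : 2 < r := not_le.1 fun h2 => hr ⟨h, h2⟩
    rw [abs_of_nonneg (by linarith)]; simp [bump]; linarith

theorem deriv_bump_zero {r : ℝ} (hr : r ∉ Icc (1 : ℝ) 2) : deriv bump r = 0 := by
  have : (bump : ℝ → ℝ) =ᶠ[𝓝 r] fun _ => 0 :=
    eventually_of_mem (isClosed_Icc.isOpen_compl.mem_nhds hr) fun s hs => bump_zero hs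
  rw [this.deriv_eq, deriv_const]

/-- A variation of degree zero without energy vanishes. -/
theorem Good.eq_zero_of_en (hg : Good L ψ) (hC : IsCompact C) (hCΩ : C ⊆ Ω)
    (h0 : ∀ x ∉ C, bump (hR L ψ x) = 0) (hw : Sm Ω w) (hwd : Deg0 w)
    (hwr : ∀ x, conj (w x) = w x) (he : en bump L ψ w = 0) {Z : Hom} (hZ : Z ∈ Ω) : w Z = 0 := by
  have hnn : ∀ x, 0 ≤ bump (hR L ψ x) * (w x).re ^ 2 * del L ψ x := by
    intro x
    by_cases hx : x ∈ C
    · exact mul_nonneg (mul_nonneg bump.nonneg (sq_nonneg _)) (hg.del_pos (hCΩ hx)).le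
    · simp [h0 x hx]
  have hχ : ContDiff ℝ ∞ (bump : ℝ → ℝ) := bump.contDiff
  have hs : Sm Ω fun x => (bump (hR L ψ x) : ℂ) * (w x * w x) * (del L ψ x : ℂ) :=
    ⟨isOpen_Ω, ((hg.sm_cut hχ).smooth.mul (hw.smooth.mul hw.smooth)).mul hg.sm_del.smooth⟩
  have hFd := contDiff_of_support hs hC hCΩ fun x hx => by simp [h0 x hx]
  have hFc : Continuous fun x => bump (hR L ψ x) * (w x).re ^ 2 * del L ψ x := by
    refine (continuous_re.comp hFd.continuous).congr fun x => ?_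
    simp [Complex.conj_eq_iff_im.1 (hwr x), sq]
  have hFi : Integrable fun x => bump (hR L ψ x) * (w x).re ^ 2 * del L ψ x :=
    hg.integrable_en hχ hC hCΩ h0 hw
  have hall : (fun x => bump (hR L ψ x) * (w x).re ^ 2 * del L ψ x) = fun _ => 0 :=
    (hFc.ae_eq_iff_eq (μ := volume) continuous_const).1
      ((integral_eq_zero_iff_of_nonneg hnn hFi).1 he)
  have hh := hR_pos (L := L) (ψ := ψ) hZ
  set a : ℂ := ((Real.sqrt (3 / 2 / hR L ψ Z) : ℝ) : ℂ) with ha
  have hap : 0 < Real.sqrt (3 / 2 / hR L ψ Z) := Real.sqrt_pos.2 (by positivity)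
  have ha0 : a ≠ 0 := ofReal_ne_zero.2 hap.ne'
  have hmid : hR L ψ (a • Z) = 3 / 2 := by
    have e : hR L ψ (a • Z) = ‖a‖ ^ 2 * hR L ψ Z := by
      simp only [hR]
      rw [nR_smul, hg.scale a Z ha0 hZ]
      ring
    rw [e, ha, norm_real, Real.norm_of_nonneg hap.le, Real.sq_sqrt (by positivity),
      div_mul_cancel₀ _ hh.ne']
  have hone : bump (hR L ψ (a • Z)) = 1 :=
    bump.one_of_mem_closedBall (by rw [hmid]; exact Metric.mem_closedBall_self bump.rIn_pos.le)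
  have hzz := congrFun hall (a • Z)
  simp only [hone, one_mul, mul_eq_zero] at hzz
  rcases hzz with h | h
  · rw [← hwd a Z ha0 hZ]
    exact Complex.ext (sq_eq_zero_iff.1 h) (Complex.conj_eq_iff_im.1 (hwr _))
  · exact absurd h (hg.del_pos (smul_mem_Ω ha0 hZ)).ne'

end Vale.Agent.P264.Manifold

end
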