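import Mathlib
import Vale.Agent.P264.Manifold.Statement
import Vale.Agent.P264.Manifold.Targets
import Vale.Agent.P264.Manifold.Linear

/-!
Invariance under the unitary group of the last eight coordinates, tested on phases of one
coordinate and on plane rotations.
-/

open scoped Topology ContDiff ComplexConjugate
open Complex Filter Set Matrix
open Vale.Agent.P250.Disproof

noncomputable section

namespace Vale.Agent.P264.Manifold

/-- Generators of the phase of coordinate `k + 1` and of the rotation of the coordinates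
`k + 1` and `l + 1`. -/
def Gen (M : Matrix (Fin 9) (Fin 9) ℂ) : Prop :=
  (∃ k : Fin 8, M = Matrix.single k.succ k.succ I) ∨
    ∃ k l : Fin 8, k ≠ l ∧ M = Matrix.single l.succ k.succ 1 - Matrix.single k.succ l.succ 1

theorem gen_skew {M : Matrix (Fin 9) (Fin 9) ℂ} (hM : Gen M) : Skew M := by
  rcases hM with ⟨k, rfl⟩ | ⟨k, l, -, rfl⟩
  · intro a b
    simp only [Matrix.single_apply, apply_ite conj, conj_I, map_zero]
    split_ifs with h1 h2 h2
    · simp
    · exact absurd ⟨h1.2, h1.1⟩ h2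
    · exact absurd ⟨h2.2, h2.1⟩ h1
    · simp
  · intro a b
    simp only [Matrix.sub_apply, Matrix.single_apply, map_sub, apply_ite conj, map_one, map_zero]
    simp only [and_comm (a := k.succ = b), and_comm (a := l.succ = b), neg_sub]

/-- The phase of coordinate `k`. -/
def phU (k : Fin 8) (s : ℝ) : Matrix (Fin 8) (Fin 8) ℂ :=
  diagonal (Function.update 1 k (cexp (s * I)))

/-- The rotation of coordinates `k` and `l`. -/
def rotU (k l : Fin 8) (s : ℝ) : Matrix (Fin 8) (Fin 8) ℂ :=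
  1 + ((Real.cos s : ℂ) - 1) • (Matrix.single k k 1 + Matrix.single l l 1)
    + (Real.sin s : ℂ) • (Matrix.single l k 1 - Matrix.single k l 1)

theorem phU_mulVec (k : Fin 8) (s : ℝ) (v : Fin 8 → ℂ) :
    phU k s *ᵥ v = Function.update v k (cexp (s * I) * v k) := by
  ext j
  rw [phU, mulVec_diagonal]
  rcases eq_or_ne j k with rfl | h
  · simp
  · simp [h]

theorem rotU_mulVec {k l : Fin 8} (hkl : k ≠ l) (s : ℝ) (v : Fin 8 → ℂ) (j : Fin 8) :
    (rotU k l s *ᵥ v) j = if j = k then Real.cos s * v k - Real.sin s * v l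
      else if j = l then Real.sin s * v k + Real.cos s * v l else v j := by
  rcases eq_or_ne j k with rfl | h
  · simp [rotU, add_mulVec, sub_mulVec, smul_mulVec, single_mulVec, hkl]
    ring
  rcases eq_or_ne j l with rfl | h'
  · simp [rotU, add_mulVec, sub_mulVec, smul_mulVec, single_mulVec, h]
    ring
  · simp [rotU, add_mulVec, sub_mulVec, smul_mulVec, single_mulVec, h, h']

theorem phU_mem (k : Fin 8) (s : ℝ) : phU k s ∈ unitaryGroup (Fin 8) ℂ := by
  rw [mem_unitaryGroup_iff, phU, star_eq_conjTranspose, diagonal_conjTranspose,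
    diagonal_mul_diagonal, diagonal_eq_one]
  ext j
  rcases eq_or_ne j k with rfl | h
  · simp [← Complex.exp_conj, ← Complex.exp_add]
  · simp [h]

theorem star_rotU (k l : Fin 8) (s : ℝ) : star (rotU k l s) = rotU k l (-s) := by
  simp only [rotU, star_eq_conjTranspose, conjTranspose_add, conjTranspose_sub, conjTranspose_smul,
    conjTranspose_one, conjTranspose_single, star_one, Complex.star_def, map_sub, map_one,
    conj_ofReal, Real.cos_neg, Real.sin_neg, ofReal_neg]
  module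

theorem rotU_mem {k l : Fin 8} (hkl : k ≠ l) (s : ℝ) : rotU k l s ∈ unitaryGroup (Fin 8) ℂ := by
  rw [mem_unitaryGroup_iff', star_rotU]
  refine Matrix.ext_of_mulVec_single fun m => funext fun j => ?_
  have hcs : (Real.cos s : ℂ) ^ 2 + (Real.sin s : ℂ) ^ 2 = 1 := by
    exact_mod_cast Real.cos_sq_add_sin_sq s
  simp only [← mulVec_mulVec, one_mulVec, rotU_mulVec hkl, Real.cos_neg, Real.sin_neg, ofReal_neg]
  split_ifs with h1 h2 h3 <;> subst_vars
  all_goals first | contradiction | rfl | skip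
  · linear_combination ((Pi.single m 1 : Fin 8 → ℂ) j) * hcs
  · linear_combination ((Pi.single m 1 : Fin 8 → ℂ) j) * hcs

theorem single_cons (i j : Fin 8) (c a : ℂ) (u : Fin 8 → ℂ) :
    Matrix.single i.succ j.succ c *ᵥ (Fin.cons a u : Hom) = Fin.cons 0 (Pi.single i (c * u j)) := by
  ext m
  refine Fin.cases ?_ (fun n => ?_) m
  · simp [single_mulVec, (Fin.succ_ne_zero i).symm]
  · simp [single_mulVec, Function.update_apply, Pi.single_apply]

theorem hasDerivAt_cons {u : ℝ → Fin 8 → ℂ} {u' : Fin 8 → ℂ} (a : ℂ) {s : ℝ}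
    (h : ∀ j, HasDerivAt (fun r => u r j) (u' j) s) :
    HasDerivAt (fun r => (Fin.cons a (u r) : Hom)) (Fin.cons 0 u') s :=
  hasDerivAt_pi.2 fun m => Fin.cases (by simpa using hasDerivAt_const s a)
    (fun n => by simpa using h n) m

theorem hasDerivAt_phU (k : Fin 8) (a : ℂ) (v : Fin 8 → ℂ) (s : ℝ) :
    HasDerivAt (fun r => (Fin.cons a (phU k r *ᵥ v) : Hom))
      (Matrix.single k.succ k.succ I *ᵥ (Fin.cons a (phU k s *ᵥ v) : Hom)) s := by
  rw [single_cons]
  refine hasDerivAt_cons a fun j => ?_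
  simp only [phU_mulVec]
  rcases eq_or_ne j k with rfl | h
  · simp only [Function.update_self, Pi.single_eq_same]
    have h1 : HasDerivAt (fun r : ℝ => (r : ℂ) * I) I s := by
      simpa using (ofRealCLM.hasDerivAt (x := s)).mul_const I
    exact (h1.cexp.mul_const (v j)).congr_deriv (by ring)
  · simpa [h] using hasDerivAt_const s (v j)

theorem hasDerivAt_rotU {k l : Fin 8} (hkl : k ≠ l) (a : ℂ) (v : Fin 8 → ℂ) (s : ℝ) :
    HasDerivAt (fun r => (Fin.cons a (rotU k l r *ᵥ v) : Hom))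
      ((Matrix.single l.succ k.succ 1 - Matrix.single k.succ l.succ 1) *ᵥ
        (Fin.cons a (rotU k l s *ᵥ v) : Hom)) s := by
  rw [sub_mulVec, single_cons, single_cons]
  have hc := ((Real.hasDerivAt_cos s).ofReal_comp)
  have hs := ((Real.hasDerivAt_sin s).ofReal_comp)
  refine (hasDerivAt_cons (u := fun r => rotU k l r *ᵥ v)
    (u' := Pi.single l ((rotU k l s *ᵥ v) k) - Pi.single k ((rotU k l s *ᵥ v) l)) a
    fun j => ?_).congr_deriv ?_
  · simp only [rotU_mulVec hkl]
    rcases eq_or_ne j k with rfl | h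
    · simp only [↓reduceIte, Pi.sub_apply, Pi.single_eq_same, Pi.single_eq_of_ne hkl]
      refine ((hc.mul_const _).sub (hs.mul_const _)).congr_deriv ?_
      simp [hkl.symm]
      ring
    rcases eq_or_ne j l with rfl | h'
    · simp only [h, ↓reduceIte, Pi.sub_apply, Pi.single_eq_same, Pi.single_eq_of_ne h]
      refine ((hs.mul_const _).add (hc.mul_const _)).congr_deriv ?_
      simp
      ring
    · simpa [h, h'] using hasDerivAt_const s (v j)
  · ext m
    refine Fin.cases ?_ (fun n => ?_) m <;> simp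

variable {L : ℝ} {ψ : Hom → ℝ} {M : Matrix (Fin 9) (Fin 9) ℂ}

theorem Pre.hasDerivAt_curve (hg : Pre L ψ) {γ : ℝ → Hom} {s : ℝ} (hs : γ s ∈ Ω)
    (hγ : HasDerivAt γ (M *ᵥ γ s) s) :
    HasDerivAt (fun r => (ψ (γ r) : ℂ)) (wC M ψ (γ s)) s :=
  (hg.sm_psi.diffAt hs).hasFDerivAt.comp_hasDerivAt s hγ

theorem invariant_wC_zero (hg : Pre L ψ) (hi : Invariant ψ) (hM : Gen M) :
    ∀ Z ∈ Ω, wC M ψ Z = 0 := by
  intro Z hZ
  have key : ∀ U : ℝ → Matrix (Fin 8) (Fin 8) ℂ, (∀ s, U s ∈ unitaryGroup (Fin 8) ℂ) →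
      HasDerivAt (fun r => act (U r) Z) (M *ᵥ act (U 0) Z) 0 → U 0 = 1 → wC M ψ Z = 0 := by
    intro U hU hd h1
    have e : act (U 0) Z = Z := by rw [h1, act, one_mulVec, Fin.cons_self_tail]
    have h := hg.hasDerivAt_curve (γ := fun r => act (U r) Z) (s := 0)
      (show act (U 0) Z ∈ Ω by rw [e]; exact hZ) hd
    simp only [fun r => hi (U r) (hU r) Z hZ, e] at h
    exact h.unique (hasDerivAt_const 0 _)
  rcases hM with ⟨k, rfl⟩ | ⟨k, l, hkl, rfl⟩
  · exact key (phU k) (phU_mem k) (hasDerivAt_phU k _ _ 0) (by simp [phU])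
  · exact key (rotU k l) (rotU_mem hkl) (hasDerivAt_rotU hkl _ _ 0) (by simp [rotU])

theorem invariant_of_wC_zero (hg : Pre L ψ)
    (h : ∀ M, Gen M → ∀ Z ∈ Ω, wC M ψ Z = 0) : Invariant ψ := by
  have curve : ∀ {M}, Gen M → ∀ γ : ℝ → Hom, (∀ s, γ s ∈ Ω) →
      (∀ s, HasDerivAt γ (M *ᵥ γ s) s) → ∀ s, ψ (γ s) = ψ (γ 0) := by
    intro M hM γ hmem hγ s
    have hd : ∀ r, HasDerivAt (fun r => (ψ (γ r) : ℂ)) 0 r := fun r =>
      (h M hM _ (hmem r)) ▸ hg.hasDerivAt_curve (hmem r) (hγ r)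
    exact ofReal_injective
      (is_const_of_deriv_eq_zero (fun r => (hd r).differentiableAt) (fun r => (hd r).deriv) s 0)
  have hne : ∀ {a : ℂ} {u : Fin 8 → ℂ} {U : Matrix (Fin 8) (Fin 8) ℂ},
      U ∈ unitaryGroup (Fin 8) ℂ → (Fin.cons a u : Hom) ∈ Ω →
      (Fin.cons a (U *ᵥ u) : Hom) ∈ Ω := by
    intro a u U hU hu h0
    apply hu
    have h1 : a = 0 := congrFun h0 0
    have h2 : U *ᵥ u = 0 := funext fun j => by simpa using congrFun h0 j.succ
    have h3 : u = 0 := by
      rw [← one_mulVec u, ← mem_unitaryGroup_iff'.1 hU, ← mulVec_mulVec, h2, mulVec_zero]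
    subst h1 h3
    exact funext fun m => Fin.cases rfl (fun _ => rfl) m
  have phase : ∀ (k : Fin 8) (a : ℂ) (u : Fin 8 → ℂ), (Fin.cons a u : Hom) ∈ Ω → ∀ s,
      ψ (Fin.cons a (phU k s *ᵥ u)) = ψ (Fin.cons a u) := by
    intro k a u hu s
    have := curve (Or.inl ⟨k, rfl⟩) (fun r => Fin.cons a (phU k r *ᵥ u))
      (fun r => hne (phU_mem k r) hu) (hasDerivAt_phU k a u) s
    simpa [phU] using this
  have rot : ∀ (k l : Fin 8), k ≠ l → ∀ (a : ℂ) (u : Fin 8 → ℂ), (Fin.cons a u : Hom) ∈ Ω →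
      ∀ s, ψ (Fin.cons a (rotU k l s *ᵥ u)) = ψ (Fin.cons a u) := by
    intro k l hkl a u hu s
    have := curve (Or.inr ⟨k, l, hkl, rfl⟩) (fun r => Fin.cons a (rotU k l r *ᵥ u))
      (fun r => hne (rotU_mem hkl r) hu) (hasDerivAt_rotU hkl a u) s
    simpa [rotU] using this
  let F : (Fin 8 → ℂ) → ℝ := fun u => Real.sqrt (∑ j, ‖u j‖ ^ 2)
  suffices key : ∀ a u, (Fin.cons a u : Hom) ∈ Ω →
      ψ (Fin.cons a u) = ψ (Fin.cons a (Pi.single 0 (F u : ℂ))) by
    intro U hU Z hZ
    have e : F (U *ᵥ Fin.tail Z) = F (Fin.tail Z) := by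
      have nn : ∀ u : Fin 8 → ℂ, ((∑ j, ‖u j‖ ^ 2 : ℝ) : ℂ) = star u ⬝ᵥ u := fun u => by
        simp [dotProduct, Complex.conj_mul']
      refine congrArg Real.sqrt (ofReal_injective ?_)
      rw [nn, nn, star_mulVec, ← dotProduct_mulVec, mulVec_mulVec, ← star_eq_conjTranspose,
        mem_unitaryGroup_iff'.1 hU, one_mulVec]
    have hc : (Fin.cons (Z 0) (Fin.tail Z) : Hom) ∈ Ω := by rw [Fin.cons_self_tail]; exact hZ
    rw [act, key _ _ (hne hU hc), e, ← key _ _ hc, Fin.cons_self_tail]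
  intro a v hv
  have step1 : ∀ S : Finset (Fin 8),
      (Fin.cons a (fun j => if j ∈ S then (‖v j‖ : ℂ) else v j) : Hom) ∈ Ω ∧
      ψ (Fin.cons a v) = ψ (Fin.cons a fun j => if j ∈ S then (‖v j‖ : ℂ) else v j) := by
    intro S
    induction S using Finset.induction_on with
    | empty => exact ⟨by simpa using hv, by simp⟩
    | @insert k S hk ih =>
      have e : (fun j => if j ∈ insert k S then (‖v j‖ : ℂ) else v j)
          = phU k (-(v k).arg) *ᵥ fun j => if j ∈ S then (‖v j‖ : ℂ) else v j := by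
        rw [phU_mulVec]
        ext j
        rcases eq_or_ne j k with rfl | hj
        · simp [hk]
          conv_rhs => rw [← Complex.norm_mul_exp_arg_mul_I (v j)]
          rw [mul_left_comm, ← Complex.exp_add]
          simp
        · simp [hj]
      rw [e]
      exact ⟨hne (phU_mem k _) ih.1, ih.2.trans (phase k a _ ih.1 _).symm⟩
  let r : Fin 8 → ℝ := fun j => ‖v j‖
  let w : Finset (Fin 8) → Fin 8 → ℂ := fun S j =>
    if j = 0 then (Real.sqrt (r 0 ^ 2 + ∑ m ∈ S, r m ^ 2) : ℂ) else if j ∈ S then 0 else (r j : ℂ)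
  have step2 : ∀ S : Finset (Fin 8), (0 : Fin 8) ∉ S →
      (Fin.cons a (w S) : Hom) ∈ Ω ∧ ψ (Fin.cons a v) = ψ (Fin.cons a (w S)) := by
    intro S
    induction S using Finset.induction_on with
    | empty =>
      intro _
      have e : w ∅ = fun j => if j ∈ (Finset.univ : Finset (Fin 8)) then (‖v j‖ : ℂ) else v j := by
        ext j
        by_cases hj : j = 0
        · subst hj; simp [w, r]
        · simp [w, hj, r]
      rw [e]
      exact step1 Finset.univ
    | @insert k S hk ih =>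
      intro h0
      rw [Finset.mem_insert, not_or] at h0
      obtain ⟨ihm, ihe⟩ := ih h0.2
      set A := Real.sqrt (r 0 ^ 2 + ∑ m ∈ S, r m ^ 2)
      set z : ℂ := (A : ℂ) + (r k : ℂ) * I with hz
      have hA : A ^ 2 = r 0 ^ 2 + ∑ m ∈ S, r m ^ 2 := Real.sq_sqrt (by positivity)
      have zr : z.re = A := by simp [hz]
      have zi : z.im = r k := by simp [hz]
      have hn : ‖z‖ ^ 2 = A ^ 2 + r k ^ 2 := by
        rw [Complex.sq_norm, Complex.normSq_apply, zr, zi]; ring
      have c0 : ‖z‖ * Real.cos z.arg = A := by rw [Complex.norm_mul_cos_arg, zr]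
      have s0 : ‖z‖ * Real.sin z.arg = r k := by rw [Complex.norm_mul_sin_arg, zi]
      have hsum : Real.sqrt (r 0 ^ 2 + ∑ m ∈ insert k S, r m ^ 2) = ‖z‖ := by
        rw [Finset.sum_insert hk, ← Real.sqrt_sq (norm_nonneg z), hn, hA]
        ring_nf
      have e : w (insert k S) = rotU 0 k (-z.arg) *ᵥ w S := by
        ext j
        rw [rotU_mulVec h0.1, Real.cos_neg, Real.sin_neg]
        have w0 : w S 0 = (A : ℂ) := by simp [w, A]
        have wk : w S k = (r k : ℂ) := by simp [w, hk, Ne.symm h0.1]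
        rcases eq_or_ne j 0 with rfl | hj
        · simp only [↓reduceIte, w0, wk]
          simp only [w, ↓reduceIte, hsum]
          norm_cast
          rw [← c0, ← s0]
          have := Real.cos_sq_add_sin_sq z.arg
          linear_combination (-‖z‖) * this
        rcases eq_or_ne j k with rfl | hjk
        · simp only [hj, ↓reduceIte, w0, wk]
          simp only [w, hj, ↓reduceIte, Finset.mem_insert_self]
          norm_cast
          rw [← c0, ← s0]
          ring
        · simp [w, hj, hjk]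
      rw [e]
      exact ⟨hne (rotU_mem h0.1 _) ihm, ihe.trans (rot 0 k h0.1 a _ ihm _).symm⟩
  obtain ⟨-, he⟩ := step2 (Finset.univ.erase 0) (Finset.notMem_erase _ _)
  rw [he]
  congr 2
  ext j
  rcases eq_or_ne j 0 with rfl | hj
  · simp only [w, ↓reduceIte, Pi.single_eq_same, r, F]
    rw [Finset.add_sum_erase _ (fun j => ‖v j‖ ^ 2) (Finset.mem_univ _)]
  · simp [w, hj]

end Vale.Agent.P264.Manifold

end
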