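import Mathlib
import Vale.Agent.P264.Manifold.Targets
import Vale.Agent.P264.Manifold.Rotations
import Vale.Agent.P264.Manifold.Cross
import Vale.Agent.P264.Manifold.InvariantTerms

/-!
A Calabi flow from an invariant potential is invariant: the energy of the infinitesimal variation
along a rotation satisfies `E' ≤ c E` and starts at zero.
-/

open scoped Topology ContDiff ComplexConjugate ComplexOrder
open Complex Filter Set Matrix MeasureTheory
open Vale.Agent.P250.Disproof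

noncomputable section

namespace Vale.Agent.P264.Manifold

variable {L T b : ℝ} {ψ₀ : Hom → ℝ} {ψt : ℝ → Hom → ℝ} {M : Matrix (Fin 9) (Fin 9) ℂ}

/-- The time derivative of the variation is the variation of the velocity. -/
theorem flow_dt_wC (hL : 0 < L) (h : IsCalabiFlow L T b ψ₀ ψt) {s : ℝ}
    (hs : s ∈ Ioo 0 T) {x : Hom} (hx : x ∈ Ω) :
    HasDerivAt (fun r => wC M (ψt r) x) (xd M (vel L b (ψt s)) x) s ∧
      HasDerivAt (fun r => ψt r x) (vel L b (ψt s) x).re s := by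
  have hψ : SmP (Ioo 0 T) Ω fun t x => (ψt t x : ℂ) :=
    ⟨isOpen_Ioo.uniqueDiffOn, isOpen_Ω, ofRealCLM.contDiff.comp_contDiffOn
      (h.smooth.mono (prod_mono Ioo_subset_Icc_self subset_rfl))⟩
  have g := good_of_isKahler hL (h.kahler s (Ioo_subset_Icc_self hs))
  have hre : ∀ y ∈ Ω, HasDerivAt (fun r => ψt r y) (vel L b (ψt s) y).re s := fun y hy => by
    have h1 : HasDerivAt (fun r => (ψt r y : ℂ)) _ s := hψ.hasDerivAt isOpen_Ioo hs hy
    have h2 : HasDerivAt (fun r => ψt r y) (dt (fun t x => (ψt t x : ℂ)) s y).re s :=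
      Complex.reCLM.hasFDerivAt.comp_hasDerivAt s h1
    rw [← flow_eq hL h hs hy]
    exact h2.differentiableAt.hasDerivAt
  have hd : ∀ y ∈ Ω, dt (fun t x => (ψt t x : ℂ)) s y = vel L b (ψt s) y := fun y hy => by
    rw [show dt (fun t x => (ψt t x : ℂ)) s y = _ from (hre y hy).ofReal_comp.deriv]
    exact Complex.conj_eq_iff_re.1 (g.conj_vel b hy)
  refine ⟨?_, hre x hx⟩
  have hw := (smP_xd hψ M).hasDerivAt isOpen_Ioo hs hx
  rwa [show dt (fun t => xd M fun x => (ψt t x : ℂ)) s x = xd M (vel L b (ψt s)) x from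
    (dt_dd hψ isOpen_Ioo hs hx (M *ᵥ x)).trans
      (dd_congr (eventually_of_mem (isOpen_Ω.mem_nhds hx) hd) _)] at hw

/-- The density of the energy and its time derivative. -/
theorem flow_dt_density (hL : 0 < L) (h : IsCalabiFlow L T b ψ₀ ψt) (hM : Skew M)
    {χ : ℝ → ℝ} (hχ : ContDiff ℝ ∞ χ) {s : ℝ} (hs : s ∈ Ioo 0 T) {x : Hom} (hx : x ∈ Ω) :
    dt (fun t y => (χ (hR L (ψt t) y) : ℂ) * (wC M (ψt t) y * wC M (ψt t) y) *
        (del L (ψt t) y : ℂ)) s x
      = ((deriv χ (hR L (ψt s) x) * hR L (ψt s) x : ℝ) : ℂ) *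
          (vel L b (ψt s) x * (wC M (ψt s) x * wC M (ψt s) x) / (L : ℂ)) * (del L (ψt s) x : ℂ)
        + (2 / (L : ℂ) ^ 2) *
          ((χ (hR L (ψt s) x) : ℂ) * wC M (ψt s) x *
              (hC L (ψt s) x ^ 2 * (gA L (ψt s) x * Manifold.hs (wC M (ψt s)) x * gA L (ψt s) x *
                Manifold.hs (dC L (ψt s)) x).trace) * (del L (ψt s) x : ℂ)
            - 9 * ((χ (hR L (ψt s) x) : ℂ) * wC M (ψt s) x * uC L M (ψt s) x *
                (del L (ψt s) x : ℂ))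
            - ((χ (hR L (ψt s) x) * hR L (ψt s) x : ℝ) : ℂ) * wC M (ψt s) x *
                lap L (ψt s) (uC L M (ψt s)) x * (del L (ψt s) x : ℂ))
        + (χ (hR L (ψt s) x) : ℂ) * (wC M (ψt s) x * wC M (ψt s) x) *
            dt (fun r y => (del L (ψt r) y : ℂ)) s x := by
  have g := good_of_isKahler hL (h.kahler s (Ioo_subset_Icc_self hs))
  obtain ⟨hw, hψ⟩ := flow_dt_wC (M := M) hL h hs hx
  have hh : HasDerivAt (fun r => hR L (ψt r) x)
      (hR L (ψt s) x * ((vel L b (ψt s) x).re / L)) s := by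
    refine ((hψ.div_const L).exp.const_mul (nR x)).congr_deriv ?_
    simp only [hR]; ring
  have hc : HasDerivAt (fun r => (χ (hR L (ψt r) x) : ℂ))
      ((deriv χ (hR L (ψt s) x) * (hR L (ψt s) x * ((vel L b (ψt s) x).re / L)) : ℝ) : ℂ) s :=
    (((hχ.differentiable (by simp) _).hasDerivAt).comp s hh).ofReal_comp
  have hP : SmP (Ioo 0 T) Ω fun t y => (del L (ψt t) y : ℂ) :=
    smP_del isOpen_Ioo.uniqueDiffOn (h.smooth.mono (prod_mono Ioo_subset_Icc_self subset_rfl))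
      fun t ht => good_of_isKahler hL (h.kahler t (Ioo_subset_Icc_self ht))
  have hall := (hc.fun_mul (hw.fun_mul hw)).fun_mul (hP.hasDerivAt isOpen_Ioo hs hx)
  rw [show dt (fun t y => (χ (hR L (ψt t) y) : ℂ) * (wC M (ψt t) y * wC M (ψt t) y) *
    (del L (ψt t) y : ℂ)) s x = _ from hall.deriv, g.xd_vel hM b hx]
  push_cast
  rw [Complex.conj_eq_iff_re.1 (g.conj_vel b hx)]
  simp only [Manifold.hC]
  field_simp
  ring

theorem invariant_congr {ψ ψ' : Hom → ℝ} (h : ∀ Z, Z ≠ 0 → ψ' Z = ψ Z) (hi : Invariant ψ) :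
    Invariant ψ' := by
  intro U hU Z hZ
  have hne : act U Z ≠ 0 := fun h0 => by
    apply hZ
    have h1 : Z 0 = 0 := congrFun h0 0
    have h2 : U *ᵥ Fin.tail Z = 0 := funext fun j => by simpa [act] using congrFun h0 j.succ
    have h3 : Fin.tail Z = 0 := by
      rw [← one_mulVec (Fin.tail Z), ← mem_unitaryGroup_iff'.1 hU, ← mulVec_mulVec, h2,
        mulVec_zero]
    exact funext fun m => Fin.cases h1 (fun j => congrFun h3 j) m
  rw [h _ hne, h _ hZ, hi U hU Z hZ]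

theorem Pre.wC_conj_all {ψ : Hom → ℝ} (hg : Pre L ψ) (x : Hom) :
    conj (wC M ψ x) = wC M ψ x := by
  by_cases hx : x ∈ Ω
  · exact hg.wC_conj hx
  · obtain rfl : x = 0 := not_not.1 hx
    simp [wC, xd, dd_zero_dir]

theorem Good.uC_conj_all {ψ : Hom → ℝ} (hg : Good L ψ) (x : Hom) :
    conj (uC L M ψ x) = uC L M ψ x := by
  by_cases hx : x ∈ Ω
  · rw [uC, map_mul, hC_conj, hg.conj_lap hg.toPre.sm_wC hg.toPre.wC_conj_all hx]
  · obtain rfl : x = 0 := not_not.1 hx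
    simp [uC, Manifold.hC, hR, nR]

/-- The integrated derivative is at most a multiple of the energy. -/
theorem flow_dt_le (hL : 0 < L) (h : IsCalabiFlow L T b ψ₀ ψt) (hM : Skew M)
    {C : Set Hom} (hC : IsCompact C) (hCΩ : C ⊆ Ω)
    (h0 : ∀ t ∈ Icc 0 T, ∀ x ∉ C, hR L (ψt t) x ∉ Icc (1 : ℝ) 2)
    {K V D δ : ℝ} (hK0 : 0 ≤ K) {s : ℝ} (hs : s ∈ Ioo 0 T)
    (hK : ‖∫ x, (bump (hR L (ψt s) x) : ℂ) * wC M (ψt s) x *
        (Manifold.hC L (ψt s) x ^ 2 * (gA L (ψt s) x * Manifold.hs (wC M (ψt s)) x *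
          gA L (ψt s) x * Manifold.hs (dC L (ψt s)) x).trace) * (del L (ψt s) x : ℂ)‖
      ≤ K * ∫ x, bump (hR L (ψt s) x) * ((wC M (ψt s) x).re ^ 2 +
          (pair L (ψt s) (wC M (ψt s)) (wC M (ψt s)) x).re) * del L (ψt s) x)
    (hV : ∀ x ∈ C, ‖vel L b (ψt s) x‖ ≤ V)
    (hD : ∀ x ∈ C, ‖dt (fun r y => (del L (ψt r) y : ℂ)) s x‖ ≤ D)
    (hδ : ∀ x ∈ C, 1 ≤ δ * del L (ψt s) x) :
    (∫ x, dt (fun t y => (bump (hR L (ψt t) y) : ℂ) * (wC M (ψt t) y * wC M (ψt t) y) *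
        (del L (ψt t) y : ℂ)) s x).re
      ≤ (9 * V / L + 2 / L ^ 2 * (K + (K + 9) ^ 2 / 4) + δ * D) *
          en bump L (ψt s) (wC M (ψt s)) := by
  have hs' : s ∈ Icc 0 T := Ioo_subset_Icc_self hs
  have g := good_of_isKahler hL (h.kahler s hs')
  have hχ : ContDiff ℝ ∞ (bump : ℝ → ℝ) := bump.contDiff
  have z0 : ∀ x ∉ C, bump (hR L (ψt s) x) = 0 := fun x hx => bump_zero (h0 s hs' x hx)
  have z1 : ∀ x ∉ C, deriv bump (hR L (ψt s) x) = 0 := fun x hx => deriv_bump_zero (h0 s hs' x hx)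
  have hws : Sm Ω (wC M (ψt s)) := g.toPre.sm_wC
  have hus : Sm Ω (uC L M (ψt s)) := g.sm_uC
  have hdO : SmP (Ioo 0 T) Ω fun t y => (del L (ψt t) y : ℂ) :=
    smP_del isOpen_Ioo.uniqueDiffOn (h.smooth.mono (prod_mono Ioo_subset_Icc_self subset_rfl))
      fun t ht => good_of_isKahler hL (h.kahler t (Ioo_subset_Icc_self ht))
  let A₁ : Hom → ℂ := fun x => ((deriv bump (hR L (ψt s) x) * hR L (ψt s) x : ℝ) : ℂ) *
    (vel L b (ψt s) x * (wC M (ψt s) x * wC M (ψt s) x) / (L : ℂ)) * (del L (ψt s) x : ℂ)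
  let A₂ : Hom → ℂ := fun x => (bump (hR L (ψt s) x) : ℂ) * wC M (ψt s) x *
    (Manifold.hC L (ψt s) x ^ 2 * (gA L (ψt s) x * Manifold.hs (wC M (ψt s)) x * gA L (ψt s) x *
      Manifold.hs (dC L (ψt s)) x).trace) * (del L (ψt s) x : ℂ)
  let A₃ : Hom → ℂ := fun x => (bump (hR L (ψt s) x) : ℂ) * wC M (ψt s) x * uC L M (ψt s) x *
    (del L (ψt s) x : ℂ)
  let A₄ : Hom → ℂ := fun x => ((bump (hR L (ψt s) x) * hR L (ψt s) x : ℝ) : ℂ) *
    wC M (ψt s) x * lap L (ψt s) (uC L M (ψt s)) x * (del L (ψt s) x : ℂ)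
  let A₅ : Hom → ℂ := fun x => (bump (hR L (ψt s) x) : ℂ) * (wC M (ψt s) x * wC M (ψt s) x) *
    dt (fun r y => (del L (ψt r) y : ℂ)) s x
  have hpt : ∀ x, dt (fun t y => (bump (hR L (ψt t) y) : ℂ) * (wC M (ψt t) y * wC M (ψt t) y) *
      (del L (ψt t) y : ℂ)) s x
        = A₁ x + (2 / (L : ℂ) ^ 2) * (A₂ x - 9 * A₃ x - A₄ x) + A₅ x := by
    intro x
    by_cases hx : x ∈ C
    · exact flow_dt_density hL h hM hχ hs (hCΩ hx)
    · have he : (fun r => (bump (hR L (ψt r) x) : ℂ) * (wC M (ψt r) x * wC M (ψt r) x) *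
          (del L (ψt r) x : ℂ)) =ᶠ[𝓝 s] fun _ => (0 : ℂ) :=
        eventually_of_mem (Icc_mem_nhds hs.1 hs.2) fun r hr => by
          simp [bump_zero (h0 r hr x hx)]
      rw [dt, he.deriv_eq, deriv_const]
      simp [A₁, A₂, A₃, A₄, A₅, z0 x hx, z1 x hx]
  have hb : ContinuousOn (fun x => bump (hR L (ψt s) x)) Ω :=
    hχ.continuous.comp_continuousOn (continuousOn_hR g.toPre)
  have hc : ContinuousOn (fun x => (bump (hR L (ψt s) x) : ℂ)) Ω :=
    continuous_ofReal.comp_continuousOn hb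
  have hw0 : ContinuousOn (wC M (ψt s)) Ω := hws.smooth.continuousOn
  have hd0 : ContinuousOn (fun x => (del L (ψt s) x : ℂ)) Ω := g.sm_del.smooth.continuousOn
  have j1 : Integrable A₁ := integrable_of_support (((continuous_ofReal.comp_continuousOn
    (((hχ.continuous_deriv (by simp)).comp_continuousOn (continuousOn_hR g.toPre)).mul
      (continuousOn_hR g.toPre))).mul
    (((g.sm_vel b).smooth.continuousOn.mul (hw0.mul hw0)).div_const _)).mul hd0) hC hCΩ
    fun x hx => by simp [A₁, z1 x hx]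
  have j2 : Integrable A₂ := by
    have hA : ContinuousOn (fun x => gA L (ψt s) x) Ω :=
      continuousOn_pi.2 fun j => continuousOn_pi.2 fun k => (g.sm_gA j k).smooth.continuousOn
    have hH : ∀ {F : Hom → ℂ}, Sm Ω F → ContinuousOn (fun x => Manifold.hs F x) Ω := fun hF =>
      continuousOn_pi.2 fun j => continuousOn_pi.2 fun k => ((hF.dzb' _).dz' _).smooth.continuousOn
    exact integrable_of_support (((hc.mul hw0).mul ((g.sm_hC.smooth.continuousOn.pow 2).mul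
      ((continuous_id.matrix_trace).comp_continuousOn
        (((hA.mul (hH hws)).mul hA).mul (hH g.sm_dC))))).mul hd0) hC hCΩ
      fun x hx => by simp [A₂, z0 x hx]
  have j3 : Integrable A₃ := integrable_of_support (((hc.mul hw0).mul hus.smooth.continuousOn).mul
    hd0) hC hCΩ fun x hx => by simp [A₃, z0 x hx]
  have j4 : Integrable A₄ := integrable_of_support ((((continuous_ofReal.comp_continuousOn
    (hb.mul (continuousOn_hR g.toPre))).mul hw0).mul (g.sm_lap hus).smooth.continuousOn).mul hd0)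
    hC hCΩ fun x hx => by simp [A₄, z0 x hx]
  have j5 : Integrable A₅ := integrable_of_support ((hc.mul (hw0.mul hw0)).mul
    ((hdO.dt' isOpen_Ioo).slice hs).smooth.continuousOn) hC hCΩ fun x hx => by simp [A₅, z0 x hx]
  have j234 : Integrable fun x => A₂ x - 9 * A₃ x - A₄ x := (j2.sub (j3.const_mul 9)).sub j4
  have e23 : ∫ x, (A₂ x - 9 * A₃ x - A₄ x) = (∫ x, A₂ x) - 9 * (∫ x, A₃ x) - ∫ x, A₄ x := by
    rw [integral_sub (j2.sub' (j3.const_mul 9)) j4, integral_sub j2 (j3.const_mul 9),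
      integral_const_mul]
  simp only [hpt]
  rw [integral_add (j1.fun_add (j234.const_mul _)) j5, integral_add j1 (j234.const_mul _),
    integral_const_mul, e23, show (2 / (L : ℂ) ^ 2) = ((2 / L ^ 2 : ℝ) : ℂ) by push_cast; rfl,
    Complex.add_re, Complex.add_re, Complex.re_ofReal_mul, Complex.sub_re, Complex.sub_re,
    show (9 : ℂ) = ((9 : ℝ) : ℂ) by norm_num, Complex.re_ofReal_mul]
  have b1 := g.cutoff_le hL hχ (fun _ => bump.nonneg) hC hCΩ z0 z1 hws g.toPre.deg0_wC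
    g.toPre.wC_conj_all (g.sm_vel b) (g.deg0_vel b) hV
  have hsupp : ∀ r, bump r ≠ 0 → (1 : ℝ) ≤ r := fun r hr =>
    (by_contra fun hI => hr (bump_zero hI) : r ∈ Icc (1 : ℝ) 2).1
  have bm := g.main_le hχ (fun _ => bump.nonneg) hsupp hC hCΩ z0 hws g.toPre.deg0_wC
    g.toPre.wC_conj_all hus g.deg0_uC g.uC_conj_all (fun _ => rfl) hK0
    (J := fun x => Manifold.hC L (ψt s) x ^ 2 * (gA L (ψt s) x * Manifold.hs (wC M (ψt s)) x *
      gA L (ψt s) x * Manifold.hs (dC L (ψt s)) x).trace) hK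
  have b5 := g.volume_le hχ (fun _ => bump.nonneg) hC hCΩ z0 hws g.toPre.wC_conj_all
    (G := fun x => dt (fun r y => (del L (ψt r) y : ℂ)) s x) hD hδ
  calc _ ≤ 9 * V / L * en bump L (ψt s) (wC M (ψt s))
        + 2 / L ^ 2 * ((K + (K + 9) ^ 2 / 4) * en bump L (ψt s) (wC M (ψt s)))
        + δ * D * en bump L (ψt s) (wC M (ψt s)) :=
        add_le_add (add_le_add b1 (mul_le_mul_of_nonneg_left bm (by positivity))) b5
    _ = _ := by ring

/-- The flow from an invariant form is invariant. -/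
theorem invariantFlow : InvariantFlowTarget := by
  intro L T b ψ₀ ψt hL hT hinv hflow t₁ ht₁
  have hgood : ∀ t ∈ Icc 0 T, Good L (ψt t) := fun t ht => good_of_isKahler hL (hflow.kahler t ht)
  refine invariant_of_wC_zero (hgood t₁ ht₁).toPre fun M hM Z hZ => ?_
  have hPu : UniqueDiffOn ℝ (Icc (0 : ℝ) T) := uniqueDiffOn_Icc hT
  have hsm : ContDiffOn ℝ ∞ (Function.uncurry ψt) (Icc 0 T ×ˢ Ω) := hflow.smooth
  obtain ⟨C, hC, hCΩ, hCh⟩ := exists_compact_level_family (L := L) (χ := fun r =>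
      if r ∈ Icc (1 : ℝ) 2 then 1 else 0) isCompact_Icc (nonempty_Icc.2 hT.le) hsm.continuousOn
    (fun t ht => (hgood t ht).toPre.scale) (fun r hr => if_neg hr) one_pos
  have hout : ∀ t ∈ Icc 0 T, ∀ x ∉ C, hR L (ψt t) x ∉ Icc (1 : ℝ) 2 := fun t ht x hx hI => by
    have := hCh t ht x hx
    simp [hI] at this
  have h0 : ∀ t ∈ Icc 0 T, ∀ x ∉ C, bump (hR L (ψt t) x) = 0 := fun t ht x hx =>
    bump_zero (hout t ht x hx)
  have hχ : ContDiff ℝ ∞ (bump : ℝ → ℝ) := bump.contDiff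
  obtain ⟨K, hK0, hK⟩ := cross_le hPu isCompact_Icc hsm hgood hχ (fun _ => bump.nonneg) hC hCΩ h0
  obtain ⟨V, hV⟩ := (isCompact_Icc.prod hC).exists_bound_of_continuousOn
    ((smP_vel b hPu hsm hgood).smooth.continuousOn.mono (prod_mono subset_rfl hCΩ))
  have hdel := smP_del hPu hsm hgood
  obtain ⟨D, hD⟩ := exists_bound_dt hT hdel hC hCΩ
  obtain ⟨δ, hδ⟩ := (isCompact_Icc.prod hC).exists_bound_of_continuousOn
    ((hdel.inv' fun t ht x hx =>
      ofReal_ne_zero.2 ((hgood t ht).del_pos hx).ne').smooth.continuousOn.mono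
        (prod_mono subset_rfl hCΩ))
  set f : ℝ → Hom → ℂ := fun t x => (bump (hR L (ψt t) x) : ℂ) *
    (wC M (ψt t) x * wC M (ψt t) x) * (del L (ψt t) x : ℂ) with hfdef
  have hhR : ContDiffOn ℝ ∞ (Function.uncurry fun t x => hR L (ψt t) x) (Icc 0 T ×ˢ Ω) :=
    ((contDiff_nR.comp contDiff_snd).contDiffOn).mul (hsm.div_const L).exp
  have hwP : SmP (Icc 0 T) Ω fun t => wC M (ψt t) :=
    smP_xd (⟨hPu, isOpen_Ω, ofRealCLM.contDiff.comp_contDiffOn hsm⟩ :
      SmP (Icc 0 T) Ω fun t x => (ψt t x : ℂ)) M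
  have hf : SmP (Icc 0 T) Ω f :=
    ((⟨hPu, isOpen_Ω, ofRealCLM.contDiff.comp_contDiffOn (hχ.comp_contDiffOn hhR)⟩ :
      SmP (Icc 0 T) Ω fun t x => (bump (hR L (ψt t) x) : ℂ)).mul' (hwP.mul' hwP)).mul' hdel
  have hf0 : ∀ t ∈ Icc 0 T, ∀ x ∉ C, f t x = 0 := fun t ht x hx => by simp [f, h0 t ht x hx]
  have hEeq : ∀ t ∈ Icc 0 T, (∫ x, f t x).re = en bump L (ψt t) (wC M (ψt t)) := fun t ht => by
    have hi : Integrable (f t) :=
      integrable_of_support (hf.slice ht).smooth.continuousOn hC hCΩ (hf0 t ht)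
    have h := integral_re hi
    simp only [RCLike.re_to_complex] at h
    rw [← h]
    refine integral_congr_ae (Eventually.of_forall fun x => ?_)
    simp [f, Complex.conj_eq_iff_im.1 ((hgood t ht).toPre.wC_conj_all x), sq]
  have hfO := hf.mono' isOpen_Ioo.uniqueDiffOn (Ioo_subset_Icc_self (a := (0 : ℝ)) (b := T))
  have hderiv : ∀ s ∈ Ioo 0 T,
      HasDerivAt (fun t => (∫ x, f t x).re) (∫ x, dt f s x).re s := fun s hs => by
    exact Complex.reCLM.hasFDerivAt.comp_hasDerivAt s (hasDerivAt_integral hfO isOpen_Ioo hC hCΩ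
      (fun r hr => hf0 r (Ioo_subset_Icc_self hr)) hs)
  have hkey : ∀ s ∈ Ioo 0 T, (∫ x, dt f s x).re
      ≤ (9 * V / L + 2 / L ^ 2 * (K + (K + 9) ^ 2 / 4) + δ * D) * (∫ x, f s x).re := by
    intro s hs
    have hs' : s ∈ Icc 0 T := Ioo_subset_Icc_self hs
    rw [hEeq s hs']
    refine flow_dt_le hL hflow (gen_skew hM) hC hCΩ hout hK0 hs
      (hK s hs' _ (hgood s hs').toPre.sm_wC (hgood s hs').toPre.wC_conj_all)
      (fun x hx => hV (s, x) ⟨hs', hx⟩) (fun x hx => hD s hs x hx) fun x hx => ?_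
    have hp := (hgood s hs').del_pos (hCΩ hx)
    have := hδ (s, x) ⟨hs', hx⟩
    simp only [Function.uncurry, norm_inv, norm_real, Real.norm_of_nonneg hp.le] at this
    rwa [← div_le_iff₀ hp, one_div]
  have hEc : ContinuousOn (fun t => (∫ x, f t x).re) (Icc 0 T) :=
    continuous_re.comp_continuousOn
      (continuousOn_integral hf.smooth.continuousOn hC hCΩ isCompact_Icc hf0)
  have hE0 : (∫ x, f 0 x).re = 0 := by
    have h0T : (0 : ℝ) ∈ Icc 0 T := left_mem_Icc.2 hT.le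
    have hz := invariant_wC_zero (hgood 0 h0T).toPre (invariant_congr hflow.initial hinv) hM
    have hz' : ∀ x, f 0 x = 0 := fun x => by
      by_cases hx : x ∈ C
      · simp [f, hz x (hCΩ hx)]
      · exact hf0 0 h0T x hx
    simp [hz']
  have hzero := eq_zero_of_deriv_le hEc hderiv hkey hE0 (fun s hs => by
    rw [hEeq s hs]
    refine integral_nonneg fun x => ?_
    by_cases hx : x ∈ C
    · exact mul_nonneg (mul_nonneg bump.nonneg (sq_nonneg _)) ((hgood s hs).del_pos (hCΩ hx)).le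
    · simp [h0 s hs x hx]) t₁ ht₁
  rw [hEeq t₁ ht₁] at hzero
  exact (hgood t₁ ht₁).eq_zero_of_en hC hCΩ (h0 t₁ ht₁) (hgood t₁ ht₁).toPre.sm_wC
    (hgood t₁ ht₁).toPre.deg0_wC (hgood t₁ ht₁).toPre.wC_conj_all hzero hZ

end Vale.Agent.P264.Manifold

end
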